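import Vale.Agent.P256.St.Defs

/-! Positivity of the kernel at mixed pairs. -/

namespace Vale.Agent.P256.St

open MvPolynomial

variable {m k : ℕ}

theorem aff_form {P : MvPolynomial (Fin m) ℝ} (hP : P.totalDegree ≤ 1) :
    P = C (coeff 0 P) + ∑ i, C (coeff (Finsupp.single i 1) P) * X i := by
  ext d
  rw [coeff_add, coeff_sum, coeff_C]
  simp_rw [coeff_C_mul, coeff_X']
  by_cases h0 : d = 0
  · subst h0
    simp
  · by_cases h1 : ∃ i, d = Finsupp.single i 1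
    · obtain ⟨i, rfl⟩ := h1
      rw [if_neg (Ne.symm h0), zero_add, Finset.sum_eq_single i]
      · simp
      · intro j _ hj
        rw [if_neg (fun h => hj (Finsupp.single_left_injective one_ne_zero h)), mul_zero]
      · simp
    · have h2 : coeff d P = 0 := by
        apply coeff_eq_zero_of_totalDegree_lt
        by_contra hlt
        push Not at hlt
        have h3 : ∑ i ∈ d.support, d i ≤ 1 := hlt.trans hP
        interval_cases h4 : ∑ i ∈ d.support, d i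
        · apply h0
          rw [Finset.sum_eq_zero_iff] at h4
          ext i
          by_cases hi : i ∈ d.support
          · exact h4 i hi
          · simpa using hi
        · exact h1 ((Finsupp.sum_eq_one_iff d).1 h4)
      rw [h2, if_neg (Ne.symm h0), zero_add]
      symm
      refine Finset.sum_eq_zero fun i _ => ?_
      rw [if_neg (fun h => h1 ⟨i, h.symm⟩), mul_zero]

theorem aff_eval {P : MvPolynomial (Fin m) ℝ} (hP : P.totalDegree ≤ 1) :
    ∃ (a0 : ℝ) (a : Fin m → ℝ), (∀ η, eval η P = a0 + ∑ i, a i * η i) ∧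
      ∀ η i, eval η (pderiv i P) = a i := by
  refine ⟨coeff 0 P, fun i => coeff (Finsupp.single i 1) P, fun η => ?_, fun η i => ?_⟩
  · conv_lhs => rw [aff_form hP]
    simp
  · conv_lhs => rw [aff_form hP]
    rw [map_add, pderiv_C, zero_add, map_sum, map_sum]
    rw [Finset.sum_eq_single i]
    · simp
    · intro j _ hj
      rw [pderiv_C_mul, pderiv_X_of_ne hj]
      simp
    · simp

/-- the form at parameters with `w 0 = 0` is affine in `η` -/
theorem NF.aff (F : NF m k) {w : Fin (k + 1) → ℝ} (hw : w 0 = 0) :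
    ∃ (a0 : ℝ) (a : Fin m → ℝ), (∀ η, F.nn η w w = a0 + ∑ i, a i * η i) ∧
      ∀ η d, F.dn η d w w = ∑ i, a i * d i := by
  have h := fun (i j : Fin k) => aff_eval (F.deg2 i j)
  choose a0 a ha hb using h
  refine ⟨∑ i, ∑ j, a0 i j * w (Fin.succ i) * w (Fin.succ j),
    fun l => ∑ i, ∑ j, a i j l * w (Fin.succ i) * w (Fin.succ j), fun η => ?_, fun η d => ?_⟩
  · rw [NF.nn, Fin.sum_univ_succ]
    simp only [Fin.sum_univ_succ, hw, mul_zero, zero_mul, Finset.sum_const_zero, zero_add, ha]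
    have h1 : ∑ l, (∑ i, ∑ j, a i j l * w (Fin.succ i) * w (Fin.succ j)) * η l =
        ∑ i, ∑ j, (∑ l, a i j l * η l) * w (Fin.succ i) * w (Fin.succ j) := by
      simp only [Finset.sum_mul]
      rw [Finset.sum_comm]
      refine Finset.sum_congr rfl fun i _ => ?_
      rw [Finset.sum_comm]
      refine Finset.sum_congr rfl fun j _ => Finset.sum_congr rfl fun l _ => ?_
      ring
    rw [h1, ← Finset.sum_add_distrib]
    refine Finset.sum_congr rfl fun i _ => ?_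
    rw [← Finset.sum_add_distrib]
    refine Finset.sum_congr rfl fun j _ => ?_
    ring
  · rw [NF.dn]
    refine Finset.sum_congr rfl fun l _ => ?_
    rw [Fin.sum_univ_succ]
    simp only [Fin.sum_univ_succ, hw, mul_zero, zero_mul, Finset.sum_const_zero, zero_add, hb]
    rw [mul_comm]

theorem cs_le (a b : Fin m → ℝ) :
    (∑ i, a i * b i) ^ 2 ≤ (∑ i, a i ^ 2) * ∑ i, b i ^ 2 :=
  Finset.sum_mul_sq_le_sq_mul_sq Finset.univ a b

theorem aff_norm (hm : 0 < m) {a0 : ℝ} {a : Fin m → ℝ}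
    (h : ∀ η : Fin m → ℝ, ∑ i, η i ^ 2 = 1 → 0 < a0 + ∑ i, a i * η i) :
    0 < a0 ∧ ∑ i, a i ^ 2 < a0 ^ 2 := by
  by_cases ha : ∑ i, a i ^ 2 = 0
  · have h1 : ∀ i, a i = 0 := by
      intro i
      have h2 := (Finset.sum_eq_zero_iff_of_nonneg (fun i _ => sq_nonneg (a i))).1 ha i
        (Finset.mem_univ i)
      exact pow_eq_zero_iff (two_ne_zero) |>.1 h2
    have h3 := h (Pi.single ⟨0, hm⟩ 1) (by
      rw [Finset.sum_eq_single (⟨0, hm⟩ : Fin m)]
      · simp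
      · intro b _ hb
        rw [Pi.single_eq_of_ne hb]
        norm_num
      · simp)
    simp only [h1, zero_mul, Finset.sum_const_zero, add_zero] at h3
    refine ⟨h3, ?_⟩
    rw [ha]
    positivity
  · have hpos : 0 < ∑ i, a i ^ 2 :=
      lt_of_le_of_ne (Finset.sum_nonneg fun i _ => sq_nonneg _) (Ne.symm ha)
    set r := Real.sqrt (∑ i, a i ^ 2) with hr
    have hr0 : 0 < r := Real.sqrt_pos.2 hpos
    have hrr : r ^ 2 = ∑ i, a i ^ 2 := Real.sq_sqrt hpos.le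
    have h1 := h (fun i => -(a i / r)) (by
      have : ∀ i, (-(a i / r)) ^ 2 = a i ^ 2 / r ^ 2 := fun i => by rw [neg_sq, div_pow]
      simp_rw [this]
      rw [← Finset.sum_div, ← hrr, div_self (pow_ne_zero 2 hr0.ne')])
    have h2 : ∑ i, a i * -(a i / r) = -r := by
      have : ∀ i, a i * -(a i / r) = -(a i ^ 2 / r) := fun i => by ring
      simp_rw [this]
      rw [Finset.sum_neg_distrib, ← Finset.sum_div, ← hrr]
      field_simp
    rw [h2] at h1
    refine ⟨by linarith, ?_⟩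
    rw [← hrr]
    nlinarith

theorem aff_ball (hm : 0 < m) {a0 : ℝ} {a : Fin m → ℝ}
    (h : ∀ η : Fin m → ℝ, ∑ i, η i ^ 2 = 1 → 0 < a0 + ∑ i, a i * η i)
    {η : Fin m → ℝ} (hη : ∑ i, η i ^ 2 ≤ 1) : 0 < a0 + ∑ i, a i * η i := by
  obtain ⟨h0, h1⟩ := aff_norm hm h
  have h2 := cs_le a η
  by_contra hneg
  push Not at hneg
  have h3 : a0 ^ 2 ≤ (∑ i, a i * η i) ^ 2 := by nlinarith
  have h4 : (∑ i, a i ^ 2) * ∑ i, η i ^ 2 ≤ ∑ i, a i ^ 2 := by
    have : 0 ≤ ∑ i, a i ^ 2 := Finset.sum_nonneg fun i _ => sq_nonneg _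
    nlinarith
  linarith

/-- `N(η)[w,w] > 0` on the zero set of `ρ` -/
theorem nn_pos (hm : 0 < m) (F : NF m k) (hs : F.Strict)
    {x : (Fin (k + 1) → ℝ) × (Fin m → ℝ)} (hx : x ∈ DD m k) (h : ro x = 0) :
    0 < F.nn x.2 x.1 x.1 := by
  have hne : x.1 ≠ 0 := by
    intro h0
    have := hx.1
    rw [h0] at this
    simp at this
  rcases mul_eq_zero.1 h with h1 | h1
  · obtain ⟨a0, a, ha, -⟩ := F.aff h1
    rw [ha]
    exact aff_ball hm (fun η hη => by rw [← ha]; exact hs η hη _ hne) hx.2.2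
  · exact hs _ (by rw [qh] at h1; linarith) _ hne

theorem pos_b (hm : 0 < m) (F : NF m k) (hs : F.Strict)
    {l x : (Fin (k + 1) → ℝ) × (Fin m → ℝ)} (hx : x ∈ DD m k)
    (h : 0 < ro l) (h' : ro x = 0) : 0 < F.kern l x := by
  have h1 := nn_pos hm F hs hx h'
  have h2 : qh x.2 * (x.1 0) ^ 2 = 0 := by
    have : qh x.2 * (x.1 0) ^ 2 = ro x * x.1 0 := by rw [ro]; ring
    rw [this, h', zero_mul]
  have h3 : F.kern l x = F.nn x.2 x.1 x.1 * ro l ^ 2 := by
    rw [NF.kern, h2, h']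
    ring
  rw [h3]
  positivity

theorem cc_pos {a0 s t A : ℝ} (ha0 : 0 < a0) (hs0 : 0 ≤ s) (hs1 : 0 < 1 - s)
    (ha1 : A < a0 ^ 2) (h8 : t ^ 2 ≤ A * s) : 0 < a0 * (1 + s) + 2 * t := by
  by_contra hneg
  push Not at hneg
  have h10 : (a0 * (1 + s)) ^ 2 ≤ (2 * t) ^ 2 := by
    have h1 : 0 ≤ a0 * (1 + s) := by positivity
    have h2 : a0 * (1 + s) ≤ -(2 * t) := by linarith
    have h3 := pow_le_pow_left₀ h1 h2 2
    rwa [neg_sq] at h3
  have h12 : A * s ≤ a0 ^ 2 * s := mul_le_mul_of_nonneg_right ha1.le hs0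
  have h13 : 0 < a0 ^ 2 * (1 - s) ^ 2 := by positivity
  have h14 : a0 ^ 2 * (1 - s) ^ 2 = (a0 * (1 + s)) ^ 2 - 4 * (a0 ^ 2 * s) := by ring
  have h15 : (2 * t) ^ 2 = 4 * t ^ 2 := by ring
  linarith

theorem lin_pos {cc V W T : ℝ} (hcc : 0 < cc) (hV : V < cc ^ 2) (hT : T ^ 2 ≤ V * W)
    (hW : W ≤ 1) (hV0 : 0 ≤ V) : 0 < cc - T := by
  by_contra hneg
  push Not at hneg
  have h1 : cc ^ 2 ≤ T ^ 2 := pow_le_pow_left₀ hcc.le (by linarith) 2
  have h2 : V * W ≤ V := mul_le_of_le_one_right hV0 hW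
  linarith

theorem pos_c (hm : 0 < m) (F : NF m k) (hs : F.Strict)
    {l x : (Fin (k + 1) → ℝ) × (Fin m → ℝ)} (hl : l ∈ DD m k) (hx : x ∈ DD m k)
    (h : ro l = 0) (h' : 0 < ro x) : 0 < F.kern l x := by
  have hn := nn_pos hm F hs hl h
  have hq0 : 0 ≤ qh x.2 := by rw [qh]; linarith [hx.2.2]
  have hl0 : 0 < x.1 0 := by
    rcases hx.2.1.lt_or_eq with h1 | h1
    · exact h1
    · rw [ro, ← h1, zero_mul] at h'
      exact absurd h' (lt_irrefl _)
  have hq : 0 < qh x.2 := by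
    rcases hq0.lt_or_eq with h1 | h1
    · exact h1
    · rw [ro, ← h1, mul_zero] at h'
      exact absurd h' (lt_irrefl _)
  have h3 : F.kern l x = (x.1 0) ^ 2 * qh x.2 * (F.nn l.2 l.1 l.1 * qh x.2 +
      (F.nn l.2 l.1 l.1 * ∑ i, (x.2 i - l.2 i) ^ 2 -
      qh l.2 * F.dn l.2 (fun i => x.2 i - l.2 i) l.1 l.1)) := by
    rw [NF.kern, h]
    rw [ro]
    ring
  rw [h3]
  refine mul_pos (by positivity) ?_
  rcases mul_eq_zero.1 h with h1 | h1
  · have hne : l.1 ≠ 0 := by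
      intro h0
      have := hl.1
      rw [h0] at this
      simp at this
    obtain ⟨a0, a, ha, hd⟩ := F.aff h1
    have hsph : ∀ η : Fin m → ℝ, ∑ i, η i ^ 2 = 1 → 0 < a0 + ∑ i, a i * η i :=
      fun η hη => by rw [← ha]; exact hs η hη _ hne
    obtain ⟨ha0, ha1⟩ := aff_norm hm hsph
    rw [ha, hd]
    rcases eq_or_lt_of_le (show 0 ≤ qh l.2 by rw [qh]; linarith [hl.2.2]) with hql | hql
    · rw [← hql, zero_mul, sub_zero]
      have h5 : 0 < a0 + ∑ i, a i * l.2 i := by rw [← ha]; exact hn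
      have h6 : 0 ≤ ∑ i, (x.2 i - l.2 i) ^ 2 := Finset.sum_nonneg fun i _ => sq_nonneg _
      positivity
    set t := ∑ i, a i * l.2 i with ht
    set s := ∑ i, l.2 i ^ 2 with hsd
    set A := ∑ i, a i ^ 2 with hA
    have hqs : qh l.2 = 1 - s := rfl
    have e1 : ∑ i, (x.2 i - l.2 i) ^ 2 = (1 - qh x.2) + s - 2 * ∑ i, l.2 i * x.2 i := by
      have : ∀ i, (x.2 i - l.2 i) ^ 2 = x.2 i ^ 2 + l.2 i ^ 2 - 2 * (l.2 i * x.2 i) :=
        fun i => by ring
      simp_rw [this]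
      rw [Finset.sum_sub_distrib, Finset.sum_add_distrib, ← Finset.mul_sum, qh]
      ring
    have e2 : ∑ i, a i * (x.2 i - l.2 i) = ∑ i, a i * x.2 i - t := by
      simp_rw [mul_sub]
      rw [Finset.sum_sub_distrib]
    set v : Fin m → ℝ := fun i => 2 * (a0 + t) * l.2 i + (1 - s) * a i with hv
    set cc : ℝ := (a0 + t) * (1 + s) + (1 - s) * t with hcc
    have e3 : (a0 + t) * qh x.2 + ((a0 + t) * ∑ i, (x.2 i - l.2 i) ^ 2 -
        qh l.2 * ∑ i, a i * (x.2 i - l.2 i)) = cc - ∑ i, v i * x.2 i := by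
      have e4 : ∑ i, v i * x.2 i = 2 * (a0 + t) * ∑ i, l.2 i * x.2 i +
          (1 - s) * ∑ i, a i * x.2 i := by
        simp only [hv]
        rw [Finset.mul_sum, Finset.mul_sum, ← Finset.sum_add_distrib]
        exact Finset.sum_congr rfl fun i _ => by ring
      rw [e1, e2, e4, hqs, hcc]
      ring
    rw [e3]
    have e5 : ∑ i, v i ^ 2 = 4 * (a0 + t) ^ 2 * s + 4 * (a0 + t) * (1 - s) * t +
        (1 - s) ^ 2 * A := by
      have : ∀ i, v i ^ 2 = 4 * (a0 + t) ^ 2 * l.2 i ^ 2 +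
          4 * (a0 + t) * (1 - s) * (a i * l.2 i) + (1 - s) ^ 2 * a i ^ 2 := fun i => by
        simp only [hv]
        ring
      simp_rw [this]
      rw [Finset.sum_add_distrib, Finset.sum_add_distrib, ← Finset.mul_sum, ← Finset.mul_sum,
        ← Finset.mul_sum]
    have e6 : cc ^ 2 - ∑ i, v i ^ 2 = (1 - s) ^ 2 * (a0 ^ 2 - A) := by
      rw [e5, hcc]
      ring
    have hs1 : 0 < 1 - s := by rw [← hqs]; exact hql
    have hs0 : 0 ≤ s := Finset.sum_nonneg fun i _ => sq_nonneg _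
    have h7 : ∑ i, v i ^ 2 < cc ^ 2 := by
      have : 0 < (1 - s) ^ 2 * (a0 ^ 2 - A) := by
        have : 0 < a0 ^ 2 - A := by linarith
        positivity
      linarith
    have hcc0 : 0 < cc := by
      have h9 : cc = a0 * (1 + s) + 2 * t := by rw [hcc]; ring
      rw [h9]
      exact cc_pos ha0 hs0 hs1 ha1 (cs_le a l.2)
    exact lin_pos hcc0 h7 (cs_le v x.2) hx.2.2 (Finset.sum_nonneg fun i _ => sq_nonneg _)
  · rw [h1, zero_mul, sub_zero]
    have h6 : 0 ≤ ∑ i, (x.2 i - l.2 i) ^ 2 := Finset.sum_nonneg fun i _ => sq_nonneg _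
    positivity

theorem pos_bc (hm : 0 < m) (F : NF m k) (hs : F.Strict)
    {l x : (Fin (k + 1) → ℝ) × (Fin m → ℝ)} (hl : l ∈ DD m k) (hx : x ∈ DD m k)
    (h : (0 < ro l ∧ ro x = 0) ∨ (ro l = 0 ∧ 0 < ro x)) : 0 < F.kern l x := by
  rcases h with ⟨h1, h2⟩ | ⟨h1, h2⟩
  · exact pos_b hm F hs hx h1 h2
  · exact pos_c hm F hs hl hx h1 h2

end Vale.Agent.P256.St
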