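import Vale.Agent.P256.C5.ClassDefs2

/-! Strict double points of cubics. -/

namespace Vale.Agent.P256

open MvPolynomial

variable {n : ℕ}

/-- `z` is a strict double point of the cubic `p`. Here `q = D_z p` is the tangent form at `z`
and `ker` the kernel of the Hessian of `p` at `z`:
`p < 0` on the boundary of `K(q,e)` off `ker`, and `D_u² p < 0` on `K(q,e)` off `ker` for all `u`
in `ker` off the line `ℝ z`. -/
def StrictDouble (p : MvPolynomial (Fin n) ℝ) (e z : Fin n → ℝ) : Prop :=
  IsDouble p e z ∧
  (∀ x ∈ hypCone (polarDeriv z p) e, (hessMat p z).mulVec x ≠ 0 →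
    eval x (polarDeriv z p) = 0 → eval x p < 0) ∧
  (∀ u : Fin n → ℝ, (hessMat p z).mulVec u = 0 → (∀ c : ℝ, u ≠ c • z) →
    ∀ x ∈ hypCone (polarDeriv z p) e, (hessMat p z).mulVec x ≠ 0 →
      eval x (polarDeriv u (polarDeriv u p)) < 0)

/-- `p` is a hyperbolic cubic, and it has at most five variables, or at some double point of the
cone its Hessian has rank at most three, or some double point of the cone is strict. -/
def GoodCubic (p : MvPolynomial (Fin n) ℝ) (e : Fin n → ℝ) : Prop :=
  IsHyperbolic p e ∧ p.IsHomogeneous 3 ∧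
    (n ≤ 5 ∨ ∃ z, (IsDouble p e z ∧ (hessMat p z).rank ≤ 3) ∨ StrictDouble p e z)

end Vale.Agent.P256
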