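import Vale.Agent.P256.St.Cone
import Vale.Agent.P256.St.ClassDefs
import Vale.Agent.P256.C5.RankMain

/-! Cubics with a strict double point. -/

namespace Vale.Agent.P256.St

open MvPolynomial Filter Topology

variable {n m k : ℕ} {p : MvPolynomial (Fin n) ℝ} {e z : Fin n → ℝ}

theorem polarDeriv_eq' (a : Fin n → ℝ) (q : MvPolynomial (Fin n) ℝ) :
    polarDeriv a q = dirD q a := rfl

theorem polar_part (hd : p.IsHomogeneous 3) (z : Fin n → ℝ) : polarDeriv z p = part p z 2 := by
  apply MvPolynomial.funext
  intro x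
  rw [part2 hd, polarDeriv_eq', eval_dirD, dd_tri hd, triL_swap23, triL_swap12]

theorem str_of (h : DPt p e z) (hz : StrictDouble p e z) : Str p e z := by
  obtain ⟨hz0, h1, h2⟩ := hz
  rw [polar_part h.hom] at h1 h2
  have hk : ∀ x, (∃ y, triL p z x y ≠ 0) → (hessMat p z).mulVec x ≠ 0 := by
    rintro x ⟨y, hy⟩ h0
    rw [hessMat_ker h.hom] at h0
    apply hy
    rw [triL_swap23, h0]
  constructor
  · intro x hx hne h0
    exact h1 x hx (hk x hne) (by rw [part2 h.hom, h0, mul_zero])
  · intro u hu hc x hx hne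
    have h3 := h2 u ((hessMat_ker h.hom z u).2 fun y => by rw [triL_swap23, hu]) hc x hx
      (hk x hne)
    have h4 : eval x (polarDeriv u (polarDeriv u p)) = 6 * triL p u u x := by
      have h5 := eval_DL_DL' h.hom x u u
      rw [DL_apply, DL_apply] at h5
      rw [polarDeriv_eq', polarDeriv_eq', h5, triL_swap12, triL_swap23]
    rw [h4] at h3
    linarith

theorem mem_Kq (h : DPt p e z) (c : Co p e z m k) {x : Fin n → ℝ} (h0 : 0 ≤ c.x0 x)
    (hq : 0 ≤ triL p z x x) (_ : 0 < c.x0 x ∨ 0 < triL p z x x) :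
    x ∈ hypCone (part p z 2) e := by
  rw [mem_hypCone_iff (part_homog p z 2)]
  intro t ht
  rw [part2 h.hom]
  have h1 : 3 * triL p z x e = c.x0 x * c.x0 e := by
    rw [c.q]
    simp [c.fe]
  have h2 : 3 * triL p z e e = c.x0 e * c.x0 e := by
    rw [c.q]
    simp [c.fe]
  have h3 : 3 * triL p z (x + t • e) (x + t • e) = 3 * triL p z x x +
      2 * t * (3 * triL p z x e) + t ^ 2 * (3 * triL p z e e) := by
    simp only [map_add, map_smul, LinearMap.add_apply, LinearMap.smul_apply, smul_eq_mul]
    rw [triL_swap23 p z e x]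
    ring
  rw [h3, h1, h2]
  have h4 := c.x0e
  have h5 : 0 ≤ 2 * t * (c.x0 x * c.x0 e) := by positivity
  have h6 : 0 < t ^ 2 * (c.x0 e * c.x0 e) := by positivity
  have h7 : 0 ≤ 3 * triL p z x x := by linarith
  linarith

theorem strict_nf (h : DPt p e z) (hS : Str p e z) (c : Co p e z m k) : (nf c).Strict := by
  -- nonzero leading coordinate
  have key : ∀ (η : Fin m → ℝ), ∑ i, η i ^ 2 = 1 → ∀ w : Fin (k + 1) → ℝ, 0 < w 0 →
      0 < (nf c).nn η w w := by
    intro η hη w hw
    have hq : qh η = 0 := by rw [qh, hη, sub_self]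
    have h1 := q_xv c (w, η)
    rw [hq, mul_zero] at h1
    have h2 : triL p z (xv c (w, η)) (xv c (w, η)) = 0 := by linarith
    have h3 : c.x0 (xv c (w, η)) = w 0 := x0_xv c _
    have h4 := hS.one (xv c (w, η)) (mem_Kq h c (by rw [h3]; exact hw.le) h2.ge
      (Or.inl (by rw [h3]; exact hw))) ⟨e, ?_⟩ h2
    · rw [eval_xv h c (w, η)] at h4
      have h5 : 0 < w 0 * (nf c).nn η w w := by
        have : eval (xv c (w, η)) p < 0 := by rw [eval_xv h c (w, η)]; exact h4
        linarith
      exact (pos_iff_pos_of_mul_pos h5).1 hw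
    · intro h0
      have h5 := c.q (xv c (w, η)) e
      rw [h0, h3] at h5
      simp only [c.fe, mul_zero, Finset.sum_const_zero, sub_zero] at h5
      have := mul_pos hw c.x0e
      linarith
  intro η hη w hw
  rcases lt_trichotomy (w 0) 0 with h0 | h0 | h0
  · have h1 := key η hη (-w) (by rw [Pi.neg_apply]; linarith)
    have h2 : (nf c).nn η (-w) (-w) = (nf c).nn η w w := by
      simp only [NF.nn, Pi.neg_apply]
      refine Finset.sum_congr rfl fun a _ => Finset.sum_congr rfl fun b _ => by ring
    rwa [h2] at h1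
  · have h1 : (nf c).nn η w w = -(3 * triL p (yv c η) (uv c w) (uv c w)) := by
      rw [nn_eq, h0]
      ring
    have hy0 : c.x0 (yv c η) = 1 := x0_yv c η
    have hq : 3 * triL p z (yv c η) (yv c η) = 0 := by
      rw [c.q, hy0]
      simp only [f_yv]
      have : ∑ i, η i * η i = 1 := by
        rw [← hη]
        exact Finset.sum_congr rfl fun i _ => by ring
      rw [this]
      ring
    have h2 := hS.two (uv c w) (ker_uv c w) (fun a ha => ?_) (yv c η)
      (mem_Kq h c (by rw [hy0]; norm_num) (by linarith) (Or.inl (by rw [hy0]; norm_num)))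
      ⟨e, fun h3 => ?_⟩
    · rw [h1, triL_swap12, triL_swap23]
      linarith
    · apply hw
      funext i
      refine Fin.cases h0 (fun j => ?_) i
      have h3 := congrArg (c.g j) ha
      rw [g_uv, map_smul, c.gz, smul_zero] at h3
      exact h3
    · have h5 := c.q (yv c η) e
      rw [h3, hy0] at h5
      simp only [c.fe, mul_zero, Finset.sum_const_zero, sub_zero] at h5
      have := c.x0e
      linarith
  · exact key η hη w h0

/-- **Cubics with a strict double point**, given the local part. -/
theorem strict_shad (sos : ∀ m k, SosStmt m k) (hp : IsHyperbolic p e)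
    (hd : p.IsHomogeneous 3) (hz : StrictDouble p e z) : GShad (hypCone p e) := by
  have h : DPt p e z := DPt.of hp hd hz.1.1 hz.1.2.1 hz.1.2.2
  have hS := str_of h hz
  obtain ⟨m, k, ⟨c⟩⟩ := h.co
  rcases Nat.eq_zero_or_pos m with hm | hm
  · subst hm
    apply h.shad3
    have h1 : hess p z = Matrix.vecMulVec (fun i => 2 * c.x0 (Pi.single i 1))
        (fun i => c.x0 (Pi.single i 1)) := by
      ext i j
      rw [Matrix.vecMulVec_apply]
      have h2 := hess_form hd z (Pi.single i 1) (Pi.single j 1)
      have h3 : ∑ a, ∑ b, (Pi.single i (1 : ℝ) : Fin n → ℝ) a *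
          (hess p z a b * (Pi.single j (1 : ℝ) : Fin n → ℝ) b) = hess p z i j := by
        rw [Finset.sum_eq_single i, Finset.sum_eq_single j]
        · simp
        · intro b _ hb
          rw [Pi.single_eq_of_ne hb]
          ring
        · simp
        · intro a _ ha
          rw [Pi.single_eq_of_ne ha]
          simp
        · simp
      rw [← h3, h2]
      have h4 := c.q (Pi.single i 1) (Pi.single j 1)
      simp only [Finset.univ_eq_empty, Finset.sum_empty, sub_zero] at h4
      linarith
    rw [h1]
    exact (Matrix.rank_vecMulVec_le _ _).trans (by norm_num)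
  · exact shad_of_sos h hS c hm (strict_nf h hS c) (sos m k hm (nf c) (strict_nf h hS c))

/-- the cubic part of the final statement -/
theorem good_shad (sos : ∀ m k, SosStmt m k) (h : GoodCubic p e) : GShad (hypCone p e) := by
  obtain ⟨hp, hd, h | ⟨z, ⟨⟨hz, hz', hg⟩, hH⟩ | h⟩⟩ := h
  · exact cubic_five n h p e hp hd
  · exact (DPt.of hp hd hz hz' hg).shad3 hH
  · exact strict_shad sos hp hd h

end Vale.Agent.P256.St
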