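import Vale.Agent.P256.St.Gen

/-! The slack kernel of a strict normal form is a finite sum of squares: all base pairs. -/

namespace Vale.Agent.P256.St

open MvPolynomial Filter Topology

variable {m k : ℕ}

theorem DD_q {x : PP m k} (hx : x ∈ DD m k) : 0 ≤ qh x.2 := by
  have := hx.2.2
  unfold qh
  linarith

theorem DD_ne {x : PP m k} (hx : x ∈ DD m k) : x.1 ≠ 0 := by
  intro h
  have h1 := hx.1
  rw [h] at h1
  simp at h1

/-- generators of the 2 × 2 form -/
noncomputable def g2 : Fin 2 → PP m k → PP m k → ℝ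
  | 0 => fun l _ => ro l
  | 1 => fun _ x => Real.sqrt (qh x.2) * x.1 0

theorem g2_FR (i : Fin 2) : FR (g2 i : PP m k → PP m k → ℝ) := by
  fin_cases i
  · exact FR.left _
  · exact FR.right _

namespace NF

variable (F : NF m k)

/-- the lower entry of the 2 × 2 form -/
noncomputable def low (l x : PP m k) : ℝ :=
  F.nn l.2 l.1 l.1 * (qh x.2 + ∑ i, (x.2 i - l.2 i) ^ 2) -
    qh l.2 * F.dn l.2 (fun i => x.2 i - l.2 i) l.1 l.1

theorem low_CK : CK (Set.univ : Set (PP m k)) (Set.univ : Set (PP m k)) F.low := by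
  have c2 : CK (Set.univ : Set (PP m k)) (Set.univ : Set (PP m k))
      (fun l _ => F.nn l.2 l.1 l.1) := CK.lc (F.cont_nn _ _ continuous_fst continuous_fst)
  have c7 : ∀ i, CK (Set.univ : Set (PP m k)) (Set.univ : Set (PP m k))
      (fun l x => x.2 i - l.2 i) := fun i => (CK.rc (cont_c2 i)).sub (CK.lc (cont_c2 i))
  have c8 : CK (Set.univ : Set (PP m k)) (Set.univ : Set (PP m k))
      (fun l _ => qh l.2) := CK.lc cont_qh
  have c8' : CK (Set.univ : Set (PP m k)) (Set.univ : Set (PP m k))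
      (fun _ x => qh x.2) := CK.rc cont_qh
  have c9 : CK (Set.univ : Set (PP m k)) (Set.univ : Set (PP m k))
      (fun l x => F.dn l.2 (fun i => x.2 i - l.2 i) l.1 l.1) := by
    unfold dn
    refine CK.sum _ fun i _ => (c7 i).mul (CK.lc ?_)
    refine continuous_finsetSum _ fun a _ => continuous_finsetSum _ fun b _ => ?_
    exact ((cont_ev _).mul (cont_c1 a)).mul (cont_c1 b)
  have c10 : CK (Set.univ : Set (PP m k)) (Set.univ : Set (PP m k))
      (fun l x => ∑ i, (x.2 i - l.2 i) ^ 2) :=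
    (CK.sum Finset.univ fun i _ => (c7 i).mul (c7 i)).congr
      (fun l x => Finset.sum_congr rfl fun i _ => by ring)
  exact (c2.mul (c8'.add c10)).sub (c8.mul c9)

theorem mix_CK : CK (Set.univ : Set (PP m k)) (Set.univ : Set (PP m k))
    (fun l x => Real.sqrt (qh x.2) * F.nn l.2 l.1 x.1) := by
  refine (CK.rc cont_sq).mul ?_
  unfold nn
  refine CK.sum _ fun a _ => CK.sum _ fun b _ => ?_
  exact (CK.lc ((cont_ev _).mul (cont_c1 a))).mul (CK.rc (cont_c1 b))

theorem up_CK : CK (Set.univ : Set (PP m k)) (Set.univ : Set (PP m k))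
    (fun _ x => F.nn x.2 x.1 x.1) := CK.rc (F.cont_nn _ _ continuous_fst continuous_fst)

theorem kern_two {l x : PP m k} (hx : x ∈ DD m k) :
    F.kern l x = F.nn x.2 x.1 x.1 * (ro l * ro l) -
      2 * (Real.sqrt (qh x.2) * F.nn l.2 l.1 x.1) *
        (ro l * (Real.sqrt (qh x.2) * x.1 0)) +
      F.low l x * ((Real.sqrt (qh x.2) * x.1 0) * (Real.sqrt (qh x.2) * x.1 0)) := by
  have hsq : Real.sqrt (qh x.2) ^ 2 = qh x.2 := Real.sq_sqrt (DD_q hx)
  set s := Real.sqrt (qh x.2)
  have hro : ro x = s ^ 2 * x.1 0 := by rw [hsq]; unfold ro; ring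
  unfold kern low
  rw [hro, ← hsq]
  ring

theorem near_mat {l0 x0 : PP m k}
    (h : ∀ α β : ℝ, (α ≠ 0 ∨ β ≠ 0) → 0 < F.nn x0.2 x0.1 x0.1 * (α * α) -
      2 * (Real.sqrt (qh x0.2) * F.nn l0.2 l0.1 x0.1) * (α * β) + F.low l0 x0 * (β * β))
    (hl : l0 ∈ DD m k) (hx : x0 ∈ DD m k) :
    ∃ U ∈ 𝓝 l0, ∃ V ∈ 𝓝 x0, SosOn (U ∩ DD m k) (V ∩ DD m k) F.kern := by
  have b0 : LinK (DD m k) (DD m k) {l0} {x0} (g2 : Fin 2 → PP m k → PP m k → ℝ) (g2 0)
      (fun _ _ y => y 0) := LinK.basic 0
  have b1 : LinK (DD m k) (DD m k) {l0} {x0} (g2 : Fin 2 → PP m k → PP m k → ℝ) (g2 1)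
      (fun _ _ y => y 1) := LinK.basic 1
  have q1 := (b0.mul b0).smul (m := fun _ x => F.nn x.2 x.1 x.1)
    (CK.mono' F.up_CK (Set.subset_univ _) (Set.subset_univ _))
  have q2 := (b0.mul b1).smul (m := fun l x => -2 * (Real.sqrt (qh x.2) * F.nn l.2 l.1 x.1))
    ((CK.mono' F.mix_CK (Set.subset_univ _) (Set.subset_univ _)).smul (-2))
  have q3 := (b1.mul b1).smul (m := fun l x => F.low l x)
    (CK.mono' F.low_CK (Set.subset_univ _) (Set.subset_univ _))
  have hall : QuadK (DD m k) (DD m k) {l0} {x0} (g2 : Fin 2 → PP m k → PP m k → ℝ) F.kern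
      (fun l x y => F.nn x.2 x.1 x.1 * (y 0 * y 0) +
        -2 * (Real.sqrt (qh x.2) * F.nn l.2 l.1 x.1) * (y 0 * y 1) +
        F.low l x * (y 1 * y 1)) := by
    refine ((q1.add q2).add q3).congr ?_ ?_
    · intro l _ x hx
      rw [F.kern_two hx]
      show _ = F.nn x.2 x.1 x.1 * (ro l * ro l) +
        -2 * (Real.sqrt (qh x.2) * F.nn l.2 l.1 x.1) *
          (ro l * (Real.sqrt (qh x.2) * x.1 0)) +
        F.low l x * ((Real.sqrt (qh x.2) * x.1 0) * (Real.sqrt (qh x.2) * x.1 0))
      ring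
    · intro l _ x _ y
      rfl
  refine hall.sos g2_FR hl hx (Set.mem_singleton _) (Set.mem_singleton _) (fun y hy => ?_)
  have hy' : y 0 ≠ 0 ∨ y 1 ≠ 0 := by
    by_contra hcon
    rw [not_or, not_not, not_not] at hcon
    apply hy
    ext i
    fin_cases i
    · exact hcon.1
    · exact hcon.2
  have := h (y 0) (y 1) hy'
  linarith

theorem near_prod {l0 x0 : PP m k} (hA : 0 < F.nn x0.2 x0.1 x0.1)
    (hB : Real.sqrt (qh x0.2) * F.nn l0.2 l0.1 x0.1 < 0) (hC : 0 < F.low l0 x0) :
    ∃ U ∈ 𝓝 l0, ∃ V ∈ 𝓝 x0, SosOn (U ∩ DD m k) (V ∩ DD m k) F.kern := by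
  obtain ⟨U1, hU1, V1, hV1, s1⟩ := ((F.up_CK).germ (Set.mem_univ l0) (Set.mem_univ x0)).pos hA
  obtain ⟨U2, hU2, V2, hV2, s2⟩ := (((F.mix_CK).smul (-2)).germ (Set.mem_univ l0)
    (Set.mem_univ x0)).pos (by linarith)
  obtain ⟨U3, hU3, V3, hV3, s3⟩ := ((F.low_CK).germ (Set.mem_univ l0) (Set.mem_univ x0)).pos hC
  refine ⟨U1 ∩ U2 ∩ U3, inter_mem (inter_mem hU1 hU2) hU3, V1 ∩ V2 ∩ V3,
    inter_mem (inter_mem hV1 hV2) hV3, ?_⟩
  set S : Set (PP m k) := U1 ∩ U2 ∩ U3 ∩ DD m k with hS
  set T : Set (PP m k) := V1 ∩ V2 ∩ V3 ∩ DD m k with hT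
  have e1 : SosOn S T (fun _ x => F.nn x.2 x.1 x.1) :=
    s1.mono (fun z hz => hz.1.1.1) (fun z hz => hz.1.1.1)
  have e2 : SosOn S T (fun l x => -2 * (Real.sqrt (qh x.2) * F.nn l.2 l.1 x.1)) :=
    s2.mono (fun z hz => hz.1.1.2) (fun z hz => hz.1.1.2)
  have e3 : SosOn S T (fun l x => F.low l x) :=
    s3.mono (fun z hz => hz.1.2) (fun z hz => hz.1.2)
  have f1 : SosOn S T (fun l (_ : PP m k) => ro l) := SosOn.left (fun l hl =>
    mul_nonneg hl.2.2.1 (DD_q hl.2))
  have f2 : SosOn S T (fun (_ : PP m k) x => Real.sqrt (qh x.2) * x.1 0) :=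
    SosOn.right (fun x hx => mul_nonneg (Real.sqrt_nonneg _) hx.2.2.1)
  refine (((e1.mul (f1.mul f1)).add (e2.mul (f1.mul f2))).add (e3.mul (f2.mul f2))).congr ?_
  intro l _ x hx
  rw [F.kern_two hx.2]
  ring

/-- homogeneity of the limit form -/
theorem cf_form (κ : ℝ) {l0 x0 : PP m k} (h0 : l0.2 = x0.2) :
    Continuous (F.cf κ x0.2 l0.1) ∧ ∀ (t : ℝ) (y : Fin (k + 1) ⊕ Fin m → ℝ),
      F.cf κ x0.2 l0.1 (t • y) = t ^ 2 * F.cf κ x0.2 l0.1 y :=
  (F.quadK_kern κ l0 x0 h0).form (Set.mem_singleton _) (Set.mem_singleton _)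

/-- Finsler step for the generator form -/
theorem near_gen {l0 x0 : PP m k} (h0 : l0.2 = x0.2) (hl : l0 ∈ DD m k) (hx : x0 ∈ DD m k)
    (h : ∀ y : Fin (k + 1) ⊕ Fin m → ℝ, y ≠ 0 →
      Real.sqrt (qh x0.2) * y (.inl 0) - 2 * l0.1 0 * ∑ i, x0.2 i * y (.inr i) = 0 →
      0 < F.cf 0 x0.2 l0.1 y) :
    ∃ U ∈ 𝓝 l0, ∃ V ∈ 𝓝 x0, SosOn (U ∩ DD m k) (V ∩ DD m k) F.kern := by
  obtain ⟨h1, h2⟩ := F.cf_form 0 h0
  obtain ⟨κ, hκ, hpos⟩ := finsler (q := F.cf 0 x0.2 l0.1)
    (B := fun y => (Real.sqrt (qh x0.2) * y (.inl 0) -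
      2 * l0.1 0 * ∑ i, x0.2 i * y (.inr i)) ^ 2) h1
    (by fun_prop)
    h2 (by
      intro t y
      simp only [Pi.smul_apply, smul_eq_mul]
      have : ∑ i, x0.2 i * (t * y (.inr i)) = t * ∑ i, x0.2 i * y (.inr i) := by
        rw [Finset.mul_sum]
        exact Finset.sum_congr rfl fun i _ => by ring
      rw [this]
      ring) (fun y => sq_nonneg _) (by
      intro y hy hB
      exact h y hy (by simpa using hB))
  refine (F.quadK_kern κ l0 x0 h0).sos gv_FR hl hx (Set.mem_singleton _)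
    (Set.mem_singleton _) (fun y hy => ?_)
  have := hpos y hy
  have e : F.cf κ x0.2 l0.1 y = F.cf 0 x0.2 l0.1 y + κ * (Real.sqrt (qh x0.2) * y (.inl 0) -
      2 * l0.1 0 * ∑ i, x0.2 i * y (.inr i)) ^ 2 := by
    unfold cf
    ring
  rw [e]
  exact this

end NF

theorem ne_zero_split {y : Fin (k + 1) ⊕ Fin m → ℝ} (hy : y ≠ 0) :
    (fun a => y (.inl a)) ≠ 0 ∨ (fun i => y (.inr i)) ≠ 0 := by
  by_contra hcon
  rw [not_or, not_not, not_not] at hcon
  apply hy
  ext i
  rcases i with a | i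
  · exact congrFun hcon.1 a
  · exact congrFun hcon.2 i

namespace NF

variable {F : NF m k}

/-- equal points with `q > 0` -/
theorem Strict.near_same (hs : F.Strict) (hm : 0 < m) {x0 : PP m k} (hx : x0 ∈ DD m k)
    (hq : 0 < qh x0.2) :
    ∃ U ∈ 𝓝 x0, ∃ V ∈ 𝓝 x0, SosOn (U ∩ DD m k) (V ∩ DD m k) F.kern := by
  refine F.near_gen rfl hx hx (fun y hy hB => ?_)
  set s := Real.sqrt (qh x0.2) with hs'
  have hspos : 0 < s := Real.sqrt_pos.2 hq
  have hsq : s ^ 2 = qh x0.2 := Real.sq_sqrt hq.le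
  set η := x0.2 with hη
  set w := x0.1 with hw
  set p : Fin (k + 1) → ℝ := fun a => y (.inl a) with hp
  set E : Fin m → ℝ := fun i => y (.inr i) with hE
  set e : Fin m → ℝ := s⁻¹ • E with he
  have eE : E = s • e := by rw [he, smul_smul, mul_inv_cancel₀ hspos.ne', one_smul]
  set b : ℝ := 2 * ∑ i, η i * e i with hb
  set v : Fin (k + 1) → ℝ := (qh η)⁻¹ • (p + (-b) • w) with hv
  have ep : p = qh η • v + b • w := by
    rw [hv, smul_smul, mul_inv_cancel₀ hq.ne', one_smul]
    ext a
    simp only [Pi.add_apply, Pi.smul_apply, smul_eq_mul]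
    ring
  have hsum : ∑ i, η i * y (.inr i) = s * (b / 2) := by
    have : ∀ i, y (.inr i) = s * e i := fun i => congrFun eE i
    rw [Finset.sum_congr rfl (fun i _ => by rw [this i])]
    rw [hb]
    have h3 : ∑ i, η i * (s * e i) = s * ∑ i, η i * e i := by
      rw [Finset.mul_sum]
      exact Finset.sum_congr rfl fun i _ => by ring
    rw [h3]
    ring
  rw [hsum] at hB
  have hp0 : p 0 = b * w 0 := by
    have h1 : s * (p 0 - b * w 0) = 0 := by
      have h2 : s * y (.inl 0) - 2 * w 0 * (s * (b / 2)) = s * (p 0 - b * w 0) := by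
        simp only [hp]
        ring
      rw [← h2]
      exact hB
    rcases mul_eq_zero.1 h1 with h | h
    · exact absurd h hspos.ne'
    · linarith
  have hv0 : v 0 = 0 := by
    rw [hv]
    simp only [Pi.add_apply, Pi.smul_apply, smul_eq_mul, hp0]
    ring
  have hne : v ≠ 0 ∨ e ≠ 0 := by
    by_contra hcon
    rw [not_or, not_not, not_not] at hcon
    have hE0 : E = 0 := by rw [eE, hcon.2, smul_zero]
    have hb0 : b = 0 := by rw [hb, hcon.2]; simp
    have hp0 : p = 0 := by rw [ep, hcon.1, hb0, smul_zero, zero_smul, add_zero]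
    rcases ne_zero_split hy with h | h
    · exact h hp0
    · exact h hE0
  have key := hs.hess_pos hm hq (DD_ne hx) hv0 hne
  have e0 : F.cf 0 η w y = F.nn η p p + 2 * s * F.dn η E p w + F.nn η w w * ∑ i, E i ^ 2 -
      2 * (∑ i, η i * y (.inr i)) * F.dn η E w w + qh η * F.d2 η E w w := by
    unfold cf
    simp only [zero_mul, add_zero]
    rfl
  have e1 : F.nn η p p = qh η ^ 2 * F.nn η v v + 2 * qh η * b * F.nn η w v +
      b ^ 2 * F.nn η w w := by
    rw [ep, nn_add_left, nn_add_right, nn_add_right]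
    simp only [nn_smul_left, nn_smul_right]
    rw [F.nn_comm η v w]
    ring
  have e2 : F.dn η E p w = s * (qh η * F.dn η e w v + b * F.dn η e w w) := by
    rw [eE, dn_smul_dir, ep, dn_add_left]
    simp only [dn_smul_left]
    rw [F.dn_comm η e v w]
  have e3 : ∑ i, E i ^ 2 = qh η * ∑ i, e i ^ 2 := by
    rw [← hsq, Finset.mul_sum]
    refine Finset.sum_congr rfl fun i _ => ?_
    rw [eE]
    simp only [Pi.smul_apply, smul_eq_mul]
    ring
  have e4 : F.dn η E w w = s * F.dn η e w w := by rw [eE, dn_smul_dir]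
  have e5 : F.d2 η E w w = qh η * F.d2 η e w w := by rw [eE, d2_smul_dir, hsq]
  rw [e0, e1, e2, e3, e4, e5, hsum]
  have e6 : 2 * s * (s * (qh η * F.dn η e w v + b * F.dn η e w w)) =
      2 * qh η * (qh η * F.dn η e w v + b * F.dn η e w w) := by rw [← hsq]; ring
  have e7 : 2 * (s * (b / 2)) * (s * F.dn η e w w) = qh η * b * F.dn η e w w := by
    rw [← hsq]; ring
  rw [e6, e7]
  linarith [key]

/-- equal `η` on the sphere -/
theorem Strict.near_bdry (hs : F.Strict) {l0 x0 : PP m k} (hl : l0 ∈ DD m k)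
    (hx : x0 ∈ DD m k) (h0 : l0.2 = x0.2) (hq : qh x0.2 = 0) :
    ∃ U ∈ 𝓝 l0, ∃ V ∈ 𝓝 x0, SosOn (U ∩ DD m k) (V ∩ DD m k) F.kern := by
  refine F.near_gen h0 hl hx (fun y hy hB => ?_)
  rw [hq, Real.sqrt_zero, zero_mul, zero_sub, neg_eq_zero] at hB
  have hn : 0 < F.nn x0.2 l0.1 l0.1 := hs.pos hq (DD_ne hl)
  have e0 : F.cf 0 x0.2 l0.1 y = F.nn x0.2 (fun a => y (.inl a)) (fun a => y (.inl a)) +
      (F.nn x0.2 l0.1 l0.1 * ∑ i, y (.inr i) ^ 2 -
        2 * (∑ i, x0.2 i * y (.inr i)) * F.dn x0.2 (fun i => y (.inr i)) l0.1 l0.1) := by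
    unfold cf
    rw [hq, Real.sqrt_zero]
    ring
  have hE : (fun i => y (.inr i)) ≠ (0 : Fin m → ℝ) →
      0 < F.nn x0.2 l0.1 l0.1 * ∑ i, y (.inr i) ^ 2 -
        2 * (∑ i, x0.2 i * y (.inr i)) * F.dn x0.2 (fun i => y (.inr i)) l0.1 l0.1 := by
    intro hne
    set E : Fin m → ℝ := fun i => y (.inr i) with hEdef
    have hc : 0 < ∑ i, E i ^ 2 := sum_sq_pos hne
    rcases mul_eq_zero.1 hB with h1 | h1
    · have h2 : l0.1 0 = 0 := by linarith
      set c := ∑ i, E i ^ 2 with hcdef
      set b := 2 * ∑ i, x0.2 i * E i with hb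
      have r1 : qh (x0.2 + (-(b / c)) • E) = 0 := by
        rw [qh_line, hq, ← hcdef, ← hb]
        field_simp
        ring
      have h3 := hs.pos r1 (DD_ne hl)
      rw [F.nn_affine _ _ _ h2] at h3
      have h4 := mul_pos hc h3
      have h5 : c * (F.nn x0.2 l0.1 l0.1 + -(b / c) * F.dn x0.2 E l0.1 l0.1) =
          F.nn x0.2 l0.1 l0.1 * c - b * F.dn x0.2 E l0.1 l0.1 := by
        field_simp
        ring
      rw [h5] at h4
      exact h4
    · rw [h1]
      have := mul_pos hn hc
      simpa using this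
  have hE' : 0 ≤ F.nn x0.2 l0.1 l0.1 * ∑ i, y (.inr i) ^ 2 -
        2 * (∑ i, x0.2 i * y (.inr i)) * F.dn x0.2 (fun i => y (.inr i)) l0.1 l0.1 := by
    by_cases hne : (fun i => y (.inr i)) = (0 : Fin m → ℝ)
    · have h1 : ∀ i, y (.inr i) = 0 := fun i => congrFun hne i
      simp [h1]
    · exact (hE hne).le
  rw [e0]
  rcases ne_zero_split hy with h | h
  · exact add_pos_of_pos_of_nonneg (hs.pos hq h) hE'
  · exact add_pos_of_nonneg_of_pos (hs.nonneg hq _) (hE h)

/-- the gap `tt` at the same first coordinate is the kernel -/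
theorem kern_eq_tt (F : NF m k) {l x : PP m k} (h : x.1 0 = l.1 0) :
    F.kern l x = (l.1 0) ^ 2 * F.tt l x := by
  unfold kern tt ro
  rw [h]
  ring

theorem kern_smul (F : NF m k) (l x : PP m k) (c : ℝ) :
    F.kern l (c • x.1, x.2) = c ^ 2 * F.kern l x := by
  unfold kern ro
  simp only [nn_smul_left, nn_smul_right, Pi.smul_apply, smul_eq_mul]
  ring

/-- both `ρ > 0`, different points -/
theorem Strict.kern_pos (hs : F.Strict) (hm : 0 < m) {l0 x0 : PP m k} (hl : l0 ∈ DD m k)
    (hx : x0 ∈ DD m k) (hne : l0 ≠ x0) (hql : 0 < qh l0.2) (hqx : 0 < qh x0.2)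
    (h1 : 0 < l0.1 0) (h2 : 0 < x0.1 0) : 0 < F.kern l0 x0 := by
  set c := l0.1 0 / x0.1 0 with hc
  have hcpos : 0 < c := div_pos h1 h2
  have e1 : (c • x0.1) 0 = l0.1 0 := by
    simp only [Pi.smul_apply, smul_eq_mul, hc]
    field_simp
  have hne' : l0 ≠ (c • x0.1, x0.2) := by
    intro h
    apply hne
    have h3 : l0.1 = c • x0.1 := by rw [h]
    have h4 : l0.2 = x0.2 := by rw [h]
    have h5 : c ^ 2 = 1 := by
      have h6 := hl.1
      rw [h3] at h6
      simp only [Pi.smul_apply, smul_eq_mul, mul_pow] at h6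
      rw [← Finset.mul_sum, hx.1, mul_one] at h6
      exact h6
    have h7 : c = 1 := by nlinarith
    rw [h7, one_smul] at h3
    exact Prod.ext h3 h4
  have h3 := hs.tt_pos hm (l := l0) (x := (c • x0.1, x0.2)) hql hqx e1 hne'
    (Or.inl (DD_ne hl))
  have h4 : F.kern l0 (c • x0.1, x0.2) = (l0.1 0) ^ 2 * F.tt l0 (c • x0.1, x0.2) :=
    F.kern_eq_tt e1
  rw [kern_smul] at h4
  have h5 : 0 < c ^ 2 * F.kern l0 x0 := by
    rw [h4]
    positivity
  exact (pos_iff_pos_of_mul_pos h5).1 (by positivity)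

/-- Cauchy-Schwarz for the form at a point of the sphere -/
theorem Strict.cs (hs : F.Strict) {η : Fin m → ℝ} (h : qh η = 0) (w w' : Fin (k + 1) → ℝ) :
    F.nn η w' w ^ 2 ≤ F.nn η w' w' * F.nn η w w := by
  by_cases hw : w' = 0
  · subst hw
    simp [nn]
  have h1 := hs.pos h hw
  have h2 := hs.nonneg h (F.nn η w' w' • w + (-(F.nn η w' w)) • w')
  rw [nn_add_left, nn_add_right, nn_add_right] at h2
  simp only [nn_smul_left, nn_smul_right] at h2
  rw [F.nn_comm η w w'] at h2
  by_contra hcon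
  rw [not_le] at hcon
  nlinarith [mul_pos h1 (sub_pos.2 hcon)]

/-- **The slack kernel of a strict normal form is locally SOS at every pair.** -/
theorem Strict.near (hs : F.Strict) (hm : 0 < m) {l0 x0 : PP m k} (hl : l0 ∈ DD m k)
    (hx : x0 ∈ DD m k) :
    ∃ U ∈ 𝓝 l0, ∃ V ∈ 𝓝 x0, SosOn (U ∩ DD m k) (V ∩ DD m k) F.kern := by
  have hl0 : 0 ≤ l0.1 0 := hl.2.1
  have hx0 : 0 ≤ x0.1 0 := hx.2.1
  rcases (DD_q hx).eq_or_lt with hqx | hqx
  · -- `q = 0`
    have hqx' := hqx.symm
    have hn : 0 < F.nn x0.2 x0.1 x0.1 := hs.pos hqx' (DD_ne hx)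
    by_cases h1 : 0 < qh l0.2 ∧ 0 < l0.1 0
    · apply F.near_pos
      have : 0 < ro l0 := mul_pos h1.2 h1.1
      unfold kern
      have e : ro x0 = 0 := by unfold ro; rw [hqx', mul_zero]
      rw [e, hqx']
      have : 0 < F.nn x0.2 x0.1 x0.1 * ro l0 ^ 2 := by positivity
      linarith
    · by_cases he : l0.2 = x0.2
      · exact hs.near_bdry hl hx he hqx'
      · have hlow : 0 < F.low l0 x0 := by
          rcases (DD_q hl).eq_or_lt with hql | hql
          · unfold low
            rw [hqx', ← hql, zero_mul, sub_zero, zero_add]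
            have h2 := hs.pos hql.symm (DD_ne hl)
            have h3 : 0 < ∑ i, (x0.2 i - l0.2 i) ^ 2 := by
              have h4 : (fun i => x0.2 i - l0.2 i) ≠ (0 : Fin m → ℝ) := by
                intro h
                apply he
                ext i
                have := congrFun h i
                simp only [Pi.zero_apply] at this
                linarith
              exact sum_sq_pos h4
            positivity
          · have h2 : l0.1 0 = 0 := by
              by_contra h
              exact h1 ⟨hql, lt_of_le_of_ne hl0 (Ne.symm h)⟩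
            exact hs.aff_pos hm (DD_q hx) hql h2 (DD_ne hl)
        refine F.near_mat (fun α β hab => ?_) hl hx
        rw [hqx', Real.sqrt_zero]
        rcases hab with h | h
        · have h3 : 0 < F.nn x0.2 x0.1 x0.1 * (α * α) := mul_pos hn (mul_self_pos.2 h)
          have h4 : 0 ≤ F.low l0 x0 * (β * β) := mul_nonneg hlow.le (mul_self_nonneg _)
          linarith
        · have h3 : 0 ≤ F.nn x0.2 x0.1 x0.1 * (α * α) := mul_nonneg hn.le (mul_self_nonneg _)
          have h4 : 0 < F.low l0 x0 * (β * β) := mul_pos hlow (mul_self_pos.2 h)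
          linarith
  · rcases hx0.eq_or_lt with hL | hL
    · -- `q > 0`, `λ = 0`
      have hL' := hL.symm
      have hn : 0 < F.nn x0.2 x0.1 x0.1 := hs.pos_aff hm hqx.le hL' (DD_ne hx)
      by_cases h1 : 0 < qh l0.2 ∧ 0 < l0.1 0
      · apply F.near_pos
        have : 0 < ro l0 := mul_pos h1.2 h1.1
        unfold kern
        have e : ro x0 = 0 := by unfold ro; rw [hL', zero_mul]
        rw [e, hL']
        have : 0 < F.nn x0.2 x0.1 x0.1 * ro l0 ^ 2 := by positivity
        linarith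
      rcases (DD_q hl).eq_or_lt with hql | hql
      · -- `q* = 0`
        have hn' := hs.pos hql.symm (DD_ne hl)
        have h2 := hs.cs hql.symm x0.1 l0.1
        have h3 := hs.aff_pos' hqx hql.symm hL' (DD_ne hx)
        have h4 : F.low l0 x0 = F.nn l0.2 l0.1 l0.1 * (qh x0.2 + ∑ i, (x0.2 i - l0.2 i) ^ 2) := by
          unfold low
          rw [← hql, zero_mul, sub_zero]
        refine F.near_mat (fun α β hab => ?_) hl hx
        rw [h4]
        set s := Real.sqrt (qh x0.2) with hs'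
        have hspos : 0 < s := Real.sqrt_pos.2 hqx
        have hsq : s ^ 2 = qh x0.2 := Real.sq_sqrt hqx.le
        set n := F.nn x0.2 x0.1 x0.1
        set n' := F.nn l0.2 l0.1 l0.1
        set r := F.nn l0.2 l0.1 x0.1
        set D := qh x0.2 + ∑ i, (x0.2 i - l0.2 i) ^ 2
        set n1 := F.nn l0.2 x0.1 x0.1
        have h5 : s ^ 2 * r ^ 2 < n * (n' * D) := by
          have h6 : s ^ 2 * r ^ 2 ≤ qh x0.2 * (n' * n1) := by
            rw [hsq]
            exact mul_le_mul_of_nonneg_left h2 hqx.le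
          have h7 : n' * (qh x0.2 * n1) < n' * (n * D) :=
            mul_lt_mul_of_pos_left (by linarith) hn'
          nlinarith
        have h6 : n * (n * (α * α) - 2 * (s * r) * (α * β) + n' * D * (β * β)) =
            (n * α - s * r * β) ^ 2 + (n * (n' * D) - s ^ 2 * r ^ 2) * β ^ 2 := by ring
        have h7 : 0 < (n * α - s * r * β) ^ 2 + (n * (n' * D) - s ^ 2 * r ^ 2) * β ^ 2 := by
          by_cases hβ : β = 0
          · subst hβ
            have hα : α ≠ 0 := hab.resolve_right (fun h => h rfl)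
            have : 0 < (n * α) ^ 2 := by positivity
            linarith
          · have h8 : 0 < (n * (n' * D) - s ^ 2 * r ^ 2) * β ^ 2 := by
              have : 0 < β ^ 2 := by positivity
              exact mul_pos (by linarith) this
            have := sq_nonneg (n * α - s * r * β)
            linarith
        rw [← h6] at h7
        exact (pos_iff_pos_of_mul_pos h7).1 hn
      · -- `q* > 0`, `λ* = 0`
        have hLl : l0.1 0 = 0 := by
          by_contra h
          exact h1 ⟨hql, lt_of_le_of_ne hl0 (Ne.symm h)⟩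
        have hlow := hs.aff_pos hm (DD_q hx) hql hLl (DD_ne hl)
        by_cases he : l0.2 = x0.2 ∧ l0.1 = x0.1
        · have : l0 = x0 := Prod.ext he.2 he.1
          subst this
          exact hs.near_same hm hx hqx
        by_cases he' : l0.2 = x0.2 ∧ l0.1 = -x0.1
        · refine F.near_prod hn ?_ hlow
          rw [he'.1, he'.2]
          have e1 : F.nn x0.2 (-x0.1) x0.1 = - F.nn x0.2 x0.1 x0.1 := by
            have := F.nn_smul_left x0.2 (-1) x0.1 x0.1
            rw [neg_one_smul] at this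
            linarith
          rw [e1]
          have := mul_pos (Real.sqrt_pos.2 hqx) hn
          linarith
        · refine F.near_mat (fun α β hab => ?_) hl hx
          set s := Real.sqrt (qh x0.2) with hs'
          have hspos : 0 < s := Real.sqrt_pos.2 hqx
          have hsq : s ^ 2 = qh x0.2 := Real.sq_sqrt hqx.le
          by_cases hβ : β = 0
          · subst hβ
            have hα : α ≠ 0 := hab.resolve_right (fun h => h rfl)
            have : 0 < F.nn x0.2 x0.1 x0.1 * (α * α) := mul_pos hn (mul_self_pos.2 hα)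
            linarith
          · set c : ℝ := s * α / (β * qh l0.2) with hc
            have h2 := hs.tt_pos hm (l := l0) (x := (c • x0.1, x0.2)) hql hqx
              (by simp [hL', hLl]) (by
                intro h
                have h3 : l0.1 = c • x0.1 := by rw [h]
                have h4 : l0.2 = x0.2 := by rw [h]
                have h5 : c ^ 2 = 1 := by
                  have h6 := hl.1
                  rw [h3] at h6
                  simp only [Pi.smul_apply, smul_eq_mul, mul_pow] at h6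
                  rw [← Finset.mul_sum, hx.1, mul_one] at h6
                  exact h6
                have h6 : c = 1 ∨ c = -1 := by
                  have h7 : (c - 1) * (c + 1) = 0 := by linarith [h5, sq c]
                  rcases mul_eq_zero.1 h7 with h8 | h8
                  · exact Or.inl (by linarith)
                  · exact Or.inr (by linarith)
                rcases h6 with h7 | h7
                · rw [h7, one_smul] at h3
                  exact he ⟨h4, h3⟩
                · rw [h7, neg_one_smul] at h3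
                  exact he' ⟨h4, h3⟩) (Or.inl (DD_ne hl))
            have h3 : F.tt l0 (c • x0.1, x0.2) = c ^ 2 * F.nn x0.2 x0.1 x0.1 * qh l0.2 ^ 2 -
                2 * qh x0.2 * qh l0.2 * (c * F.nn l0.2 l0.1 x0.1) + qh x0.2 * F.low l0 x0 := by
              unfold tt low
              simp only [nn_smul_left, nn_smul_right]
              ring
            rw [h3] at h2
            have h4 : c * (β * qh l0.2) = s * α := by
              rw [hc]
              field_simp
            have h5 : β ^ 2 * (c ^ 2 * F.nn x0.2 x0.1 x0.1 * qh l0.2 ^ 2 -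
                2 * qh x0.2 * qh l0.2 * (c * F.nn l0.2 l0.1 x0.1) + qh x0.2 * F.low l0 x0) =
                s ^ 2 * (F.nn x0.2 x0.1 x0.1 * (α * α) -
                  2 * (s * F.nn l0.2 l0.1 x0.1) * (α * β) + F.low l0 x0 * (β * β)) := by
              have e1 : β ^ 2 * (c ^ 2 * F.nn x0.2 x0.1 x0.1 * qh l0.2 ^ 2) =
                  (c * (β * qh l0.2)) ^ 2 * F.nn x0.2 x0.1 x0.1 := by ring
              have e2 : β ^ 2 * (2 * qh x0.2 * qh l0.2 * (c * F.nn l0.2 l0.1 x0.1)) =
                  2 * qh x0.2 * β * (c * (β * qh l0.2)) * F.nn l0.2 l0.1 x0.1 := by ring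
              rw [mul_add, mul_sub, e1, e2, h4, ← hsq]
              ring
            have h6 : 0 < β ^ 2 * (c ^ 2 * F.nn x0.2 x0.1 x0.1 * qh l0.2 ^ 2 -
                2 * qh x0.2 * qh l0.2 * (c * F.nn l0.2 l0.1 x0.1) + qh x0.2 * F.low l0 x0) := by
              have : 0 < β ^ 2 := by positivity
              exact mul_pos this h2
            rw [h5] at h6
            exact (pos_iff_pos_of_mul_pos h6).1 (by positivity)
    · -- `ρ > 0`
      rcases (DD_q hl).eq_or_lt with hql | hql
      · apply F.near_pos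
        have hn := hs.pos hql.symm (DD_ne hl)
        have e : ro l0 = 0 := by unfold ro; rw [← hql, mul_zero]
        have hR : 0 < ro x0 := mul_pos hL hqx
        unfold kern
        rw [e, ← hql]
        have h2 : 0 < F.nn l0.2 l0.1 l0.1 * ro x0 ^ 2 := by positivity
        have h3 : 0 ≤ qh x0.2 * x0.1 0 ^ 2 * (F.nn l0.2 l0.1 l0.1 *
            ∑ i, (x0.2 i - l0.2 i) ^ 2) := by
          have : 0 ≤ ∑ i, (x0.2 i - l0.2 i) ^ 2 := Finset.sum_nonneg fun i _ => sq_nonneg _
          positivity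
        linarith
      · rcases hl0.eq_or_lt with hLl | hLl
        · apply F.near_pos
          have hlow := hs.aff_pos hm (DD_q hx) hql hLl.symm (DD_ne hl)
          have e : ro l0 = 0 := by unfold ro; rw [← hLl, zero_mul]
          have h2 : F.kern l0 x0 = qh x0.2 * x0.1 0 ^ 2 *
              (F.nn l0.2 l0.1 l0.1 * (qh x0.2 + ∑ i, (x0.2 i - l0.2 i) ^ 2) -
      qh l0.2 * F.dn l0.2 (fun i => x0.2 i - l0.2 i) l0.1 l0.1) := by
            unfold kern
            rw [e]
            unfold ro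
            ring
          rw [h2]
          positivity
        · by_cases he : l0 = x0
          · subst he
            exact hs.near_same hm hx hqx
          · exact F.near_pos (hs.kern_pos hm hl hx he hql hqx hLl hL)

end NF

theorem isCompact_DD : IsCompact (DD m k) := by
  have hclosed : IsClosed (DD m k) := by
    have h1 : IsClosed {x : PP m k | ∑ i, x.1 i ^ 2 = 1} := isClosed_eq
      (continuous_finsetSum _ fun i _ => (cont_c1 i).pow 2) continuous_const
    have h2 : IsClosed {x : PP m k | 0 ≤ x.1 0} := isClosed_le continuous_const (cont_c1 0)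
    have h3 : IsClosed {x : PP m k | ∑ i, x.2 i ^ 2 ≤ 1} := isClosed_le
      (continuous_finsetSum _ fun i _ => (cont_c2 i).pow 2) continuous_const
    exact h1.inter (h2.inter h3)
  have hb : ∀ {ι : Type} [Fintype ι] (v : ι → ℝ), ∑ i, v i ^ 2 ≤ 1 → ‖v‖ ≤ 1 := by
    intro ι _ v hv
    rw [pi_norm_le_iff_of_nonneg zero_le_one]
    intro i
    rw [Real.norm_eq_abs, abs_le_one_iff_mul_self_le_one]
    have h1 : v i ^ 2 ≤ ∑ j, v j ^ 2 :=
      Finset.single_le_sum (f := fun j => v j ^ 2) (fun j _ => sq_nonneg _) (Finset.mem_univ i)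
    linarith
  have hbdd : DD m k ⊆ Metric.closedBall 0 1 := by
    intro x hx
    rw [mem_closedBall_zero_iff, Prod.norm_def]
    exact max_le (hb _ hx.1.le) (hb _ hx.2.2)
  exact (isCompact_closedBall (0 : PP m k) 1).of_isClosed_subset hclosed hbdd

/-- **The slack kernel of every strict normal form is a finite sum of squares.** -/
theorem sos (hm : 0 < m) (F : NF m k) (hs : F.Strict) : SosOn (DD m k) (DD m k) F.kern := by
  obtain ⟨U, hU, V, hV, h⟩ := SosOn.of_local (isCompact_DD (m := m) (k := k))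
    (isCompact_DD (m := m) (k := k)) (S := DD m k) (T := DD m k) (h := F.kern)
    (fun a ha b hb => hs.near hm ha hb)
  have h1 : DD m k ⊆ U := subset_of_mem_nhdsSet hU
  have h2 : DD m k ⊆ V := subset_of_mem_nhdsSet hV
  exact h.mono (fun z hz => ⟨h1 hz, hz⟩) (fun z hz => ⟨h2 hz, hz⟩)

theorem sosStmt (m k : ℕ) : SosStmt m k := fun hm F hs => sos hm F hs

end Vale.Agent.P256.St
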