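import Vale.Agent.P256.H875.Polar

/-! Sums of hyperbolic polynomials with the same derivative in a boundary direction. -/

namespace Vale.Agent.P256.St

open MvPolynomial Filter Topology

variable {n : ℕ} {p p1 p2 q : MvPolynomial (Fin n) ℝ} {e z : Fin n → ℝ}

/-- `p(x + τ z) = p(x) + τ q(x)` -/
def AffZ (p q : MvPolynomial (Fin n) ℝ) (z : Fin n → ℝ) : Prop :=
  ∀ (x : Fin n → ℝ) (τ : ℝ), eval (x + τ • z) p = eval x p + τ * eval x q

theorem AffZ.of_polar (h1 : polarDeriv z p = q) (h2 : polarDeriv z q = 0) : AffZ p q z := by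
  intro x τ
  rw [polarDeriv_eq] at h1 h2
  have d1 : Polynomial.derivative (line p x z) = line q x z := by
    rw [derivative_line, h1]
  have d2 : Polynomial.derivative (line q x z) = 0 := by
    rw [derivative_line, h2]
    simp [line]
  have d3 : line q x z = Polynomial.C (eval x q) := by
    have h3 := Polynomial.derivative_eq_zero.1 d2
    rw [Polynomial.eq_C_of_natDegree_eq_zero h3]
    congr 1
    rw [Polynomial.coeff_zero_eq_eval_zero, eval_line, zero_smul, add_zero]
  have d4 : Polynomial.derivative (line p x z - Polynomial.X * Polynomial.C (eval x q)) = 0 := by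
    rw [Polynomial.derivative_sub, d1, d3, Polynomial.derivative_mul, Polynomial.derivative_X,
      Polynomial.derivative_C, one_mul, mul_zero, add_zero, sub_self]
  have h3 := Polynomial.derivative_eq_zero.1 d4
  have h4 := Polynomial.eq_C_of_natDegree_eq_zero h3
  have h5 := congrArg (Polynomial.eval τ) h4
  have h6 := congrArg (Polynomial.eval 0) h4
  rw [Polynomial.eval_C] at h5 h6
  rw [← h6] at h5
  simp only [Polynomial.eval_sub, Polynomial.eval_mul, Polynomial.eval_X, Polynomial.eval_C,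
    eval_line, zero_smul, add_zero, zero_mul, sub_zero] at h5
  linarith

theorem AffZ.complex (h : AffZ p q z) (Z : Fin n → ℂ) (τ : ℂ) :
    aeval (fun i => Z i + τ * (z i : ℂ)) p = aeval Z p + τ * aeval Z q := by
  have key : aeval (fun i => (X (some i) + X none * C (z i) : MvPolynomial (Option (Fin n)) ℝ)) p =
      rename some p + X none * rename some q := by
    apply MvPolynomial.funext
    intro v
    have h1 := h (fun i => v (some i)) (v none)
    rw [map_add, map_mul, eval_X, eval_rename, eval_rename]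
    have h2 : eval v (aeval (fun i => (X (some i) + X none * C (z i) :
        MvPolynomial (Option (Fin n)) ℝ)) p) =
        eval ((fun i => v (some i)) + v none • z) p := by
      have h3 : aeval v (aeval (fun i => (X (some i) + X none * C (z i) :
          MvPolynomial (Option (Fin n)) ℝ)) p) =
          aeval ((fun i => v (some i)) + v none • z) p := by
        rw [MvPolynomial.comp_aeval_apply]
        have h4 : (fun i => aeval v (X (some i) + X none * C (z i) :
            MvPolynomial (Option (Fin n)) ℝ)) = (fun i => v (some i)) + v none • z := by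
          funext i
          simp
        rw [h4]
      exact h3
    rw [h2, h1]
    rfl
  have h3 := congrArg (aeval (fun o : Option (Fin n) => o.elim τ Z)) key
  rw [MvPolynomial.comp_aeval_apply, map_add, map_mul, aeval_rename, aeval_rename, aeval_X] at h3
  have h4 : (fun i => aeval (fun o : Option (Fin n) => o.elim τ Z)
      (X (some i) + X none * C (z i) : MvPolynomial (Option (Fin n)) ℝ)) =
      fun i => Z i + τ * (z i : ℂ) := by
    funext i
    simp
  rw [h4] at h3
  exact h3

theorem stab (h : IsHyperbolic p e) (hz : z ∈ hypCone p e) (x : Fin n → ℝ) {a b : ℝ} (ha : a ≠ 0)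
    (hab : 0 ≤ b / a) :
    aeval (fun i => (x i : ℂ) + (a : ℂ) * Complex.I * (e i : ℂ) + (b : ℂ) * Complex.I * (z i : ℂ))
      p ≠ 0 := by
  have h1 : InOpen p e ((b / a) • z + e) := K_add_open h (K_smul h hz hab) (e_inOpen h)
  have h2 := (garding1 h h1).ne_zero x ((a : ℂ) * Complex.I) (by simpa using ha)
  intro h3
  apply h2
  rw [← h3]
  congr 2
  funext i
  have : (a : ℂ) ≠ 0 := by exact_mod_cast ha
  simp only [Pi.add_apply, Pi.smul_apply, smul_eq_mul, Complex.ofReal_add, Complex.ofReal_mul,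
    Complex.ofReal_div]
  field_simp
  ring

/-- the sum of two hyperbolic polynomials with the same derivative in the direction `z` is
hyperbolic -/
theorem hyp_sum (h1 : IsHyperbolic p1 e) (h2 : IsHyperbolic p2 e) {d : ℕ}
    (hd1 : p1.IsHomogeneous d) (hd2 : p2.IsHomogeneous d) (hq : IsHyperbolic q e)
    (hz1 : z ∈ hypCone p1 e) (hz2 : z ∈ hypCone p2 e) (a1 : AffZ p1 q z) (a2 : AffZ p2 q z) :
    IsHyperbolic (p1 + p2) e := by
  refine ⟨⟨d, hd1.add hd2⟩, by rw [map_add]; exact add_pos h1.2.1 h2.2.1, fun x t ht => ?_⟩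
  by_contra him
  set Z : Fin n → ℂ := fun i => t * (e i : ℂ) - (x i : ℂ) with hZ
  have hqZ : aeval Z q ≠ 0 := fun h0 => him (hq.2.2 x t h0)
  rw [map_add] at ht
  set τ : ℂ := aeval Z p2 / aeval Z q with hτ
  have c1 : aeval (fun i => Z i + τ * (z i : ℂ)) p1 = 0 := by
    rw [a1.complex, hτ, div_mul_cancel₀ _ hqZ, ht]
  have c2 : aeval (fun i => Z i + (-τ) * (z i : ℂ)) p2 = 0 := by
    rw [a2.complex, hτ, neg_mul, div_mul_cancel₀ _ hqZ, add_neg_cancel]
  have key : ∀ σ : ℂ, (fun i => Z i + σ * (z i : ℂ)) = fun i =>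
      (((-x + t.re • e + σ.re • z) i : ℝ) : ℂ) + ((t.im : ℝ) : ℂ) * Complex.I * (e i : ℂ) +
        ((σ.im : ℝ) : ℂ) * Complex.I * (z i : ℂ) := by
    intro σ
    funext i
    have e1 : t = (t.re : ℂ) + (t.im : ℂ) * Complex.I := (Complex.re_add_im t).symm
    have e2 : σ = (σ.re : ℂ) + (σ.im : ℂ) * Complex.I := (Complex.re_add_im σ).symm
    simp only [hZ, Pi.add_apply, Pi.neg_apply, Pi.smul_apply, smul_eq_mul, Complex.ofReal_add,
      Complex.ofReal_neg, Complex.ofReal_mul]
    conv_lhs => rw [e1, e2]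
    ring
  rcases le_total 0 (τ.im / t.im) with hs | hs
  · rw [key] at c1
    exact stab h1 hz1 _ him hs c1
  · rw [key] at c2
    refine stab h2 hz2 _ him ?_ c2
    rw [Complex.neg_im, neg_div]
    linarith

theorem q_pos {d : ℕ} (h : IsHyperbolic p e) (hd : p.IsHomogeneous d) (hz : z ∈ hypCone p e)
    (a : AffZ p q z) (hqe : 0 < eval e q) {y : Fin n → ℝ} (hy : InOpen p e y) :
    0 < eval y q := by
  have hpy : 0 < eval y p := (open_mono h hy 0 le_rfl).1
  by_contra hle
  rcases lt_or_eq_of_le (not_lt.1 hle) with hlt | heq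
  · have hτ : 0 < -eval y p / eval y q := div_pos_of_neg_of_neg (neg_neg_of_pos hpy) hlt
    have h1 := K_add_open h (K_smul h hz hτ.le) hy
    have h2 := (open_mono h h1 0 le_rfl).1
    rw [add_comm, a, div_mul_cancel₀ _ hlt.ne, add_neg_cancel] at h2
    exact lt_irrefl _ h2
  · have hc : 0 < eval e p / eval e q := div_pos h.2.1 hqe
    have h1 : -z ∈ hypCone p y := by
      rw [mem_hypCone_iff hd]
      intro t ht
      have h2 : -z + t • y = t • (y + (-t⁻¹) • z) := by
        rw [smul_add, smul_smul, mul_neg, mul_inv_cancel₀ ht.ne', neg_one_smul, add_comm]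
      rw [h2, eval_smul' hd, a, heq, mul_zero, add_zero]
      exact mul_ne_zero (pow_ne_zero _ ht.ne') hpy.ne'
    have h3 : IsHyperbolic p y := garding1 h hy
    have h4 := K_add_open h3 (K_smul h3 h1 hc.le) (open_symm h hy (e_inOpen h))
    have h5 := (open_mono h3 h4 0 le_rfl).1
    have h6 : (eval e p / eval e q) • -z + e = e + (-(eval e p / eval e q)) • z := by
      rw [smul_neg, neg_smul, add_comm]
    rw [h6, a, neg_mul, div_mul_cancel₀ _ hqe.ne', add_neg_cancel] at h5
    exact lt_irrefl _ h5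

theorem z_mem_sum {d : ℕ} (h1 : IsHyperbolic p1 e) (h2 : IsHyperbolic p2 e)
    (hd1 : p1.IsHomogeneous d) (hd2 : p2.IsHomogeneous d) {x : Fin n → ℝ}
    (hz1 : x ∈ hypCone p1 e) (hz2 : x ∈ hypCone p2 e) : x ∈ hypCone (p1 + p2) e := by
  rw [mem_hypCone_iff (hd1.add hd2)]
  intro t ht
  have k1 := (K_eval_ge h1 hd1 hz1 ht.le le_rfl).2.2
  have k2 := (K_eval_ge h2 hd2 hz2 ht.le le_rfl).2.2
  have k3 := mul_pos h1.2.1 (pow_pos ht d)
  have k4 := mul_pos h2.2.1 (pow_pos ht d)
  rw [map_add]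
  exact (by linarith : 0 < eval (x + t • e) p1 + eval (x + t • e) p2).ne'

theorem AffZ.sum (a1 : AffZ p1 q z) (a2 : AffZ p2 q z) : AffZ (p1 + p2) (q + q) z := by
  intro x τ
  rw [map_add, a1, a2, map_add, map_add]
  ring

theorem q_pos_sum {d : ℕ} (h1 : IsHyperbolic p1 e) (h2 : IsHyperbolic p2 e)
    (hd1 : p1.IsHomogeneous d) (hd2 : p2.IsHomogeneous d) (hq : IsHyperbolic q e)
    (hz1 : z ∈ hypCone p1 e) (hz2 : z ∈ hypCone p2 e) (a1 : AffZ p1 q z) (a2 : AffZ p2 q z)
    {y : Fin n → ℝ} (hy : InOpen (p1 + p2) e y) : 0 < eval y q := by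
  have h3 := q_pos (hyp_sum h1 h2 hd1 hd2 hq hz1 hz2 a1 a2) (hd1.add hd2)
    (z_mem_sum h1 h2 hd1 hd2 hz1 hz2) (a1.sum a2)
    (by rw [map_add]; exact add_pos hq.2.1 hq.2.1) hy
  rw [map_add] at h3
  linarith

/-- interior points of the cone of the sum decompose -/
theorem interior_left {d : ℕ} (h1 : IsHyperbolic p1 e) (h2 : IsHyperbolic p2 e)
    (hd1 : p1.IsHomogeneous d) (hd2 : p2.IsHomogeneous d) (hq : IsHyperbolic q e)
    (hz1 : z ∈ hypCone p1 e) (hz2 : z ∈ hypCone p2 e) (a1 : AffZ p1 q z) (a2 : AffZ p2 q z)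
    {x : Fin n → ℝ} (hx : InOpen (p1 + p2) e x) :
    InOpen p1 e (x + ((eval x p2 - eval x p1) / (2 * eval x q)) • z) := by
  have hP := hyp_sum h1 h2 hd1 hd2 hq hz1 hz2 a1 a2
  set y : ℝ → (Fin n → ℝ) := fun s => (Real.cos s ^ 2) • e + (Real.sin s ^ 2) • x with hy
  have hyo : ∀ s, InOpen (p1 + p2) e (y s) := fun s =>
    InOpen.comb_e hP hx (sq_nonneg _) (sq_nonneg _) (by rw [Real.cos_sq_add_sin_sq]; norm_num)
  have hyq : ∀ s, 0 < eval (y s) q := fun s => q_pos_sum h1 h2 hd1 hd2 hq hz1 hz2 a1 a2 (hyo s)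
  have hyc : Continuous y := by
    rw [hy]
    fun_prop
  have hxp : 0 < eval x (p1 + p2) := (open_mono hP hx 0 le_rfl).1
  set g : ℝ → ℝ := fun s => Real.cos s ^ 2 * eval e p1 + Real.sin s ^ 2 * (eval x (p1 + p2) / 2)
    with hg
  have hgc : Continuous g := by
    rw [hg]
    fun_prop
  have hgp : ∀ s, 0 < g s := by
    intro s
    have c1 := Real.cos_sq_add_sin_sq s
    have e1 : 0 < eval e p1 := h1.2.1
    have e2 : 0 < eval x (p1 + p2) / 2 := by linarith
    rcases (sq_nonneg (Real.cos s)).eq_or_lt with h | h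
    · have : Real.sin s ^ 2 = 1 := by rw [← c1, ← h, zero_add]
      simp only [hg, ← h, this]
      linarith
    · have := mul_pos h e1
      have := mul_nonneg (sq_nonneg (Real.sin s)) e2.le
      simp only [hg]
      linarith
  set b : ℝ → (Fin n → ℝ) := fun s => y s + ((g s - eval (y s) p1) / eval (y s) q) • z with hb
  have hbc : Continuous b := by
    have hs : Continuous fun s => (g s - eval (y s) p1) / eval (y s) q :=
      (hgc.sub ((MvPolynomial.continuous_eval p1).comp hyc)).div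
        ((MvPolynomial.continuous_eval q).comp hyc) (fun s => (hyq s).ne')
    exact hyc.add (hs.smul continuous_const)
  have hbe : ∀ s, eval (b s) p1 = g s := by
    intro s
    simp only [hb]
    rw [a1, div_mul_cancel₀ _ (hyq s).ne']
    ring
  have hb0 : b 0 = e := by
    have h3 : y 0 = e := by simp [hy]
    have h4 : g 0 = eval e p1 := by simp [hg]
    simp only [hb, h3, h4, sub_self, zero_div, zero_smul, add_zero]
  have h5 := path_lemma (p := p1) (c := fun _ => e) continuous_const hbc (fun _ => h1)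
    (fun s => by rw [hbe]; exact (hgp s).ne') (τ₀ := 0) (by rw [hb0]; exact e_inOpen h1)
    (Real.pi / 2)
  have h3 : y (Real.pi / 2) = x := by simp [hy]
  have h4 : g (Real.pi / 2) = eval x (p1 + p2) / 2 := by simp [hg]
  have h6 : b (Real.pi / 2) = x + ((eval x p2 - eval x p1) / (2 * eval x q)) • z := by
    simp only [hb, h3, h4]
    congr 2
    have := hyq (Real.pi / 2)
    rw [h3] at this
    rw [map_add]
    field_simp
    ring
  rw [h6] at h5
  exact h5

theorem interior_right {d : ℕ} (h1 : IsHyperbolic p1 e) (h2 : IsHyperbolic p2 e)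
    (hd1 : p1.IsHomogeneous d) (hd2 : p2.IsHomogeneous d) (hq : IsHyperbolic q e)
    (hz1 : z ∈ hypCone p1 e) (hz2 : z ∈ hypCone p2 e) (a1 : AffZ p1 q z) (a2 : AffZ p2 q z)
    {x : Fin n → ℝ} (hx : InOpen (p1 + p2) e x) :
    InOpen p2 e (x - ((eval x p2 - eval x p1) / (2 * eval x q)) • z) := by
  have h3 := interior_left h2 h1 hd2 hd1 hq hz2 hz1 a2 a1 (x := x) (by rwa [add_comm])
  rw [sub_eq_add_neg, ← neg_smul, ← neg_div, neg_sub]
  exact h3

/-- the cone of the sum -/
theorem hypCone_sum {d : ℕ} (h1 : IsHyperbolic p1 e) (h2 : IsHyperbolic p2 e)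
    (hd1 : p1.IsHomogeneous d) (hd2 : p2.IsHomogeneous d) (hq : IsHyperbolic q e)
    (hz1 : z ∈ hypCone p1 e) (hz2 : z ∈ hypCone p2 e) (a1 : AffZ p1 q z) (a2 : AffZ p2 q z) :
    hypCone (p1 + p2) e = {x | ∃ τ : ℝ, x + τ • z ∈ hypCone p1 e ∧ x - τ • z ∈ hypCone p2 e} := by
  have hP := hyp_sum h1 h2 hd1 hd2 hq hz1 hz2 a1 a2
  have hdP : (p1 + p2).IsHomogeneous d := hd1.add hd2
  ext x
  rw [Set.mem_ofPred_eq]
  constructor
  · intro hx
    -- approximations
    set X : ℕ → (Fin n → ℝ) := fun k => x + (1 / ((k : ℝ) + 1)) • e with hX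
    have hXo : ∀ k, InOpen (p1 + p2) e (X k) := fun k =>
      (mem_K_iff hP x).1 hx _ Nat.one_div_pos_of_nat
    have hXt : Tendsto X atTop (𝓝 x) := by
      have h3 : Tendsto (fun k : ℕ => x + (1 / ((k : ℝ) + 1)) • e) atTop (𝓝 (x + (0 : ℝ) • e)) :=
        tendsto_const_nhds.add (tendsto_one_div_add_atTop_nhds_zero_nat.smul_const e)
      rw [zero_smul, add_zero] at h3
      exact h3
    set T : ℕ → ℝ := fun k => (eval (X k) p2 - eval (X k) p1) / (2 * eval (X k) q) with hT
    have m1 : ∀ k, X k + T k • z ∈ hypCone p1 e := fun k =>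
      (interior_left h1 h2 hd1 hd2 hq hz1 hz2 a1 a2 (hXo k)).mem h1
    have m2 : ∀ k, X k - T k • z ∈ hypCone p2 e := fun k =>
      (interior_right h1 h2 hd1 hd2 hq hz1 hz2 a1 a2 (hXo k)).mem h2
    have hq1 : 0 < eval (x + e) q :=
      q_pos_sum h1 h2 hd1 hd2 hq hz1 hz2 a1 a2 (K_add_open hP hx (e_inOpen hP))
    have hqk : ∀ k, 0 < eval (X k + e) q := fun k =>
      q_pos_sum h1 h2 hd1 hd2 hq hz1 hz2 a1 a2 ((hXo k).add hP (e_inOpen hP))
    have low : ∀ k, -(eval (X k + e) p1 / eval (X k + e) q) ≤ T k := by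
      intro k
      have k1 := (K_eval_ge h1 hd1 (m1 k) zero_le_one le_rfl).2.2
      rw [one_pow, mul_one, one_smul, add_right_comm, a1] at k1
      have k2 := h1.2.1
      rw [neg_le, ← neg_le, neg_le_iff_add_nonneg, ← mul_nonneg_iff_of_pos_right (hqk k), add_mul,
        div_mul_cancel₀ _ (hqk k).ne']
      linarith
    have upp : ∀ k, T k ≤ eval (X k + e) p2 / eval (X k + e) q := by
      intro k
      have k1 := (K_eval_ge h2 hd2 (m2 k) zero_le_one le_rfl).2.2
      have k3 : X k - T k • z + (1 : ℝ) • e = (X k + e) + (-T k) • z := by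
        rw [one_smul, neg_smul]
        abel
      rw [one_pow, mul_one, k3, a2] at k1
      have k2 := h2.2.1
      rw [le_div_iff₀ (hqk k)]
      linarith
    have t1 : Tendsto (fun k => -(eval (X k + e) p1 / eval (X k + e) q)) atTop
        (𝓝 (-(eval (x + e) p1 / eval (x + e) q))) := by
      have hXe : Tendsto (fun k => X k + e) atTop (𝓝 (x + e)) := hXt.add_const e
      exact ((((MvPolynomial.continuous_eval p1).tendsto _).comp hXe).div
        (((MvPolynomial.continuous_eval q).tendsto _).comp hXe) hq1.ne').neg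
    have t2 : Tendsto (fun k => eval (X k + e) p2 / eval (X k + e) q) atTop
        (𝓝 (eval (x + e) p2 / eval (x + e) q)) := by
      have hXe : Tendsto (fun k => X k + e) atTop (𝓝 (x + e)) := hXt.add_const e
      exact (((MvPolynomial.continuous_eval p2).tendsto _).comp hXe).div
        (((MvPolynomial.continuous_eval q).tendsto _).comp hXe) hq1.ne'
    have bd : ∀ᶠ k in atTop, T k ∈ Set.Icc (-(eval (x + e) p1 / eval (x + e) q) - 1)
        (eval (x + e) p2 / eval (x + e) q + 1) := by
      filter_upwards [t1.eventually_const_le (sub_one_lt _), t2.eventually_le_const (lt_add_one _)]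
        with k k1 k2
      exact ⟨k1.trans (low k), (upp k).trans k2⟩
    obtain ⟨τ, -, φ, hφ, hτ⟩ := isCompact_Icc.tendsto_subseq' bd.frequently
    have hXφ : Tendsto (X ∘ φ) atTop (𝓝 x) := hXt.comp hφ.tendsto_atTop
    refine ⟨τ, ?_, ?_⟩
    · refine (isClosed_K h1).mem_of_tendsto (hXφ.add (hτ.smul_const z))
        (Eventually.of_forall fun k => ?_)
      exact m1 (φ k)
    · refine (isClosed_K h2).mem_of_tendsto (hXφ.sub (hτ.smul_const z))
        (Eventually.of_forall fun k => ?_)
      exact m2 (φ k)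
  · rintro ⟨τ, x1, x2⟩
    rw [mem_hypCone_iff hdP]
    intro t ht
    have k1 := (K_eval_ge h1 hd1 x1 ht.le le_rfl).2.2
    have k2 := (K_eval_ge h2 hd2 x2 ht.le le_rfl).2.2
    have k3 := mul_pos h1.2.1 (pow_pos ht d)
    have k4 := mul_pos h2.2.1 (pow_pos ht d)
    have k5 : x - τ • z + t • e = (x + t • e) + (-τ) • z := by
      rw [neg_smul]
      abel
    rw [add_right_comm, a1] at k1
    rw [k5, a2] at k2
    rw [map_add]
    exact (by linarith : 0 < eval (x + t • e) p1 + eval (x + t • e) p2).ne'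

theorem GShad.proj {S : Set (Fin (n + 1) → ℝ)} (h : GShad S) :
    GShad {x : Fin n → ℝ | ∃ τ : ℝ, (Fin.cons τ x : Fin (n + 1) → ℝ) ∈ S} := by
  obtain ⟨ι, κ, hι, hκ, A₀, A, B, hA₀, hA, hB, hS⟩ := h
  refine ⟨ι, Option κ, hι, inferInstance, A₀, fun i => A i.succ, fun o => o.elim (A 0) B, hA₀,
    fun i => hA _, ?_, ?_⟩
  · rintro (_ | j)
    · exact hA 0
    · exact hB j
  · rw [hS]
    ext x
    simp only [Set.mem_ofPred_eq]
    have key : ∀ (τ : ℝ) (u : κ → ℝ), A₀ + ∑ i, (Fin.cons τ x : Fin (n + 1) → ℝ) i • A i +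
        ∑ j, u j • B j = A₀ + ∑ i, x i • A i.succ +
        ∑ o : Option κ, ((fun o => o.elim τ u : Option κ → ℝ) o) •
          (o.elim (A 0) B : Matrix ι ι ℝ) := by
      intro τ u
      rw [Fin.sum_univ_succ, Fintype.sum_option]
      simp only [Fin.cons_zero, Fin.cons_succ, Option.elim_none, Option.elim_some]
      abel
    constructor
    · rintro ⟨τ, u, hu⟩
      refine ⟨fun o => o.elim τ u, ?_⟩
      rw [key] at hu
      exact hu
    · rintro ⟨w, hw⟩
      refine ⟨w none, fun j => w (some j), ?_⟩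
      rw [key]
      have hw' : w = fun o => o.elim (w none) fun j => w (some j) := by
        funext o
        rcases o with _ | j <;> rfl
      rw [hw'] at hw
      exact hw

/-- closure of the class of hyperbolicity cones that are spectrahedral shadows under sums of
polynomials with the same derivative in a boundary direction -/
theorem sum_closure {d : ℕ} (h1 : IsHyperbolic p1 e) (h2 : IsHyperbolic p2 e)
    (hd1 : p1.IsHomogeneous d) (hd2 : p2.IsHomogeneous d) (hq : IsHyperbolic q e)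
    (hq1 : polarDeriv z p1 = q) (hq2 : polarDeriv z p2 = q) (hqz : polarDeriv z q = 0)
    (hz1 : z ∈ hypCone p1 e) (hz2 : z ∈ hypCone p2 e) :
    IsHyperbolic (p1 + p2) e ∧
      (GShad (hypCone p1 e) → GShad (hypCone p2 e) → GShad (hypCone (p1 + p2) e)) := by
  have a1 : AffZ p1 q z := .of_polar hq1 hqz
  have a2 : AffZ p2 q z := .of_polar hq2 hqz
  refine ⟨hyp_sum h1 h2 hd1 hd2 hq hz1 hz2 a1 a2, fun g1 g2 => ?_⟩
  let L1 : (Fin (n + 1) → ℝ) →ₗ[ℝ] (Fin n → ℝ) :=
    { toFun := fun y i => y i.succ + y 0 * z i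
      map_add' := fun x y => by funext i; simp only [Pi.add_apply]; ring
      map_smul' := fun c x => by
        funext i; simp only [Pi.smul_apply, smul_eq_mul, RingHom.id_apply]; ring }
  let L2 : (Fin (n + 1) → ℝ) →ₗ[ℝ] (Fin n → ℝ) :=
    { toFun := fun y i => y i.succ - y 0 * z i
      map_add' := fun x y => by funext i; simp only [Pi.add_apply]; ring
      map_smul' := fun c x => by
        funext i; simp only [Pi.smul_apply, smul_eq_mul, RingHom.id_apply]; ring }
  have h3 := GShad.proj ((g1.preimage L1).inter (g2.preimage L2))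
  rw [hypCone_sum h1 h2 hd1 hd2 hq hz1 hz2 a1 a2]
  have h4 : {x | ∃ τ : ℝ, x + τ • z ∈ hypCone p1 e ∧ x - τ • z ∈ hypCone p2 e} =
      {x : Fin n → ℝ | ∃ τ : ℝ, (Fin.cons τ x : Fin (n + 1) → ℝ) ∈
        (L1 ⁻¹' hypCone p1 e) ∩ (L2 ⁻¹' hypCone p2 e)} := by
    ext x
    simp only [Set.mem_ofPred_eq, Set.mem_inter_iff, Set.mem_preimage]
    have e1 : ∀ τ : ℝ, L1 (Fin.cons τ x) = x + τ • z := by
      intro τ
      funext i
      change (Fin.cons τ x : Fin (n + 1) → ℝ) i.succ + (Fin.cons τ x : Fin (n + 1) → ℝ) 0 * z i = _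
      rw [Fin.cons_succ, Fin.cons_zero]
      rfl
    have e2 : ∀ τ : ℝ, L2 (Fin.cons τ x) = x - τ • z := by
      intro τ
      funext i
      change (Fin.cons τ x : Fin (n + 1) → ℝ) i.succ - (Fin.cons τ x : Fin (n + 1) → ℝ) 0 * z i = _
      rw [Fin.cons_succ, Fin.cons_zero]
      rfl
    simp only [e1, e2]
  rw [h4]
  exact h3

end Vale.Agent.P256.St
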