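import Vale.Agent.P256.St.ClassB
import Vale.Agent.P256.St.Fin
import Vale.Agent.P256.St.Local
import Vale.Agent.P256.St.Sum
import Vale.Agent.P256.C5.Class
import Vale.Agent.P256.C5.Class2
import Vale.Agent.P256.C5.L

/-! All members of the class `Built` are hyperbolic and have shadow cones. -/

namespace Vale.Agent.P256.St

open MvPolynomial

/-- **Good cubics** have shadow cones. -/
theorem good_cubic {n : ℕ} {p : MvPolynomial (Fin n) ℝ} {e : Fin n → ℝ} (h : GoodCubic p e) :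
    GShad (hypCone p e) := good_shad sosStmt h

/-- **Main theorem on the class**. -/
theorem Built.main {n : ℕ} {p : MvPolynomial (Fin n) ℝ} {e : Fin n → ℝ} (h : Built p e) :
    IsHyperbolic p e ∧ GShad (hypCone p e) := by
  induction h with
  | nice h => exact ⟨h.1, h.shad⟩
  | cubic h => exact ⟨h.1, good_cubic h⟩
  | det M hs he h => exact det_hyp_shad M hs he h
  | deriv as hq has hne =>
    have h1 := polar_main (A := LinearMap.id) hq.hyp (fun x => rfl) hq as has hne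
    exact ⟨h1.1, GShad.of_shadow h1.2⟩
  | comp A h _ ih =>
    refine ⟨hyp_pre A h ih.1, ?_⟩
    rw [hypCone_pre A h]
    exact ih.2.preimage A
  | mul _ _ ih1 ih2 =>
    refine ⟨hyp_mul ih1.1 ih2.1, ?_⟩
    rw [hypCone_mul]
    exact ih1.2.inter ih2.2
  | cone hp hK _ ih =>
    refine ⟨hp, ?_⟩
    rw [hK]
    exact ih.2
  | dir hf _ ih =>
    have h1 := (interior_iff ih.1).1 hf
    refine ⟨garding1 ih.1 h1, ?_⟩
    rw [K_eq ih.1 h1]
    exact ih.2
  | ext ρ A B hρ hB hBK h _ ih =>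
    exact ⟨quad_hyp ih.1 hBK h hρ rfl hB, quad_gshad ih.1 ih.2 hBK h hρ rfl hB⟩
  | lorentz l Q R G hp hl hK hQ hker h => exact ⟨hp, lorentz_rep hp l Q R _ G hl hK hQ hker h⟩
  | sum z hd1 hd2 hq hqh hqz hz1 hz2 _ _ ih1 ih2 =>
    have h1 := sum_closure ih1.1 ih2.1 hd1 hd2 hqh rfl hq.symm hqz hz1 hz2
    exact ⟨h1.1, h1.2 ih1.2 ih2.2⟩

end Vale.Agent.P256.St
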