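import Vale.Agent.P256.St.ClassDefs

/-! The class of hyperbolic polynomials of the statement on strict double points. -/

namespace Vale.Agent.P256.St

open MvPolynomial

/-- `Built p e`: the hyperbolic polynomial `p`, with direction `e`, is obtained in finitely many
steps from nice cones, good cubics, definite determinants, derivatives of polynomials with
ordinary boundary, and polynomials with an identity `l p = Q R - ∑ G_i²` with a linear form `l`
and quadratic forms `Q`, `R`, `G_i`, by composition with linear maps, products, changes of the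
polynomial which do not change the cone, changes of the direction in the interior of the cone,
quadratic extensions, and sums `p₁ + p₂` with `D_z p₁ = D_z p₂ = q`, `q` hyperbolic, `D_z q = 0`,
for a common point `z` of the two cones. -/
inductive Built : ∀ {n : ℕ}, MvPolynomial (Fin n) ℝ → (Fin n → ℝ) → Prop
  | nice {n : ℕ} {p : MvPolynomial (Fin n) ℝ} {e : Fin n → ℝ} : NiceCone p e → Built p e
  | cubic {n : ℕ} {p : MvPolynomial (Fin n) ℝ} {e : Fin n → ℝ} : GoodCubic p e → Built p e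
  | det {n m : ℕ} {p : MvPolynomial (Fin n) ℝ} {e : Fin n → ℝ}
      (M : (Fin n → ℝ) →ₗ[ℝ] Matrix (Fin m) (Fin m) ℝ) :
      (∀ x, (M x).IsSymm) → (M e).PosDef → (∀ x, eval x p = (M x).det) → Built p e
  | deriv {n : ℕ} {p : MvPolynomial (Fin n) ℝ} {e : Fin n → ℝ} (as : List (Fin n → ℝ)) :
      OrdinaryCone p e → (∀ a ∈ as, a ∈ interior (hypCone p e)) → as.foldr polarDeriv p ≠ 0 →
      Built (as.foldr polarDeriv p) e
  | comp {n k : ℕ} {p : MvPolynomial (Fin n) ℝ} {q : MvPolynomial (Fin k) ℝ} {e : Fin n → ℝ}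
      (A : (Fin n → ℝ) →ₗ[ℝ] (Fin k → ℝ)) :
      (∀ x, eval x p = eval (A x) q) → Built q (A e) → Built p e
  | mul {n : ℕ} {p q : MvPolynomial (Fin n) ℝ} {e : Fin n → ℝ} :
      Built p e → Built q e → Built (p * q) e
  | cone {n : ℕ} {p q : MvPolynomial (Fin n) ℝ} {e : Fin n → ℝ} :
      IsHyperbolic p e → hypCone p e = hypCone q e → Built q e → Built p e
  | dir {n : ℕ} {p : MvPolynomial (Fin n) ℝ} {e f : Fin n → ℝ} :
      f ∈ interior (hypCone p e) → Built p e → Built p f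
  | ext {n k : ℕ} {p : MvPolynomial (Fin n) ℝ} {q : MvPolynomial (Fin k) ℝ} {e : Fin n → ℝ}
      (ρ : (Fin n → ℝ) →ₗ[ℝ] ℝ) (A : (Fin n → ℝ) →ₗ[ℝ] (Fin k → ℝ))
      (B : (Fin n → ℝ) →ₗ[ℝ] (Fin n → ℝ) →ₗ[ℝ] (Fin k → ℝ)) :
      ρ e = 1 → (∀ x, B e x + B x e = 0) → (∀ x, B x x ∈ hypCone q (A e)) →
      (∀ x, eval x p = eval (ρ x • A x - B x x) q) → Built q (A e) → Built p e
  | lorentz {n k : ℕ} {p : MvPolynomial (Fin n) ℝ} {e : Fin n → ℝ} (l : (Fin n → ℝ) →ₗ[ℝ] ℝ)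
      (Q R : (Fin n → ℝ) →ₗ[ℝ] (Fin n → ℝ) →ₗ[ℝ] ℝ)
      (G : Fin k → (Fin n → ℝ) →ₗ[ℝ] (Fin n → ℝ) →ₗ[ℝ] ℝ) :
      IsHyperbolic p e → 0 < l e → (∀ x ∈ hypCone p e, 0 ≤ l x) → 0 < Q e e →
      (∀ x, l x = 0 → Q x x ≤ 0 ∧ R x x ≤ 0) →
      (∀ x, l x * eval x p = Q x x * R x x - ∑ i, (G i x x) ^ 2) → Built p e
  | sum {n d : ℕ} {p₁ p₂ : MvPolynomial (Fin n) ℝ} {e : Fin n → ℝ} (z : Fin n → ℝ) :
      p₁.IsHomogeneous d → p₂.IsHomogeneous d → polarDeriv z p₁ = polarDeriv z p₂ →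
      IsHyperbolic (polarDeriv z p₁) e → polarDeriv z (polarDeriv z p₁) = 0 →
      z ∈ hypCone p₁ e → z ∈ hypCone p₂ e → Built p₁ e → Built p₂ e → Built (p₁ + p₂) e

end Vale.Agent.P256.St
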