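import Vale.Agent.P256.St.Geo

/-! The cone of a cubic with a strict double point from the factorisation of the slack kernel. -/

namespace Vale.Agent.P256.St

open MvPolynomial Filter Topology

variable {n m k : ℕ} {p : MvPolynomial (Fin n) ℝ} {e z : Fin n → ℝ}

theorem map_eq_sum' (L : (Fin n → ℝ) →ₗ[ℝ] ℝ) (x : Fin n → ℝ) :
    L x = ∑ i, x i • L (Pi.single i 1) := by
  conv_lhs => rw [pi_eq_sum_univ' x]
  rw [map_sum]
  exact Finset.sum_congr rfl fun i _ => by rw [map_smul]

/-- the last root on a line -/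
theorem last_root (h : DPt p e z) {x : Fin n → ℝ} (hx : x ∉ hypCone p e) :
    ∃ t : ℝ, 0 < t ∧ x + t • e ∈ hypCone p e ∧ eval (x + t • e) p = 0 := by
  rw [mem_hypCone_iff h.hom] at hx
  push Not at hx
  obtain ⟨t0, ht0, h0⟩ := hx
  let f : Polynomial ℝ := Polynomial.C (eval x p) + Polynomial.C (3 * triL p x x e) *
    Polynomial.X + Polynomial.C (3 * triL p x e e) * Polynomial.X ^ 2 +
    Polynomial.C (eval e p) * Polynomial.X ^ 3
  have hf : ∀ t : ℝ, f.eval t = eval (x + t • e) p := by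
    intro t
    rw [eval_add_cubic h.hom, eval_smul' h.hom]
    simp only [f, map_smul, LinearMap.smul_apply, smul_eq_mul, Polynomial.eval_add,
      Polynomial.eval_mul, Polynomial.eval_C, Polynomial.eval_X, Polynomial.eval_pow]
    ring
  have hf0 : f ≠ 0 := by
    intro h1
    have h2 : f.coeff 3 = eval e p := by
      simp only [f, Polynomial.coeff_add, Polynomial.coeff_C_mul_X_pow, Polynomial.coeff_C_mul,
        Polynomial.coeff_X, Polynomial.coeff_C]
      norm_num
    rw [h1, Polynomial.coeff_zero] at h2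
    exact h.hyp.2.1.ne h2
  set S := f.roots.toFinset.filter (fun t => 0 < t) with hS
  have hmem : ∀ t, t ∈ S ↔ 0 < t ∧ eval (x + t • e) p = 0 := by
    intro t
    rw [hS, Finset.mem_filter, Multiset.mem_toFinset, Polynomial.mem_roots hf0,
      Polynomial.IsRoot.def, hf]
    exact and_comm
  have hne : S.Nonempty := ⟨t0, (hmem t0).2 ⟨ht0, h0⟩⟩
  obtain ⟨ht1, h1⟩ := (hmem _).1 (S.max'_mem hne)
  refine ⟨S.max' hne, ht1, ?_, h1⟩
  rw [mem_hypCone_iff h.hom]
  intro t ht h2
  have h3 : x + S.max' hne • e + t • e = x + (S.max' hne + t) • e := by module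
  rw [h3] at h2
  have h4 := S.le_max' _ ((hmem _).2 ⟨by linarith, h2⟩)
  linarith

theorem exists_l0 (hm : 0 < m) : ∃ l : Par m k, l ∈ DD m k ∧ qh l.2 = 0 ∧ l.1 0 = 1 ∧
    ∑ i, l.2 i ^ 2 = 1 ∧ l.1 ≠ 0 := by
  have h1 : ∑ i : Fin m, (Pi.single (⟨0, hm⟩ : Fin m) (1 : ℝ) : Fin m → ℝ) i ^ 2 = 1 := by
    rw [Finset.sum_eq_single (⟨0, hm⟩ : Fin m)]
    · simp
    · intro b _ hb
      rw [Pi.single_eq_of_ne hb]
      norm_num
    · simp
  have h2 : ∑ i : Fin (k + 1), (Pi.single (0 : Fin (k + 1)) (1 : ℝ) : Fin (k + 1) → ℝ) i ^ 2 =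
      1 := by
    rw [Finset.sum_eq_single (0 : Fin (k + 1))]
    · simp
    · intro b _ hb
      rw [Pi.single_eq_of_ne hb]
      norm_num
    · simp
  refine ⟨(Pi.single 0 1, Pi.single ⟨0, hm⟩ 1), ⟨h2, by simp, h1.le⟩, ?_, by simp, h1, ?_⟩
  · rw [qh, h1, sub_self]
  · intro h3
    have := congrFun h3 0
    simp at this

/-- the dual description -/
theorem mem_of_nu (h : DPt p e z) (hS : Str p e z) (c : Co p e z m k) (hm : 0 < m)
    (hF : (nf c).Strict) {x : Fin n → ℝ} (hx : ∀ l ∈ DD m k, 0 ≤ nu c l x) :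
    x ∈ hypCone p e := by
  by_contra hcon
  obtain ⟨t, ht, hK, h0⟩ := last_root h hcon
  rcases point_form h hS c hK with ⟨a, ha, hxa⟩ | ⟨l, a, b, hl, ha, hb, hl0, hq, hxa, hb0⟩
  · obtain ⟨l, hl, hq, hl0, hl1, hl2⟩ := exists_l0 (m := m) (k := k) hm
    have h1 := hx l hl
    have hx0 : c.x0 x = -(t * c.x0 e) := by
      have := congrArg c.x0 hxa
      simp only [map_add, map_smul, c.x0z, smul_eq_mul, mul_zero] at this
      linarith
    have hf : ∀ i, c.f i x = 0 := by
      intro i
      have := congrArg (c.f i) hxa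
      simp only [map_add, map_smul, c.fz, c.fe, smul_eq_mul, mul_zero, add_zero] at this
      exact this
    rw [nu_apply, hq, hx0] at h1
    simp only [ro, hq, hf, mul_zero, Finset.sum_const_zero, sub_zero, zero_mul, add_zero] at h1
    have h2 := hF l.2 hl1 l.1 hl2
    have h3 := mul_pos ht c.x0e
    have h4 : 0 < 2 * (nf c).nn l.2 l.1 l.1 * (t * c.x0 e) := by positivity
    nlinarith
  · rw [hb0 h0, zero_smul, add_zero] at hxa
    have h1 := hx l hl
    have h2 := dd_nu h c l x
    have h3 : 0 ≤ 3 * triL p (Xv c l) (Xv c l) x := by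
      rw [← h2]
      positivity
    set Y := x + t • e with hY
    have h4 : 3 * triL p Y Y x = a ^ 2 * (3 * triL p (Xv c l) (Xv c l) x) := by
      rw [hxa]
      simp only [map_smul, LinearMap.smul_apply, smul_eq_mul]
      ring
    have h5 : 3 * triL p Y Y x = -(t * (3 * triL p Y Y e)) := by
      have h6 : x = Y - t • e := by rw [hY]; module
      conv_lhs => rw [h6]
      rw [map_sub, map_smul, smul_eq_mul, ← tri_diag h.hom, h0]
      ring
    -- positivity of the derivative in the direction `e`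
    have h7 : 0 < 3 * triL p Y Y z := by
      have h8 : 3 * triL p Y Y z = a ^ 2 * ((ro l) ^ 2 * ((l.1 0) ^ 2 * qh l.2)) := by
        rw [hxa, ← q_xv c l]
        simp only [Xv, map_add, map_smul, LinearMap.add_apply, LinearMap.smul_apply, smul_eq_mul]
        have e1 : triL p (xv c l) z z = 0 := by rw [triL_swap12, triL_swap23, h.grad]
        have e2 : triL p (xv c l) (xv c l) z = triL p z (xv c l) (xv c l) := by
          rw [triL_swap23, triL_swap12]
        have e3 : triL p z (xv c l) z = 0 := by rw [triL_swap23, h.grad]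
        rw [e1, e2, e3, h.grad]
        ring
      rw [h8]
      have : 0 < ro l := mul_pos hl0 hq
      positivity
    have h9 : 0 < 3 * triL p Y Y e := by
      have hint : hypCone p e ∈ 𝓝 e :=
        mem_interior_iff_mem_nhds.1 ((interior_iff h.hyp).2 (e_inOpen h.hyp))
      have hc : Continuous (fun s : ℝ => e - s • z) := by fun_prop
      have h10 : (fun s : ℝ => e - s • z) ⁻¹' hypCone p e ∈ 𝓝 (0 : ℝ) :=
        hc.continuousAt.preimage_mem_nhds (by simpa using hint)
      obtain ⟨δ, hδ, h11⟩ := Metric.mem_nhds_iff.1 h10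
      have h12 : e - (δ / 2) • z ∈ hypCone p e := by
        apply h11
        rw [Metric.mem_ball, dist_zero_right, Real.norm_eq_abs, abs_of_pos (by positivity)]
        linarith
      have h13 := K_dd_nonneg h.hyp hK h0 h12
      rw [dd_tri h.hom, map_sub, map_smul, smul_eq_mul] at h13
      nlinarith
    have h14 : 0 ≤ 3 * triL p Y Y x := by
      rw [h4]
      positivity
    rw [h5] at h14
    have := mul_pos ht h9
    linarith

/-- **The cone is a shadow** if the kernel is a sum of squares. -/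
theorem shad_of_sos (h : DPt p e z) (hS : Str p e z) (c : Co p e z m k) (hm : 0 < m)
    (hF : (nf c).Strict) (hsos : SosOn (DD m k) (DD m k) (nf c).kern) :
    GShad (hypCone p e) := by
  classical
  let T : Set (Fin n → ℝ) := Xv c '' DD m k
  let φ : (Fin n → ℝ) → Par m k := fun x => if hx : x ∈ T then hx.choose else (0, 0)
  have hφ : ∀ x ∈ T, φ x ∈ DD m k ∧ Xv c (φ x) = x := by
    intro x hx
    have h1 : φ x = hx.choose := by simp only [φ, dif_pos hx]
    rw [h1]
    exact hx.choose_spec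
  obtain ⟨h', hh, heq⟩ := hsos
  have hs : SosOn (DD m k) T (fun l x => ∑ i, nu c l (Pi.single i 1) * x i) := by
    refine ⟨fun l x => h' l (φ x), hh.comp id φ, fun l hl x hx => ?_⟩
    obtain ⟨h1, h2⟩ := hφ x hx
    show ∑ i, nu c l (Pi.single i 1) * x i = h' l (φ x)
    rw [← heq l hl _ h1, ← nu_Xv h c l (φ x), h2, map_eq_sum' (nu c l) x]
    exact Finset.sum_congr rfl fun i _ => by rw [smul_eq_mul, mul_comm]
  obtain ⟨C, hC, hTC, hCY, hCa, hCs, hC0⟩ := local_cone hs
  have hnu : ∀ x ∈ C, ∀ l ∈ DD m k, 0 ≤ nu c l x := by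
    intro x hx l hl
    have h1 := hCY x hx l hl
    rw [map_eq_sum' (nu c l) x]
    refine h1.trans_eq (Finset.sum_congr rfl fun i _ => by rw [smul_eq_mul, mul_comm])
  have hX : ∀ l ∈ DD m k, Xv c l ∈ C := fun l hl => hTC ⟨l, hl, rfl⟩
  have hz : z ∈ C := by
    obtain ⟨l, hl, hq, hl0, hl1, hl2⟩ := exists_l0 (m := m) (k := k) hm
    have h2 := hF l.2 hl1 l.1 hl2
    have h3 := hCs ((nf c).nn l.2 l.1 l.1)⁻¹ (inv_nonneg.2 h2.le) _ (hX l hl)
    have h4 : ((nf c).nn l.2 l.1 l.1)⁻¹ • Xv c l = z := by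
      rw [Xv, ro, hq, mul_zero, zero_smul, add_zero, smul_smul, inv_mul_cancel₀ h2.ne', one_smul]
    rwa [h4] at h3
  have hKC : hypCone p e = C := by
    ext x
    constructor
    · intro hx
      rcases point_form h hS c hx with ⟨a, ha, hxa⟩ | ⟨l, a, b, hl, ha, hb, hl0, hq, hxa, hb0⟩
      · rw [hxa]
        exact hCs a ha z hz
      · rw [hxa]
        exact hCa _ (hCs a ha.le _ (hX l hl)) _ (hCs b hb z hz)
    · intro hx
      exact mem_of_nu h hS c hm hF (hnu x hx)
  rw [hKC]
  exact GShad.of_shadow hC.shadow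

end Vale.Agent.P256.St
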