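import Vale.Agent.P256.Bdl.B1

/-! Interface for strict double points of hyperbolic cubics: normal form and slack kernel. -/

namespace Vale.Agent.P256.St

open MvPolynomial

variable {m k : ℕ}

/-- The normal form of a cubic `s q(y) - (A(y)[u,u] + B(y)[u] + C(y))` in the variables
`y = λ (1, η)`, `w = (λ, u)`: it is `s λ² (1 - |η|²) - λ N(η)[w,w]`. -/
structure NF (m k : ℕ) where
  N : Fin (k + 1) → Fin (k + 1) → MvPolynomial (Fin m) ℝ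
  symm : ∀ a b, N a b = N b a
  deg2 : ∀ i j : Fin k, (N i.succ j.succ).totalDegree ≤ 1
  deg1 : ∀ j : Fin k, (N 0 j.succ).totalDegree ≤ 2
  deg0 : (N 0 0).totalDegree ≤ 3

namespace NF

variable (F : NF m k)

/-- `N(η)[w,w']` -/
noncomputable def nn (η : Fin m → ℝ) (w w' : Fin (k + 1) → ℝ) : ℝ :=
  ∑ a, ∑ b, eval η (F.N a b) * w a * w' b

/-- `DN(η)[d][w,w']` -/
noncomputable def dn (η d : Fin m → ℝ) (w w' : Fin (k + 1) → ℝ) : ℝ :=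
  ∑ i, d i * ∑ a, ∑ b, eval η (pderiv i (F.N a b)) * w a * w' b

end NF

/-- `1 - |η|²` -/
def qh (η : Fin m → ℝ) : ℝ := 1 - ∑ i, η i ^ 2

/-- `ρ = λ (1 - |η|²)` -/
def ro (l : (Fin (k + 1) → ℝ) × (Fin m → ℝ)) : ℝ := l.1 0 * qh l.2

namespace NF

variable (F : NF m k)

/-- the slack kernel: functional `l`, point `x` -/
noncomputable def kern (l x : (Fin (k + 1) → ℝ) × (Fin m → ℝ)) : ℝ :=
  F.nn x.2 x.1 x.1 * ro l ^ 2 + F.nn l.2 l.1 l.1 * ro x ^ 2 - 2 * ro x * ro l * F.nn l.2 l.1 x.1 +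
    qh x.2 * (x.1 0) ^ 2 * (F.nn l.2 l.1 l.1 * ∑ i, (x.2 i - l.2 i) ^ 2 -
      qh l.2 * F.dn l.2 (fun i => x.2 i - l.2 i) l.1 l.1)

/-- strictness: `N(η)[w,w] > 0` for `|η| = 1`, `w ≠ 0` -/
def Strict : Prop := ∀ η : Fin m → ℝ, ∑ i, η i ^ 2 = 1 → ∀ w : Fin (k + 1) → ℝ, w ≠ 0 →
  0 < F.nn η w w

end NF

/-- the compact parameter set -/
def DD (m k : ℕ) : Set ((Fin (k + 1) → ℝ) × (Fin m → ℝ)) :=
  {x | ∑ i, x.1 i ^ 2 = 1 ∧ 0 ≤ x.1 0 ∧ ∑ i, x.2 i ^ 2 ≤ 1}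

/-- the target of the local part -/
def SosStmt (m k : ℕ) : Prop := 0 < m → ∀ F : NF m k, F.Strict →
  SosOn (DD m k) (DD m k) F.kern

end Vale.Agent.P256.St
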