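import Vale.Agent.P256.St.Fin

/-! Hyperbolic cubics with a double point are limits of cubics with a strict double point. -/

namespace Vale.Agent.P256.St

open MvPolynomial Filter Topology

variable {n m k : ℕ} {p : MvPolynomial (Fin n) ℝ} {e z : Fin n → ℝ}

/-! linear forms as polynomials -/

noncomputable def lf (L : (Fin n → ℝ) →ₗ[ℝ] ℝ) : MvPolynomial (Fin n) ℝ :=
  ∑ i, C (L (Pi.single i 1)) * X i

theorem eval_lf (L : (Fin n → ℝ) →ₗ[ℝ] ℝ) (x : Fin n → ℝ) : eval x (lf L) = L x := by
  rw [lf, map_sum]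
  conv_rhs => rw [pi_eq_sum_univ' x, map_sum]
  refine Finset.sum_congr rfl fun i _ => ?_
  rw [map_mul, eval_C, eval_X, map_smul, smul_eq_mul, mul_comm]

theorem homog_lf (L : (Fin n → ℝ) →ₗ[ℝ] ℝ) : (lf L).IsHomogeneous 1 := by
  refine IsHomogeneous.sum _ _ _ fun i _ => ?_
  have := (isHomogeneous_C (Fin n) (L (Pi.single i 1))).mul (isHomogeneous_X ℝ i)
  rwa [zero_add] at this

/-- the perturbation -/
noncomputable def rp (c : Co p e z m k) : MvPolynomial (Fin n) ℝ :=
  lf c.x0 * (lf c.x0 ^ 2 + ∑ j, lf (c.g j) ^ 2)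

/-- the quadratic form of the perturbation -/
noncomputable def gg (c : Co p e z m k) (x y : Fin n → ℝ) : ℝ :=
  c.x0 x * c.x0 y + ∑ j, c.g j x * c.g j y

theorem gg_comm (c : Co p e z m k) (x y : Fin n → ℝ) : gg c x y = gg c y x := by
  rw [gg, gg, mul_comm]
  congr 1
  exact Finset.sum_congr rfl fun j _ => mul_comm _ _

theorem gg_add (c : Co p e z m k) (x y w : Fin n → ℝ) :
    gg c (x + y) w = gg c x w + gg c y w := by
  simp only [gg, map_add, add_mul, Finset.sum_add_distrib]
  ring

theorem gg_add' (c : Co p e z m k) (x y w : Fin n → ℝ) :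
    gg c w (x + y) = gg c w x + gg c w y := by
  rw [gg_comm, gg_add, gg_comm c x, gg_comm c y]

theorem gg_nonneg (c : Co p e z m k) (x : Fin n → ℝ) : 0 ≤ gg c x x := by
  rw [gg]
  exact add_nonneg (mul_self_nonneg _) (Finset.sum_nonneg fun j _ => mul_self_nonneg _)

theorem eval_rp (c : Co p e z m k) (x : Fin n → ℝ) :
    eval x (rp c) = c.x0 x * gg c x x := by
  simp only [rp, gg, map_mul, map_add, map_sum, eval_lf, pow_two]

theorem homog_rp (c : Co p e z m k) : (rp c).IsHomogeneous 3 := by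
  have h1 : ∀ L : (Fin n → ℝ) →ₗ[ℝ] ℝ, (lf L ^ 2).IsHomogeneous 2 := fun L => by
    have := (homog_lf L).pow 2
    rwa [one_mul] at this
  exact (homog_lf c.x0).mul ((h1 _).add (IsHomogeneous.sum _ _ _ fun j _ => h1 _))

theorem tri_rp (c : Co p e z m k) (x y w : Fin n → ℝ) : 3 * triL (rp c) x y w =
    c.x0 x * gg c y w + c.x0 y * gg c x w + c.x0 w * gg c x y := by
  have h := triL_pol (homog_rp c) x y w
  simp only [eval_rp, map_add, gg_add, gg_add'] at h
  rw [gg_comm c y x, gg_comm c w x, gg_comm c w y] at h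
  linarith

theorem rp_pos (c : Co p e z m k) {x : Fin n → ℝ} (hx : 0 < c.x0 x) : 0 < eval x (rp c) := by
  rw [eval_rp, gg]
  have : 0 ≤ ∑ j, c.g j x * c.g j x := Finset.sum_nonneg fun j _ => mul_self_nonneg _
  exact mul_pos hx (by nlinarith [mul_pos hx hx])

/-! the perturbed cubic -/

theorem eval_pd (c : Co p e z m k) (δ : ℝ) (x : Fin n → ℝ) :
    eval x (p - C δ * rp c) = eval x p - δ * eval x (rp c) := by
  rw [map_sub, map_mul, eval_C]

theorem homog_pd (hd : p.IsHomogeneous 3) (c : Co p e z m k) (δ : ℝ) :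
    (p - C δ * rp c).IsHomogeneous 3 := by
  refine hd.sub ?_
  have := (isHomogeneous_C (Fin n) δ).mul (homog_rp c)
  rwa [zero_add] at this

theorem tri_pd (hd : p.IsHomogeneous 3) (c : Co p e z m k) (δ : ℝ) (x y w : Fin n → ℝ) :
    triL (p - C δ * rp c) x y w = triL p x y w - δ * triL (rp c) x y w := by
  have h1 := triL_pol (homog_pd hd c δ) x y w
  have h2 := triL_pol hd x y w
  have h3 := triL_pol (homog_rp c) x y w
  simp only [eval_pd] at h1
  linear_combination (h1 - h2 + δ * h3) / 6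

theorem tri_pd_z (hd : p.IsHomogeneous 3) (c : Co p e z m k) (δ : ℝ) (x y : Fin n → ℝ) :
    triL (p - C δ * rp c) z x y = triL p z x y := by
  rw [tri_pd hd]
  have h1 := tri_rp c z x y
  have h2 : ∀ w, gg c z w = 0 := fun w => by simp [gg, c.x0z, c.gz]
  rw [h2, h2, c.x0z] at h1
  have h3 : triL (rp c) z x y = 0 := by linarith
  rw [h3]
  ring

theorem hessMat_pd (hd : p.IsHomogeneous 3) (c : Co p e z m k) (δ : ℝ) :
    hessMat (p - C δ * rp c) z = hessMat p z := by
  have key : ∀ q : MvPolynomial (Fin n) ℝ, q.IsHomogeneous 3 → ∀ i j, hessMat q z i j =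
      6 * triL q z (Pi.single i 1) (Pi.single j 1) := by
    intro q hq i j
    have h1 := hessMat_mulVec hq z (Pi.single j 1) i
    rw [Matrix.mulVec_single_one] at h1
    exact h1
  ext i j
  rw [key _ (homog_pd hd c δ), key _ hd, tri_pd_z hd]

theorem x0_of_ker (c : Co p e z m k) {u : Fin n → ℝ} (hu : ∀ y, triL p z u y = 0) :
    c.x0 u = 0 := by
  have h1 := c.q u c.e0
  rw [hu, c.x0e0] at h1
  simp only [c.fe0, mul_zero, mul_one, Finset.sum_const_zero, sub_zero] at h1
  exact h1.symm

theorem f_of_ker (c : Co p e z m k) {u : Fin n → ℝ} (hu : ∀ y, triL p z u y = 0) (i : Fin m) :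
    c.f i u = 0 := by
  have h1 := c.q u (c.w i)
  rw [hu, c.x0w] at h1
  simp only [c.fw, mul_ite, mul_one, mul_zero, Finset.sum_ite_eq', Finset.mem_univ, if_true,
    zero_sub] at h1
  linarith

/-! weak inequalities -/

theorem ker_mem (h : DPt p e z) {v : Fin n → ℝ} (hv : ∀ y, triL p z v y = 0) :
    v ∈ hypCone (part p z 2) e := by
  rw [mem_hypCone_iff (part_homog p z 2)]
  intro t ht
  rw [part2 h.hom]
  simp only [map_add, map_smul, LinearMap.add_apply, LinearMap.smul_apply, smul_eq_mul, hv]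
  rw [triL_swap23 p z e v, hv]
  have h1 := h.qe
  have : 0 < 3 * (0 + t * 0 + t * (0 + t * triL p z e e)) := by
    nlinarith [mul_pos ht ht]
  nlinarith [mul_pos ht ht, mul_pos (mul_pos ht ht) h1]

theorem weak_open (h : DPt p e z) {u x : Fin n → ℝ} (hu : ∀ y, triL p z u y = 0)
    (hx : InOpen (part p z 2) e x) : triL p u u x ≤ 0 := by
  by_contra hneg
  push Not at hneg
  refine h.no_slide (w := u) (h := x)
    (fun ε hε => K_add_open h.hypq (ker_mem h hu) (hx.smul h.hypq hε)) fun K => ?_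
  have e1 : ∀ ε : ℝ, eval (u + ε • x) (part p z 2) = ε * (ε * (3 * triL p z x x)) := by
    intro ε
    rw [part2 h.hom]
    simp only [map_add, map_smul, LinearMap.add_apply, LinearMap.smul_apply, smul_eq_mul, hu]
    rw [triL_swap23 p z x u, hu]
    ring
  have e2 : ∀ ε : ℝ, eval (u + ε • x) p =
      ε * (3 * triL p u u x + ε * (3 * triL p u x x) + ε ^ 2 * eval x p) := by
    intro ε
    rw [eval_add_cubic h.hom, eval_ker h hu, eval_smul' h.hom]
    simp only [map_smul, LinearMap.smul_apply, smul_eq_mul]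
    ring
  have hc : Continuous (fun ε : ℝ => 3 * triL p u u x + ε * (3 * triL p u x x) +
      ε ^ 2 * eval x p - K * (ε * (3 * triL p z x x))) := by fun_prop
  have h1 := (hc.tendsto 0).mono_left (nhdsWithin_le_nhds (s := Set.Ioi 0))
  have h2 : 0 < 3 * triL p u u x + 0 * (3 * triL p u x x) +
      0 ^ 2 * eval x p - K * (0 * (3 * triL p z x x)) := by linarith
  filter_upwards [h1.eventually_const_lt h2, self_mem_nhdsWithin] with ε hε hε0
  have hε0' : (0 : ℝ) < ε := hε0
  rw [e1, e2]
  have := mul_pos hε0' hε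
  nlinarith

theorem weak_two (h : DPt p e z) {u x : Fin n → ℝ} (hu : ∀ y, triL p z u y = 0)
    (hx : x ∈ hypCone (part p z 2) e) : triL p u u x ≤ 0 := by
  have h1 : ∀ t : ℝ, 0 < t → triL p u u x + t * triL p u u e ≤ 0 := by
    intro t ht
    have := weak_open h hu ((mem_K_iff h.hypq x).1 hx t ht)
    rwa [map_add, map_smul, smul_eq_mul] at this
  have hc : Continuous (fun t : ℝ => triL p u u x + t * triL p u u e) := by fun_prop
  have h2 := (hc.tendsto 0).mono_left (nhdsWithin_le_nhds (s := Set.Ioi 0))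
  simp only [zero_mul, add_zero] at h2
  refine le_of_tendsto h2 ?_
  filter_upwards [self_mem_nhdsWithin] with t ht using h1 t ht

theorem x0_pos_of (h : DPt p e z) (c : Co p e z m k) {x : Fin n → ℝ}
    (hx : x ∈ hypCone (part p z 2) e) (hne : ∃ y, triL p z x y ≠ 0) : 0 < c.x0 x := by
  rcases (x0_nonneg h c hx).lt_or_eq with h1 | h1
  · exact h1
  · exfalso
    have h2 : 0 ≤ 3 * triL p z x x := by
      rw [← part2 h.hom]
      exact K_eval_nonneg h.hypq hx
    rw [c.q, ← h1] at h2
    have h3 : ∑ i, c.f i x * c.f i x = 0 :=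
      le_antisymm (by linarith) (Finset.sum_nonneg fun i _ => mul_self_nonneg _)
    have h4 := (Finset.sum_eq_zero_iff_of_nonneg
      (fun i _ => mul_self_nonneg (c.f i x))).1 h3
    obtain ⟨y, hy⟩ := hne
    exact hy (ker_of c h1.symm (fun i => mul_self_eq_zero.1 (h4 i (Finset.mem_univ i))) y)

/-! real roots -/

theorem cubic_root {A B C D : ℝ} (hA : 0 < A) {ζ : ℂ}
    (h : (D : ℂ) + C * ζ + B * ζ ^ 2 + A * ζ ^ 3 = 0) (him : ζ.im ≠ 0) :
    ∃ ρ : ℝ, ∀ t : ℝ, D + C * t + B * t ^ 2 + A * t ^ 3 =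
      A * (t - ρ) * ((t - ζ.re) ^ 2 + ζ.im ^ 2) := by
  have h1 := congrArg Complex.re h
  have h2 := congrArg Complex.im h
  simp only [pow_succ, pow_zero, one_mul, Complex.add_re, Complex.add_im, Complex.mul_re,
    Complex.mul_im, Complex.ofReal_re, Complex.ofReal_im, Complex.zero_re,
    Complex.zero_im] at h1 h2
  set a := ζ.re
  set b := ζ.im
  have hre : D + C * a + B * (a ^ 2 - b ^ 2) + A * (a ^ 3 - 3 * a * b ^ 2) = 0 := by
    linear_combination h1
  have him' : b * (C + 2 * B * a + A * (3 * a ^ 2 - b ^ 2)) = 0 := by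
    linear_combination h2
  have hC : C + 2 * B * a + A * (3 * a ^ 2 - b ^ 2) = 0 := by
    rcases mul_eq_zero.1 him' with h3 | h3
    · exact absurd h3 him
    · exact h3
  refine ⟨-B / A - 2 * a, fun t => ?_⟩
  have hρ : A * (-B / A - 2 * a) = -B - 2 * a * A := by
    field_simp
  linear_combination ((t - a) ^ 2 + b ^ 2) * hρ + (t - a) * hC + hre

theorem line_cubic (hd : p.IsHomogeneous 3) (b v : Fin n → ℝ) :
    line p b v = Polynomial.C (eval b p) + Polynomial.C (3 * triL p b b v) * Polynomial.X +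
      Polynomial.C (3 * triL p b v v) * Polynomial.X ^ 2 +
      Polynomial.C (eval v p) * Polynomial.X ^ 3 := by
  apply Polynomial.funext
  intro t
  rw [eval_line, eval_add_cubic hd]
  simp only [map_smul, LinearMap.smul_apply, smul_eq_mul, Polynomial.eval_add,
    Polynomial.eval_mul, Polynomial.eval_C, Polynomial.eval_X, Polynomial.eval_pow,
    eval_smul' hd]
  ring

theorem hyp_pd (h : DPt p e z) (c : Co p e z m k) {δ : ℝ} (h0 : 0 < δ)
    (h1 : δ * eval e (rp c) < eval e p) : IsHyperbolic (p - C δ * rp c) e := by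
  have hPe : 0 < eval e (p - C δ * rp c) := by rw [eval_pd]; linarith
  have hPh : (p - C δ * rp c).IsHomogeneous 3 := homog_pd h.hom c δ
  refine ⟨⟨3, hPh⟩, hPe, fun x ζ hζ => ?_⟩
  by_contra him
  set b := -x with hb
  have h2 : Polynomial.aeval ζ (line (p - C δ * rp c) b e) = 0 := by
    rw [aeval_line, ← hζ]
    congr 2
    funext i
    simp only [hb, Pi.neg_apply, Complex.ofReal_neg]
    ring
  rw [line_cubic hPh] at h2
  simp only [map_add, map_mul (Polynomial.aeval ζ), map_pow, Polynomial.aeval_C,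
    Polynomial.aeval_X, Complex.coe_algebraMap] at h2
  obtain ⟨ρ, hρ⟩ := cubic_root hPe h2 him
  have hev : ∀ t : ℝ, eval (b + t • e) (p - C δ * rp c) =
      eval e (p - C δ * rp c) * (t - ρ) * ((t - ζ.re) ^ 2 + ζ.im ^ 2) := by
    intro t
    rw [← hρ t, eval_add_cubic hPh, eval_smul' hPh]
    simp only [map_smul, LinearMap.smul_apply, smul_eq_mul]
    ring
  have hneg : ∀ y, eval (-y) (p - C δ * rp c) = -eval y (p - C δ * rp c) := by
    intro y
    have h3 : -y = (-1 : ℝ) • y := by module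
    rw [h3, eval_smul' hPh]
    ring
  have hpos : ∀ t : ℝ, 0 < eval e (p - C δ * rp c) * ((t - ζ.re) ^ 2 + ζ.im ^ 2) := fun t =>
    mul_pos hPe (by positivity)
  have hω := c.x0e
  have hmem : ∀ y : Fin n → ℝ, 0 < c.x0 y → c.x0 y ^ 2 = ∑ i, c.f i y ^ 2 →
      eval y (p - C δ * rp c) < 0 := by
    intro y hy hyf
    have h3 : triL p z y y = 0 := by
      have h4 := c.q y y
      have h5 : ∑ i, c.f i y * c.f i y = ∑ i, c.f i y ^ 2 :=
        Finset.sum_congr rfl fun i _ => by ring
      rw [h5, ← hyf] at h4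
      linarith
    have h4 := h.nonpos (mem_Kq h c hy.le h3.ge (Or.inl hy)) h3
    rw [eval_pd]
    have := mul_pos h0 (rp_pos c hy)
    linarith
  have f2 : ∀ (t : ℝ) i, c.f i (b + t • e) = c.f i b := by
    intro t i
    rw [map_add, map_smul, c.fe, smul_zero, add_zero]
  have hS : 0 ≤ ∑ i, c.f i b ^ 2 := Finset.sum_nonneg fun i _ => sq_nonneg _
  set σ := Real.sqrt (∑ i, c.f i b ^ 2) with hσ
  have hσ2 : σ ^ 2 = ∑ i, c.f i b ^ 2 := Real.sq_sqrt hS
  have hσ0 : 0 ≤ σ := Real.sqrt_nonneg _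
  clear_value σ
  rcases hσ0.lt_or_eq with hs | hs
  · have a2 : c.x0 (b + ((-c.x0 b + σ) / c.x0 e) • e) = σ := by
      rw [map_add, map_smul, smul_eq_mul]
      field_simp
      ring
    have a1 : c.x0 (-(b + ((-c.x0 b - σ) / c.x0 e) • e)) = σ := by
      rw [map_neg, map_add, map_smul, smul_eq_mul]
      field_simp
      ring
    have b2 := hmem _ (by rw [a2]; exact hs) (by rw [a2, hσ2]; simp only [f2])
    have b1 := hmem _ (by rw [a1]; exact hs)
      (by rw [a1, hσ2]; simp only [map_neg, f2, neg_sq])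
    rw [hneg, hev] at b1
    rw [hev] at b2
    have p1 := hpos ((-c.x0 b - σ) / c.x0 e)
    have p2 := hpos ((-c.x0 b + σ) / c.x0 e)
    have c1 : ρ < (-c.x0 b - σ) / c.x0 e := by
      by_contra hcon
      push Not at hcon
      nlinarith
    have c2 : (-c.x0 b + σ) / c.x0 e < ρ := by
      by_contra hcon
      push Not at hcon
      nlinarith
    have c3 : (-c.x0 b - σ) / c.x0 e < (-c.x0 b + σ) / c.x0 e :=
      div_lt_div_of_pos_right (by linarith) hω
    linarith
  · have hf : ∀ i, c.f i b = 0 := by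
      rw [← hs] at hσ2
      have h4 := (Finset.sum_eq_zero_iff_of_nonneg
        (fun i _ => sq_nonneg (c.f i b))).1 (by rw [← hσ2]; norm_num)
      intro i
      exact pow_eq_zero_iff (two_ne_zero) |>.1 (h4 i (Finset.mem_univ i))
    set t₀ := -c.x0 b / c.x0 e with ht₀
    have hx0 : c.x0 (b + t₀ • e) = 0 := by
      rw [map_add, map_smul, smul_eq_mul, ht₀]
      field_simp
      ring
    have hker : ∀ y, triL p z (b + t₀ • e) y = 0 :=
      ker_of c hx0 (fun i => by rw [f2, hf])
    have hP0 : eval (b + t₀ • e) (p - C δ * rp c) = 0 := by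
      rw [eval_pd, eval_ker h hker, eval_rp, hx0]
      ring
    have hρ0 : t₀ = ρ := by
      have h4 := hev t₀
      rw [hP0] at h4
      have h5 := hpos t₀
      have h6 : (t₀ - ρ) * (eval e (p - C δ * rp c) * ((t₀ - ζ.re) ^ 2 + ζ.im ^ 2)) = 0 := by
        linarith
      rcases mul_eq_zero.1 h6 with h7 | h7
      · linarith
      · exact absurd h7 h5.ne'
    have hT : triL (p - C δ * rp c) (b + t₀ • e) (b + t₀ • e) e ≤ 0 := by
      rw [tri_pd h.hom]
      have h4 := weak_two h hker ((e_inOpen h.hypq).mem h.hypq)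
      have h5 := tri_rp c (b + t₀ • e) (b + t₀ • e) e
      rw [hx0] at h5
      have h6 : 0 ≤ triL (rp c) (b + t₀ • e) (b + t₀ • e) e := by
        have := mul_nonneg hω.le (gg_nonneg c (b + t₀ • e))
        linarith
      have := mul_nonneg h0.le h6
      linarith
    have e1 := hev (t₀ + 1)
    have e2 := hev (t₀ - 1)
    have g1 : b + (t₀ + 1) • e = (b + t₀ • e) + e := by module
    have g2 : b + (t₀ - 1) • e = (b + t₀ • e) + (-e) := by module
    rw [g1, eval_add_cubic hPh, hP0] at e1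
    rw [g2, eval_add_cubic hPh, hP0, hneg] at e2
    simp only [map_neg, LinearMap.neg_apply, neg_neg] at e2
    rw [← hρ0] at e1 e2
    have h7 := hpos t₀
    nlinarith

theorem strict_pd (h : DPt p e z) (c : Co p e z m k) {δ : ℝ} (h0 : 0 < δ)
    (h1 : δ * eval e (rp c) < eval e p) : StrictDouble (p - C δ * rp c) e z := by
  have hyp := hyp_pd h c h0 h1
  have hPe := hyp.2.1
  have hPh : (p - C δ * rp c).IsHomogeneous 3 := homog_pd h.hom c δ
  have hqe := h.qe
  have hz0 : ∀ x, triL (p - C δ * rp c) z z x = 0 := fun x => by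
    rw [tri_pd_z h.hom, h.grad]
  have hPz : eval z (p - C δ * rp c) = 0 := by rw [tri_diag hPh, hz0]
  have hpart : polarDeriv z (p - C δ * rp c) = part p z 2 := by
    rw [polar_part hPh]
    apply MvPolynomial.funext
    intro x
    rw [part2 hPh, part2 h.hom, tri_pd_z h.hom]
  have hk : ∀ x, (hessMat (p - C δ * rp c) z).mulVec x ≠ 0 → ∃ y, triL p z x y ≠ 0 := by
    intro x hx
    by_contra hcon
    push Not at hcon
    apply hx
    rw [hessMat_pd h.hom, hessMat_ker h.hom]
    intro y
    rw [triL_swap23, hcon]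
  refine ⟨⟨?_, ?_, fun i => ?_⟩, ?_, ?_⟩
  · rw [mem_hypCone_iff hPh]
    intro t ht
    rw [eval_add_cubic hPh, hPz, eval_smul' hPh]
    simp only [map_smul, LinearMap.smul_apply, smul_eq_mul, hz0, tri_pd_z h.hom]
    have h2 : 0 < t * t * (3 * triL p z e e) := mul_pos (mul_pos ht ht) hqe
    have h3 : 0 < t ^ 3 * eval e (p - C δ * rp c) := mul_pos (pow_pos ht 3) hPe
    nlinarith
  · rw [mem_hypCone_iff hPh]
    push Not
    refine ⟨3 * triL p z e e / eval e (p - C δ * rp c), div_pos hqe hPe, ?_⟩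
    have h2 : eval (-z) (p - C δ * rp c) = 0 := by
      have h3 : -z = (-1 : ℝ) • z := by module
      rw [h3, eval_smul' hPh, hPz, mul_zero]
    rw [eval_add_cubic hPh, h2, eval_smul' hPh]
    simp only [map_smul, map_neg, LinearMap.neg_apply, LinearMap.smul_apply, smul_eq_mul, hz0,
      tri_pd_z h.hom]
    field_simp
    ring
  · have h2 := dd_tri hPh z (Pi.single i 1)
    rw [hz0, mul_zero, dd, Finset.sum_eq_single i] at h2
    · rwa [Pi.single_eq_same, one_mul] at h2
    · intro j _ hj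
      rw [Pi.single_eq_of_ne hj, zero_mul]
    · intro hi
      exact absurd (Finset.mem_univ i) hi
  · intro x hx hne h2
    rw [hpart] at hx h2
    rw [part2 h.hom] at h2
    have h3 := h.nonpos hx (by linarith)
    have h4 := mul_pos h0 (rp_pos c (x0_pos_of h c hx (hk x hne)))
    rw [eval_pd]
    linarith
  · intro u hu hc x hx hne
    rw [hpart] at hx
    rw [hessMat_pd h.hom, hessMat_ker h.hom] at hu
    have hu' : ∀ y, triL p z u y = 0 := fun y => by rw [triL_swap23, hu]
    have h4 : eval x (polarDeriv u (polarDeriv u (p - C δ * rp c))) =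
        6 * triL (p - C δ * rp c) u u x := by
      have h5 := eval_DL_DL' hPh x u u
      rw [DL_apply, DL_apply] at h5
      rw [polarDeriv_eq', polarDeriv_eq', h5, triL_swap12, triL_swap23]
    rw [h4, tri_pd h.hom]
    have h5 := tri_rp c u u x
    have hxu := x0_of_ker c hu'
    rw [hxu] at h5
    have h6 : 0 < gg c u u := by
      rw [gg, hxu]
      have h7 : 0 ≤ ∑ j, c.g j u * c.g j u := Finset.sum_nonneg fun j _ => mul_self_nonneg _
      rcases h7.lt_or_eq with h8 | h8
      · linarith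
      · exfalso
        have h9 := (Finset.sum_eq_zero_iff_of_nonneg
          (fun j _ => mul_self_nonneg (c.g j u))).1 h8.symm
        apply hc (c.s u)
        conv_lhs => rw [c.dec u]
        have h10 : ∀ j, c.g j u = 0 := fun j => mul_self_eq_zero.1 (h9 j (Finset.mem_univ j))
        simp only [hxu, f_of_ker c hu', h10, zero_smul, Finset.sum_const_zero, add_zero]
    have h7 := mul_pos (x0_pos_of h c hx (hk x hne)) h6
    have h8 := weak_two h hu' hx
    have h9 : 0 < triL (rp c) u u x := by linarith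
    have := mul_pos h0 h9
    linarith

/-- **Density**: a hyperbolic cubic with a double point is a limit of hyperbolic cubics for which
the same point is a strict double point, with the same Hessian. -/
theorem strict_dense (hp : IsHyperbolic p e) (hd : p.IsHomogeneous 3) (hz : IsDouble p e z) :
    ∃ r : MvPolynomial (Fin n) ℝ, ∃ δ₀ : ℝ, 0 < δ₀ ∧ ∀ δ : ℝ, 0 < δ → δ < δ₀ →
      IsHyperbolic (p - C δ * r) e ∧ (p - C δ * r).IsHomogeneous 3 ∧
      hessMat (p - C δ * r) z = hessMat p z ∧ StrictDouble (p - C δ * r) e z := by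
  have h : DPt p e z := DPt.of hp hd hz.1 hz.2.1 hz.2.2
  obtain ⟨m, k, ⟨c⟩⟩ := h.co
  have hr := rp_pos c c.x0e
  refine ⟨rp c, eval e p / (eval e (rp c) + 1), div_pos hp.2.1 (by linarith), ?_⟩
  intro δ h0 h1
  have h2 : δ * eval e (rp c) < eval e p := by
    rw [lt_div_iff₀ (by linarith)] at h1
    linarith
  exact ⟨hyp_pd h c h0 h2, homog_pd hd c δ, hessMat_pd hd c δ, strict_pd h c h0 h2⟩

end Vale.Agent.P256.St
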