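import Vale.Agent.P256.C5.Struct

/-! Diagonalisation of positive semidefinite forms and coordinates at a double point. -/

namespace Vale.Agent.P256

section Diag

variable {V : Type*} [AddCommGroup V] [Module ℝ V] [FiniteDimensional ℝ V]

theorem psd_diag_aux (N : ℕ) : ∀ (γ : V →ₗ[ℝ] V →ₗ[ℝ] ℝ), (∀ x y, γ x y = γ y x) →
    (∀ x, 0 ≤ γ x x) → Module.finrank ℝ V ≤ Module.finrank ℝ (LinearMap.ker γ) + N →
    ∃ (m : ℕ) (f : Fin m → V →ₗ[ℝ] ℝ) (w : Fin m → V),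
      (∀ i j, f i (w j) = if i = j then 1 else 0) ∧ ∀ x y, γ x y = ∑ i, f i x * f i y := by
  induction N with
  | zero =>
    intro γ hs hp hN
    have h1 : LinearMap.ker γ = ⊤ := by
      apply Submodule.eq_top_of_finrank_eq
      have := Submodule.finrank_le (LinearMap.ker γ)
      omega
    refine ⟨0, Fin.elim0, Fin.elim0, fun i => i.elim0, fun x y => ?_⟩
    have h2 : γ x = 0 := by
      have : x ∈ LinearMap.ker γ := by rw [h1]; trivial
      simpa using this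
    simp [h2]
  | succ N ih =>
    intro γ hs hp hN
    rcases gs_step γ hs hp with h0 | ⟨f, w, γ', hfw, hf, hγ, hs', hp', hw'⟩
    · refine ⟨0, Fin.elim0, Fin.elim0, fun i => i.elim0, fun x y => ?_⟩
      simp [h0]
    · have hker : LinearMap.ker γ < LinearMap.ker γ' := by
        refine lt_of_le_of_ne (fun x hx => ?_) fun heq => ?_
        · rw [LinearMap.mem_ker] at hx ⊢
          ext y
          have h1 := hγ x y
          have h2 : f x = 0 := by rw [hf, hx]; rfl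
          rw [hx, h2, zero_mul, zero_add] at h1
          simpa using h1.symm
        · have h1 : w ∈ LinearMap.ker γ' := by
            rw [LinearMap.mem_ker]
            ext y
            rw [hs', hw']
            rfl
          rw [← heq, LinearMap.mem_ker] at h1
          have h2 := hfw
          rw [hf, h1] at h2
          simp at h2
      have h3 := Submodule.finrank_lt_finrank_of_lt hker
      obtain ⟨m, g, v, hgv, hg⟩ := ih γ' hs' hp' (by omega)
      have hgw : ∀ i, g i w = 0 := by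
        have h4 := hg w w
        rw [hw'] at h4
        have h5 := (Finset.sum_eq_zero_iff_of_nonneg (fun i _ => mul_self_nonneg (g i w))).1 h4.symm
        intro i
        exact mul_self_eq_zero.1 (h5 i (Finset.mem_univ i))
      refine ⟨m + 1, Fin.cons f g, Fin.cons w (fun j => v j - f (v j) • w), ?_, fun x y => ?_⟩
      · intro i j
        refine Fin.cases ?_ (fun i => ?_) i <;> refine Fin.cases ?_ (fun j => ?_) j
        · simpa using hfw
        · simp [hfw, (Fin.succ_ne_zero j).symm]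
        · simp [hgw]
        · simp [hgv, hgw]
      · rw [hγ, hg, Fin.sum_univ_succ]
        simp

theorem psd_diag (γ : V →ₗ[ℝ] V →ₗ[ℝ] ℝ) (hs : ∀ x y, γ x y = γ y x) (hp : ∀ x, 0 ≤ γ x x) :
    ∃ (m : ℕ) (f : Fin m → V →ₗ[ℝ] ℝ) (w : Fin m → V),
      (∀ i j, f i (w j) = if i = j then 1 else 0) ∧ ∀ x y, γ x y = ∑ i, f i x * f i y :=
  psd_diag_aux (Module.finrank ℝ V) γ hs hp (by omega)

end Diag

variable {n : ℕ} {p : MvPolynomial (Fin n) ℝ} {e z : Fin n → ℝ}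

/-- coordinates at a double point -/
structure Co (p : MvPolynomial (Fin n) ℝ) (e z : Fin n → ℝ) (m k : ℕ) where
  s : (Fin n → ℝ) →ₗ[ℝ] ℝ
  x0 : (Fin n → ℝ) →ₗ[ℝ] ℝ
  f : Fin m → (Fin n → ℝ) →ₗ[ℝ] ℝ
  g : Fin k → (Fin n → ℝ) →ₗ[ℝ] ℝ
  e0 : Fin n → ℝ
  w : Fin m → Fin n → ℝ
  u : Fin k → Fin n → ℝ
  dec : ∀ x, x = s x • z + x0 x • e0 + ∑ i, f i x • w i + ∑ j, g j x • u j
  sz : s z = 1
  se0 : s e0 = 0
  sw : ∀ i, s (w i) = 0
  su : ∀ j, s (u j) = 0
  x0z : x0 z = 0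
  x0e0 : x0 e0 = 1
  x0w : ∀ i, x0 (w i) = 0
  x0u : ∀ j, x0 (u j) = 0
  fz : ∀ i, f i z = 0
  fe0 : ∀ i, f i e0 = 0
  fw : ∀ i j, f i (w j) = if i = j then 1 else 0
  fu : ∀ i j, f i (u j) = 0
  gz : ∀ i, g i z = 0
  ge0 : ∀ i, g i e0 = 0
  gw : ∀ i j, g i (w j) = 0
  gu : ∀ i j, g i (u j) = if i = j then 1 else 0
  q : ∀ x y, 3 * triL p z x y = x0 x * x0 y - ∑ i, f i x * f i y
  x0e : 0 < x0 e
  fe : ∀ i, f i e = 0

theorem DPt.co (h : DPt p e z) : ∃ m k : ℕ, Nonempty (Co p e z m k) := by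
  have hqe := h.qe
  set Q := 3 * triL p z e e with hQ
  set r := Real.sqrt Q with hr
  have hr0 : 0 < r := Real.sqrt_pos.2 hqe
  have hrr : r * r = Q := Real.mul_self_sqrt hqe.le
  let β : (Fin n → ℝ) →ₗ[ℝ] (Fin n → ℝ) →ₗ[ℝ] ℝ := (3 : ℝ) • triL p z
  have hβ : ∀ x y, β x y = 3 * triL p z x y := fun x y => rfl
  have hβs : ∀ x y, β x y = β y x := fun x y => by rw [hβ, hβ, triL_swap23]
  let x0 : (Fin n → ℝ) →ₗ[ℝ] ℝ := r⁻¹ • β.flip e
  have hx0 : ∀ x, x0 x = r⁻¹ * β x e := fun x => rfl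
  have hx0e : x0 e = r := by
    rw [hx0, hβ, ← hQ, ← hrr]
    field_simp
  let γ : (Fin n → ℝ) →ₗ[ℝ] (Fin n → ℝ) →ₗ[ℝ] ℝ := x0.smulRight x0 - β
  have hγ : ∀ x y, γ x y = x0 x * x0 y - β x y := fun x y => rfl
  have hγs : ∀ x y, γ x y = γ y x := fun x y => by rw [hγ, hγ, hβs x y]; ring
  have hγp : ∀ x, 0 ≤ γ x x := by
    intro x
    have h1 := h.rcs x
    rw [hγ, hx0, hβ, hβ]
    have h2 : r⁻¹ * (3 * triL p z x e) * (r⁻¹ * (3 * triL p z x e)) =
        (3 * triL p z x e) ^ 2 / Q := by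
      rw [← hrr]
      field_simp
    rw [h2, sub_nonneg, le_div_iff₀ hqe]
    exact h1
  have hγe : ∀ y, γ e y = 0 := by
    intro y
    rw [hγ, hx0e, hx0, hβs y e]
    field_simp
    ring
  have hz0 : ∀ y, β z y = 0 := fun y => by rw [hβ, h.grad, mul_zero]
  have hx0z : x0 z = 0 := by rw [hx0, hz0, mul_zero]
  have hγz : ∀ y, γ z y = 0 := fun y => by rw [hγ, hx0z, hz0]; ring
  set e0 : Fin n → ℝ := r⁻¹ • e with he0
  have hx0e0 : x0 e0 = 1 := by
    rw [he0, map_smul, hx0e, smul_eq_mul, inv_mul_cancel₀ hr0.ne']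
  have hγe0 : ∀ y, γ e0 y = 0 := fun y => by
    rw [he0, map_smul, LinearMap.smul_apply, hγe, smul_zero]
  have hzne : z ≠ 0 := by
    rintro rfl
    exact h.neg (by rw [neg_zero]; exact K_zero h.hyp)
  clear_value e0
  obtain ⟨m, f, w', hfw', hf⟩ := psd_diag γ hγs hγp
  have hf_of : ∀ v, (∀ y, γ v y = 0) → ∀ i, f i v = 0 := by
    intro v hv
    have h4 := hf v v
    rw [hv] at h4
    have h5 := (Finset.sum_eq_zero_iff_of_nonneg (fun i _ => mul_self_nonneg (f i v))).1 h4.symm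
    intro i
    exact mul_self_eq_zero.1 (h5 i (Finset.mem_univ i))
  have hfe0 := hf_of e0 hγe0
  have hfe := hf_of e hγe
  have hfz := hf_of z hγz
  let w : Fin m → Fin n → ℝ := fun i => w' i - x0 (w' i) • e0
  have hfw : ∀ i j, f i (w j) = if i = j then 1 else 0 := by
    intro i j
    simp only [w, map_sub, map_smul, hfe0, hfw', smul_zero, sub_zero]
  have hx0w : ∀ i, x0 (w i) = 0 := by
    intro i
    simp only [w, map_sub, map_smul, hx0e0, smul_eq_mul, mul_one, sub_self]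
  -- a functional dual to `z`
  obtain ⟨i0, hi0⟩ : ∃ i, z i ≠ 0 := by
    by_contra hcon
    push Not at hcon
    exact hzne (funext hcon)
  let s0 : (Fin n → ℝ) →ₗ[ℝ] ℝ := (z i0)⁻¹ • LinearMap.proj i0
  have hs0z : s0 z = 1 := by
    simp only [s0, LinearMap.smul_apply, LinearMap.proj_apply, smul_eq_mul]
    exact inv_mul_cancel₀ hi0
  let π : (Fin n → ℝ) →ₗ[ℝ] (Fin n → ℝ) :=
    LinearMap.id - x0.smulRight e0 - ∑ i, (f i).smulRight (w i)
  have hπ : ∀ x, π x = x - x0 x • e0 - ∑ i, f i x • w i := fun x => by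
    simp [π, LinearMap.sub_apply, LinearMap.sum_apply]
  let s : (Fin n → ℝ) →ₗ[ℝ] ℝ := s0 ∘ₗ π
  let ρ : (Fin n → ℝ) →ₗ[ℝ] (Fin n → ℝ) := π - s.smulRight z
  have hρ : ∀ x, ρ x = π x - s x • z := fun x => rfl
  have hπz : π z = z := by rw [hπ, hx0z]; simp [hfz]
  have hπe0 : π e0 = 0 := by rw [hπ, hx0e0]; simp [hfe0]
  have hπw : ∀ i, π (w i) = 0 := by
    intro i
    rw [hπ, hx0w]
    simp [hfw]
  have hs : ∀ x, s x = s0 (π x) := fun x => rfl
  have hx0π : ∀ x, x0 (π x) = 0 := by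
    intro x
    rw [hπ]
    simp [map_sub, map_sum, hx0e0, hx0w]
  have hfπ : ∀ i x, f i (π x) = 0 := by
    intro i x
    rw [hπ]
    simp [map_sub, map_sum, hfe0, hfw]
  let U : Submodule ℝ (Fin n → ℝ) := LinearMap.range ρ
  have hρU : ∀ x, ρ x ∈ U := fun x => ⟨x, rfl⟩
  have hππ : ∀ x, π (π x) = π x := by
    intro x
    rw [hπ (π x), hx0π]
    simp [hfπ]
  have hsz : s z = 1 := by rw [hs, hπz, hs0z]
  have hsπ : ∀ x, s (π x) = s x := fun x => by rw [hs, hππ, hs]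
  have hρρ : ∀ x, ρ (ρ x) = ρ x := by
    intro x
    rw [hρ (ρ x), hρ x]
    simp only [map_sub, map_smul, hππ, hπz, hsπ, hsz]
    simp
  let b := Module.finBasis ℝ U
  set k := Module.finrank ℝ U
  let ρ' : (Fin n → ℝ) →ₗ[ℝ] U := ρ.codRestrict U hρU
  let g : Fin k → (Fin n → ℝ) →ₗ[ℝ] ℝ := fun j => (b.coord j) ∘ₗ ρ'
  let u : Fin k → Fin n → ℝ := fun j => (b j : Fin n → ℝ)
  have hρu : ∀ j, ρ (u j) = u j := by
    intro j
    obtain ⟨y, hy⟩ := (b j).2
    show ρ (b j : Fin n → ℝ) = (b j : Fin n → ℝ)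
    rw [← hy, hρρ]
  have hx0ρ : ∀ x, x0 (ρ x) = 0 := fun x => by rw [hρ, map_sub, map_smul, hx0π, hx0z]; simp
  have hfρ : ∀ i x, f i (ρ x) = 0 := fun i x => by rw [hρ, map_sub, map_smul, hfπ, hfz]; simp
  have hsρ : ∀ x, s (ρ x) = 0 := fun x => by
    rw [hρ, map_sub, map_smul, hsπ, hsz]
    simp
  have hg : ∀ x, ∑ j, g j x • u j = ρ x := by
    intro x
    have h1 := b.sum_repr (ρ' x)
    have h2 := congrArg (Subtype.val) h1
    simp only [Submodule.coe_sum, Submodule.coe_smul] at h2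
    exact h2
  have hg0 : ∀ x, ρ x = 0 → ∀ j, g j x = 0 := by
    intro x hx j
    have h1 : ρ' x = 0 := Subtype.ext hx
    show b.coord j (ρ' x) = 0
    rw [h1, map_zero]
  refine ⟨m, k, ⟨⟨s, x0, f, g, e0, w, u, ?_, hsz, by rw [hs, hπe0, map_zero],
    fun i => by rw [hs, hπw, map_zero], fun j => by rw [← hρu j, hsρ], hx0z, hx0e0, hx0w,
    fun j => by rw [← hρu j, hx0ρ], hfz, hfe0, hfw, fun i j => by rw [← hρu j, hfρ],
    hg0 z (by rw [hρ, hπz, hsz]; simp), hg0 e0 (by rw [hρ, hs, hπe0]; simp),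
    fun i j => hg0 (w j) (by rw [hρ, hs, hπw]; simp) i, ?_, ?_, by rw [hx0e]; exact hr0,
    hfe⟩⟩⟩
  · intro x
    rw [hg, hρ, hπ]
    abel
  · intro i j
    have h1 : ρ' (u j) = b j := Subtype.ext (hρu j)
    show b.coord i (ρ' (u j)) = _
    rw [h1, Module.Basis.coord_apply, Module.Basis.repr_self, Finsupp.single_apply]
    by_cases hij : i = j
    · rw [if_pos hij, if_pos hij.symm]
    · rw [if_neg hij, if_neg (Ne.symm hij)]
  · intro x y
    rw [← hf, hγ, hβ]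
    ring

end Vale.Agent.P256
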