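import Vale.Agent.P256.St.Pos

/-! The slack kernel as a quadratic form in the generators `π = ρ* w - ρ w*`,
`E = √q λ (η - η*)`. -/

namespace Vale.Agent.P256.St

open MvPolynomial Filter Topology

variable {m k : ℕ}

/-- parameter space -/
abbrev PP (m k : ℕ) := (Fin (k + 1) → ℝ) × (Fin m → ℝ)

theorem CK.mono' {L X : Type*} [TopologicalSpace L] [TopologicalSpace X] {D D' : Set L}
    {E E' : Set X} {h : L → X → ℝ} (H : CK D E h) (hD : D' ⊆ D) (hE : E' ⊆ E) :
    CK D' E' h := by
  obtain ⟨n, a, f, ha, hf, hh⟩ := H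
  exact ⟨n, a, f, fun k l hl => ha k l (hD hl), fun k x hx => hf k x (hE hx), hh⟩

theorem CK.lc {L X : Type*} [TopologicalSpace L] [TopologicalSpace X] {D : Set L}
    {E : Set X} {a : L → ℝ} (ha : Continuous a) : CK D E (fun l (_ : X) => a l) :=
  CK.left (fun _ _ => ha.continuousAt)

theorem CK.rc {L X : Type*} [TopologicalSpace L] [TopologicalSpace X] {D : Set L}
    {E : Set X} {f : X → ℝ} (hf : Continuous f) : CK D E (fun (_ : L) x => f x) :=
  CK.right (fun _ _ => hf.continuousAt)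

theorem cont_qh : Continuous (fun l : PP m k => qh l.2) := by
  unfold qh
  exact continuous_const.sub (continuous_finsetSum _ fun i _ =>
    ((continuous_apply i).comp continuous_snd).pow 2)

theorem cont_c1 (a : Fin (k + 1)) : Continuous (fun l : PP m k => l.1 a) :=
  (continuous_apply a).comp continuous_fst

theorem cont_c2 (i : Fin m) : Continuous (fun l : PP m k => l.2 i) :=
  (continuous_apply i).comp continuous_snd

theorem cont_ro : Continuous (fun l : PP m k => ro l) := (cont_c1 0).mul cont_qh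

theorem cont_sq : Continuous (fun l : PP m k => Real.sqrt (qh l.2)) :=
  Real.continuous_sqrt.comp cont_qh

theorem cont_ev (p : MvPolynomial (Fin m) ℝ) : Continuous (fun l : PP m k => eval l.2 p) :=
  (MvPolynomial.continuous_eval p).comp continuous_snd

/-- generators -/
noncomputable def gv : Fin (k + 1) ⊕ Fin m → PP m k → PP m k → ℝ
  | .inl a => fun l x => ro l * x.1 a - ro x * l.1 a
  | .inr i => fun l x => Real.sqrt (qh x.2) * x.1 0 * (x.2 i - l.2 i)

theorem gv_FR (i : Fin (k + 1) ⊕ Fin m) : FR (gv i : PP m k → PP m k → ℝ) := by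
  rcases i with a | i
  · exact (FR.mulfun (fun l : PP m k => ro l) (fun x : PP m k => x.1 a)).sub
      ((FR.mulfun (fun l : PP m k => l.1 a) (fun x : PP m k => ro x)).congr
        (fun l x => mul_comm _ _))
  · refine (((FR.right (L := PP m k) (fun x : PP m k => Real.sqrt (qh x.2) * x.1 0)).mul
      ((FR.right (L := PP m k) (fun x : PP m k => x.2 i)).sub
        (FR.left (X := PP m k) (fun l : PP m k => l.2 i))))).congr (fun l x => rfl)

namespace NF

variable (F : NF m k)

theorem cont_nn (w w' : PP m k → (Fin (k + 1) → ℝ)) (hw : Continuous w) (hw' : Continuous w') :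
    Continuous (fun l : PP m k => F.nn l.2 (w l) (w' l)) := by
  unfold nn
  refine continuous_finsetSum _ fun a _ => continuous_finsetSum _ fun b _ => ?_
  exact ((cont_ev _).mul ((continuous_apply a).comp hw)).mul ((continuous_apply b).comp hw')

/-- the kernel is finite rank with continuous coefficients -/
theorem kern_CK : CK (Set.univ : Set (PP m k)) (Set.univ : Set (PP m k)) F.kern := by
  have c1 : CK (Set.univ : Set (PP m k)) (Set.univ : Set (PP m k))
      (fun _ x => F.nn x.2 x.1 x.1) := CK.rc (F.cont_nn _ _ continuous_fst continuous_fst)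
  have c2 : CK (Set.univ : Set (PP m k)) (Set.univ : Set (PP m k))
      (fun l _ => F.nn l.2 l.1 l.1) := CK.lc (F.cont_nn _ _ continuous_fst continuous_fst)
  have c3 : CK (Set.univ : Set (PP m k)) (Set.univ : Set (PP m k))
      (fun l _ => ro l) := CK.lc cont_ro
  have c4 : CK (Set.univ : Set (PP m k)) (Set.univ : Set (PP m k))
      (fun _ x => ro x) := CK.rc cont_ro
  have c5 : CK (Set.univ : Set (PP m k)) (Set.univ : Set (PP m k))
      (fun l x => F.nn l.2 l.1 x.1) := by
    unfold nn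
    refine CK.sum _ fun a _ => CK.sum _ fun b _ => ?_
    exact (CK.lc ((cont_ev _).mul (cont_c1 a))).mul (CK.rc (cont_c1 b))
  have c6 : CK (Set.univ : Set (PP m k)) (Set.univ : Set (PP m k))
      (fun _ x => qh x.2 * (x.1 0) ^ 2) := CK.rc (cont_qh.mul ((cont_c1 0).pow 2))
  have c7 : ∀ i, CK (Set.univ : Set (PP m k)) (Set.univ : Set (PP m k))
      (fun l x => x.2 i - l.2 i) := fun i => (CK.rc (cont_c2 i)).sub (CK.lc (cont_c2 i))
  have c8 : CK (Set.univ : Set (PP m k)) (Set.univ : Set (PP m k))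
      (fun l _ => qh l.2) := CK.lc cont_qh
  have c9 : CK (Set.univ : Set (PP m k)) (Set.univ : Set (PP m k))
      (fun l x => F.dn l.2 (fun i => x.2 i - l.2 i) l.1 l.1) := by
    unfold dn
    refine CK.sum _ fun i _ => (c7 i).mul (CK.lc ?_)
    refine continuous_finsetSum _ fun a _ => continuous_finsetSum _ fun b _ => ?_
    exact ((cont_ev _).mul (cont_c1 a)).mul (cont_c1 b)
  have c10 : CK (Set.univ : Set (PP m k)) (Set.univ : Set (PP m k))
      (fun l x => ∑ i, (x.2 i - l.2 i) ^ 2) :=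
    (CK.sum Finset.univ fun i _ => (c7 i).mul (c7 i)).congr
      (fun l x => Finset.sum_congr rfl fun i _ => by ring)
  refine (((c1.mul (c3.mul c3)).add (c2.mul (c4.mul c4))).sub
    (((c4.mul c3).mul c5).smul 2) |>.add (c6.mul ((c2.mul c10).sub (c8.mul c9)))).congr
    (fun l x => ?_)
  unfold kern
  ring

/-- near a pair where the kernel is positive it is SOS -/
theorem near_pos {l0 x0 : PP m k} (h : 0 < F.kern l0 x0) :
    ∃ U ∈ 𝓝 l0, ∃ V ∈ 𝓝 x0, SosOn (U ∩ DD m k) (V ∩ DD m k) F.kern := by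
  obtain ⟨U, hU, V, hV, hs⟩ := ((F.kern_CK).germ (Set.mem_univ l0) (Set.mem_univ x0)).pos h
  exact ⟨U, hU, V, hV, hs.mono Set.inter_subset_left Set.inter_subset_left⟩

/-- the limit form in the generators at a base pair with `η = η*` -/
noncomputable def cf (κ : ℝ) (η : Fin m → ℝ) (w' : Fin (k + 1) → ℝ)
    (y : Fin (k + 1) ⊕ Fin m → ℝ) : ℝ :=
  F.nn η (fun a => y (.inl a)) (fun a => y (.inl a)) +
    2 * Real.sqrt (qh η) * F.dn η (fun i => y (.inr i)) (fun a => y (.inl a)) w' +
    F.nn η w' w' * ∑ i, y (.inr i) ^ 2 -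
    2 * (∑ i, η i * y (.inr i)) * F.dn η (fun i => y (.inr i)) w' w' +
    qh η * F.d2 η (fun i => y (.inr i)) w' w' +
    κ * (Real.sqrt (qh η) * y (.inl 0) - 2 * w' 0 * ∑ i, η i * y (.inr i)) ^ 2

theorem quadK_kern (κ : ℝ) (l0 x0 : PP m k) (h0 : l0.2 = x0.2) :
    QuadK (DD m k) (DD m k) {l0} {x0} gv F.kern (fun _ _ y => F.cf κ x0.2 l0.1 y) := by
  classical
  have hR := fun a b => poly_tay (Set.univ : Set (Fin m → ℝ)) (F.N a b)
  choose R hR1 hR2 hR3 using hR
  have hRc : ∀ a b i j, CK (DD m k) (DD m k) (fun l x => R a b i j l.2 x.2) := fun a b i j =>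
    CK.mono' ((hR1 a b i j).comp (φ := fun l : PP m k => l.2) (ψ := fun x : PP m k => x.2)
      continuous_snd continuous_snd) (Set.subset_univ _) (Set.subset_univ _)
  have hdc : ∀ i, CK (DD m k) (DD m k) (fun l x => x.2 i - l.2 i) := fun i =>
    (CK.rc (cont_c2 i)).sub (CK.lc (cont_c2 i))
  -- first order coefficients
  set P : Fin (k + 1) → Fin (k + 1) → Fin m → PP m k → PP m k → ℝ := fun a b i l x =>
    eval l.2 (pderiv i (F.N a b)) + ∑ j, R a b i j l.2 x.2 * (x.2 j - l.2 j) with hP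
  have hPc : ∀ a b i, CK (DD m k) (DD m k) (P a b i) := fun a b i =>
    (CK.lc (cont_ev _)).add (CK.sum _ fun j _ => (hRc a b i j).mul (hdc j))
  have hPe : ∀ a b (l x : PP m k), ∑ i, P a b i l x * (x.2 i - l.2 i) =
      eval x.2 (F.N a b) - eval l.2 (F.N a b) := by
    intro a b l x
    rw [hR2 a b l.2 x.2]
    simp only [hP, add_mul, Finset.sum_add_distrib, Finset.sum_mul]
    have : ∀ i, ∑ j, R a b i j l.2 x.2 * (x.2 j - l.2 j) * (x.2 i - l.2 i) =
        ∑ j, R a b i j l.2 x.2 * (x.2 i - l.2 i) * (x.2 j - l.2 j) := fun i =>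
      Finset.sum_congr rfl fun j _ => by ring
    rw [Finset.sum_congr rfl (fun i _ => this i)]
    ring
  have hRe : ∀ a b (l x : PP m k), ∑ i, ∑ j, R a b i j l.2 x.2 * (x.2 i - l.2 i) *
      (x.2 j - l.2 j) = eval x.2 (F.N a b) - eval l.2 (F.N a b) -
        ∑ i, eval l.2 (pderiv i (F.N a b)) * (x.2 i - l.2 i) := by
    intro a b l x
    rw [hR2 a b l.2 x.2]
    ring
  -- the basic forms
  have lp : ∀ a : Fin (k + 1), LinK (DD m k) (DD m k) {l0} {x0}
      (gv : Fin (k + 1) ⊕ Fin m → PP m k → PP m k → ℝ) (gv (.inl a))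
      (fun _ _ y => y (.inl a)) := fun a => LinK.basic (Sum.inl a)
  have lE : ∀ i : Fin m, LinK (DD m k) (DD m k) {l0} {x0}
      (gv : Fin (k + 1) ⊕ Fin m → PP m k → PP m k → ℝ) (gv (.inr i))
      (fun _ _ y => y (.inr i)) := fun i => LinK.basic (Sum.inr i)
  have q1 := QuadK.sum Finset.univ (fun a _ => QuadK.sum Finset.univ (fun b _ =>
    ((lp a).mul (lp b)).smul (m := fun _ x => eval x.2 (F.N a b)) (CK.rc (cont_ev _))))
  have q2 := QuadK.sum Finset.univ (fun a _ => QuadK.sum Finset.univ (fun b _ =>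
    QuadK.sum Finset.univ (fun i _ => ((lE i).mul (lp a)).smul
      (m := fun l x => 2 * (Real.sqrt (qh x.2) * (l.1 b * P a b i l x)))
      (((CK.rc cont_sq).mul ((CK.lc (cont_c1 b)).mul (hPc a b i))).smul 2))))
  have q3 := QuadK.sum Finset.univ (fun i _ => ((lE i).mul (lE i)).smul
    (m := fun l _ => F.nn l.2 l.1 l.1)
      (CK.lc (F.cont_nn _ _ continuous_fst continuous_fst)))
  have q4 := QuadK.sum Finset.univ (fun i _ => QuadK.sum Finset.univ (fun j _ =>
    ((lE i).mul (lE j)).smul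
      (m := fun l x => -((x.2 i + l.2 i) * ∑ a, ∑ b, eval l.2 (pderiv j (F.N a b)) * l.1 a * l.1 b))
      ((((CK.rc (cont_c2 i)).add (CK.lc (cont_c2 i))).mul (CK.lc
        (continuous_finsetSum _ fun a _ => continuous_finsetSum _ fun b _ =>
          ((cont_ev _).mul (cont_c1 a)).mul (cont_c1 b)))).neg)))
  have q5 := QuadK.sum Finset.univ (fun a _ => QuadK.sum Finset.univ (fun b _ =>
    QuadK.sum Finset.univ (fun i _ => QuadK.sum Finset.univ (fun j _ =>
      ((lE i).mul (lE j)).smul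
        (m := fun l x => qh x.2 * (l.1 a * l.1 b * R a b i j l.2 x.2))
        ((CK.rc cont_qh).mul ((CK.lc ((cont_c1 a).mul (cont_c1 b))).mul (hRc a b i j)))))))
  have l6 := ((lp 0).smul (m := fun _ x => Real.sqrt (qh x.2)) (CK.rc cont_sq)).add
    (LinK.sum Finset.univ (fun i _ => (lE i).smul
      (m := fun l x => -(l.1 0 * (x.2 i + l.2 i)))
      (((CK.lc (cont_c1 0)).mul ((CK.rc (cont_c2 i)).add (CK.lc (cont_c2 i)))).neg)))
  have q6 := l6.sq.smul (m := fun _ _ => κ) (CK.const κ)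
  have hall := ((((q1.add q2).add q3).add q4).add q5).add q6
  refine hall.congr ?_ ?_
  · intro l _ x hx
    have hq : 0 ≤ qh x.2 := by
      have := hx.2.2
      unfold qh
      linarith
    have hsq : Real.sqrt (qh x.2) ^ 2 = qh x.2 := Real.sq_sqrt hq
    set s := Real.sqrt (qh x.2) with hs
    have hE : ∀ i : Fin m, (gv (.inr i) : PP m k → PP m k → ℝ) l x =
        s * x.1 0 * (x.2 i - l.2 i) := fun i => rfl
    have hp : ∀ a : Fin (k + 1), (gv (.inl a) : PP m k → PP m k → ℝ) l x =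
        ro l * x.1 a - ro x * l.1 a := fun a => rfl
    set π : Fin (k + 1) → ℝ := ro l • x.1 + (-ro x) • l.1 with hπ
    have hπa : ∀ a, (gv (.inl a) : PP m k → PP m k → ℝ) l x = π a := by
      intro a
      rw [hp, hπ]
      simp only [Pi.add_apply, Pi.smul_apply, smul_eq_mul]
      ring
    have hro : ro x = x.1 0 * qh x.2 := rfl
    have t1 : ∑ a, ∑ b, eval x.2 (F.N a b) * (gv (.inl a) l x * gv (.inl b) l x) =
        F.nn x.2 π π := by
      unfold nn
      refine Finset.sum_congr rfl fun a _ => Finset.sum_congr rfl fun b _ => ?_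
      rw [hπa, hπa]
      ring
    have t2 : ∑ a, ∑ b, ∑ i, 2 * (s * (l.1 b * P a b i l x)) *
        (gv (.inr i) l x * gv (.inl a) l x) =
        2 * ro x * (F.nn x.2 π l.1 - F.nn l.2 π l.1) := by
      unfold nn
      rw [← Finset.sum_sub_distrib, Finset.mul_sum]
      refine Finset.sum_congr rfl fun a _ => ?_
      rw [← Finset.sum_sub_distrib, Finset.mul_sum]
      refine Finset.sum_congr rfl fun b _ => ?_
      have e1 : ∀ i, 2 * (s * (l.1 b * P a b i l x)) * (gv (.inr i) l x * gv (.inl a) l x) =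
          (2 * s ^ 2 * x.1 0 * l.1 b * π a) * (P a b i l x * (x.2 i - l.2 i)) := by
        intro i
        rw [hE, hπa]
        ring
      rw [Finset.sum_congr rfl (fun i _ => e1 i), ← Finset.mul_sum, hPe, hsq, hro]
      ring
    have t3 : ∑ i, F.nn l.2 l.1 l.1 * (gv (.inr i) l x * gv (.inr i) l x) =
        F.nn l.2 l.1 l.1 * (qh x.2 * (x.1 0) ^ 2 * ∑ i, (x.2 i - l.2 i) ^ 2) := by
      rw [Finset.mul_sum, Finset.mul_sum]
      refine Finset.sum_congr rfl fun i _ => ?_
      rw [hE, ← hsq]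
      ring
    have t4 : ∑ i, ∑ j, -((x.2 i + l.2 i) *
        ∑ a, ∑ b, eval l.2 (pderiv j (F.N a b)) * l.1 a * l.1 b) *
        (gv (.inr i) l x * gv (.inr j) l x) =
        qh x.2 * (x.1 0) ^ 2 * (qh x.2 - qh l.2) *
          F.dn l.2 (fun i => x.2 i - l.2 i) l.1 l.1 := by
      have e1 : qh x.2 - qh l.2 = ∑ i, -((x.2 i + l.2 i) * (x.2 i - l.2 i)) := by
        unfold qh
        rw [Finset.sum_neg_distrib]
        have : ∀ i, (x.2 i + l.2 i) * (x.2 i - l.2 i) = x.2 i ^ 2 - l.2 i ^ 2 := fun i => by ring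
        rw [Finset.sum_congr rfl (fun i _ => this i), Finset.sum_sub_distrib]
        ring
      rw [e1]
      unfold dn
      have e2 : qh x.2 * (x.1 0) ^ 2 * (∑ i, -((x.2 i + l.2 i) * (x.2 i - l.2 i))) *
          (∑ i, (x.2 i - l.2 i) * ∑ a, ∑ b, eval l.2 (pderiv i (F.N a b)) * l.1 a * l.1 b) =
          ∑ i, ∑ j, qh x.2 * (x.1 0) ^ 2 * ((-((x.2 i + l.2 i) * (x.2 i - l.2 i))) *
            ((x.2 j - l.2 j) * ∑ a, ∑ b, eval l.2 (pderiv j (F.N a b)) * l.1 a * l.1 b)) := by
        rw [mul_assoc, Finset.sum_mul_sum, Finset.mul_sum]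
        refine Finset.sum_congr rfl fun i _ => ?_
        rw [Finset.mul_sum]
      rw [e2]
      refine Finset.sum_congr rfl fun i _ => Finset.sum_congr rfl fun j _ => ?_
      rw [hE, hE, ← hsq]
      ring
    have t5 : ∑ a, ∑ b, ∑ i, ∑ j, qh x.2 * (l.1 a * l.1 b * R a b i j l.2 x.2) *
        (gv (.inr i) l x * gv (.inr j) l x) =
        ro x ^ 2 * (F.nn x.2 l.1 l.1 - F.nn l.2 l.1 l.1 -
          F.dn l.2 (fun i => x.2 i - l.2 i) l.1 l.1) := by
      rw [dn_eq]
      unfold nn dd
      rw [← Finset.sum_sub_distrib, ← Finset.sum_sub_distrib, Finset.mul_sum]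
      refine Finset.sum_congr rfl fun a _ => ?_
      rw [← Finset.sum_sub_distrib, ← Finset.sum_sub_distrib, Finset.mul_sum]
      refine Finset.sum_congr rfl fun b _ => ?_
      have e1 : ∀ i j, qh x.2 * (l.1 a * l.1 b * R a b i j l.2 x.2) *
          (gv (.inr i) l x * gv (.inr j) l x) =
          (qh x.2 * s ^ 2 * (x.1 0) ^ 2 * l.1 a * l.1 b) *
            (R a b i j l.2 x.2 * (x.2 i - l.2 i) * (x.2 j - l.2 j)) := by
        intro i j
        rw [hE, hE]
        ring
      simp only [e1]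
      rw [Finset.sum_congr rfl (fun i _ => (Finset.mul_sum _ _ _).symm), ← Finset.mul_sum, hRe,
        hsq, hro]
      have e3 : ∑ i, (x.2 i - l.2 i) * eval l.2 (pderiv i (F.N a b)) =
          ∑ i, eval l.2 (pderiv i (F.N a b)) * (x.2 i - l.2 i) :=
        Finset.sum_congr rfl fun i _ => mul_comm _ _
      rw [e3]
      ring
    have t6 : s * gv (.inl 0) l x + ∑ i, -(l.1 0 * (x.2 i + l.2 i)) * gv (.inr i) l x = 0 := by
      have e1 : ∀ i, -(l.1 0 * (x.2 i + l.2 i)) * gv (.inr i) l x =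
          (-(l.1 0 * s * x.1 0)) * (x.2 i ^ 2 - l.2 i ^ 2) := by
        intro i
        rw [hE]
        ring
      rw [Finset.sum_congr rfl (fun i _ => e1 i), ← Finset.mul_sum, Finset.sum_sub_distrib, hp]
      unfold ro qh
      ring
    rw [t1, t2, t3, t4, t5, t6]
    have n1 : F.nn x.2 π π = ro l ^ 2 * F.nn x.2 x.1 x.1 - 2 * ro l * ro x * F.nn x.2 x.1 l.1 +
        ro x ^ 2 * F.nn x.2 l.1 l.1 := by
      rw [hπ, nn_add_left, nn_add_right, nn_add_right]
      simp only [nn_smul_left, nn_smul_right]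
      rw [F.nn_comm x.2 l.1 x.1]
      ring
    have n2 : ∀ η, F.nn η π l.1 = ro l * F.nn η x.1 l.1 - ro x * F.nn η l.1 l.1 := by
      intro η
      rw [hπ, nn_add_left]
      simp only [nn_smul_left]
      ring
    rw [n1, n2, n2, F.nn_comm l.2 x.1 l.1]
    unfold kern
    rw [hro]
    ring
  · intro l hl x hx y
    rw [Set.mem_singleton_iff] at hl hx
    subst hl hx
    have hP0 : ∀ a b i, P a b i l x = eval x.2 (pderiv i (F.N a b)) := by
      intro a b i
      simp only [hP, h0, sub_self, mul_zero, Finset.sum_const_zero, add_zero]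
    simp only [hP0, h0, hR3]
    unfold cf
    set s := Real.sqrt (qh x.2) with hs
    have t1 : ∑ a, ∑ b, eval x.2 (F.N a b) * (y (.inl a) * y (.inl b)) =
        F.nn x.2 (fun a => y (.inl a)) (fun a => y (.inl a)) := by
      unfold nn
      refine Finset.sum_congr rfl fun a _ => Finset.sum_congr rfl fun b _ => ?_
      ring
    have t2 : ∑ a, ∑ b, ∑ i, 2 * (s * (l.1 b * eval x.2 (pderiv i (F.N a b)))) *
        (y (.inr i) * y (.inl a)) =
        2 * s * F.dn x.2 (fun i => y (.inr i)) (fun a => y (.inl a)) l.1 := by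
      rw [dn_eq]
      unfold dd
      simp only [Finset.mul_sum, Finset.sum_mul]
      refine Finset.sum_congr rfl fun a _ => Finset.sum_congr rfl fun b _ =>
        Finset.sum_congr rfl fun i _ => ?_
      ring
    have t3 : ∑ i, F.nn x.2 l.1 l.1 * (y (.inr i) * y (.inr i)) =
        F.nn x.2 l.1 l.1 * ∑ i, y (.inr i) ^ 2 := by
      rw [Finset.mul_sum]
      refine Finset.sum_congr rfl fun i _ => ?_
      ring
    have t4 : ∑ i, ∑ j, -((x.2 i + x.2 i) *
        ∑ a, ∑ b, eval x.2 (pderiv j (F.N a b)) * l.1 a * l.1 b) * (y (.inr i) * y (.inr j)) =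
        - (2 * (∑ i, x.2 i * y (.inr i)) * F.dn x.2 (fun i => y (.inr i)) l.1 l.1) := by
      unfold dn
      rw [mul_assoc, Finset.sum_mul_sum, Finset.mul_sum, ← Finset.sum_neg_distrib]
      refine Finset.sum_congr rfl fun i _ => ?_
      rw [Finset.mul_sum, ← Finset.sum_neg_distrib]
      refine Finset.sum_congr rfl fun j _ => ?_
      ring
    have t5 : ∑ a, ∑ b, ∑ i, ∑ j, qh x.2 * (l.1 a * l.1 b *
        (1 / 2 * eval x.2 (pderiv i (pderiv j (F.N a b))))) * (y (.inr i) * y (.inr j)) =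
        qh x.2 * F.d2 x.2 (fun i => y (.inr i)) l.1 l.1 := by
      rw [d2_eq]
      unfold dd2
      simp only [Finset.mul_sum, Finset.sum_mul]
      refine Finset.sum_congr rfl fun a _ => Finset.sum_congr rfl fun b _ =>
        Finset.sum_congr rfl fun i _ => Finset.sum_congr rfl fun j _ => ?_
      ring
    have t6 : ∑ i, -(l.1 0 * (x.2 i + x.2 i)) * y (.inr i) =
        - (2 * l.1 0 * ∑ i, x.2 i * y (.inr i)) := by
      rw [Finset.mul_sum, ← Finset.sum_neg_distrib]
      refine Finset.sum_congr rfl fun i _ => ?_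
      ring
    rw [t1, t2, t3, t4, t5, t6]
    ring

end NF

end Vale.Agent.P256.St
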