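import Vale.Agent.P256.St.NForm


/-! Geometry of the cone of a cubic with a strict double point. -/

namespace Vale.Agent.P256.St

open MvPolynomial Filter Topology

variable {n m k : ℕ} {p : MvPolynomial (Fin n) ℝ} {e z : Fin n → ℝ}

/-- parameters -/
abbrev Par (m k : ℕ) := (Fin (k + 1) → ℝ) × (Fin m → ℝ)

def xv (c : Co p e z m k) (l : Par m k) : Fin n → ℝ := l.1 0 • yv c l.2 + uv c l.1

noncomputable def Xv (c : Co p e z m k) (l : Par m k) : Fin n → ℝ :=
  ((nf c).nn l.2 l.1 l.1) • z + ro l • xv c l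

noncomputable def nu (c : Co p e z m k) (l : Par m k) : (Fin n → ℝ) →ₗ[ℝ] ℝ :=
  (ro l ^ 2) • c.s + (2 * (nf c).nn l.2 l.1 l.1) • (c.x0 - ∑ i, l.2 i • c.f i) +
  (3 * qh l.2) • ((triL p (xv c l) (xv c l)) ∘ₗ (LinearMap.id - c.s.smulRight z))

theorem nu_apply (c : Co p e z m k) (l : Par m k) (x : Fin n → ℝ) : nu c l x =
    ro l ^ 2 * c.s x + 2 * (nf c).nn l.2 l.1 l.1 * (c.x0 x - ∑ i, l.2 i * c.f i x) +
    3 * qh l.2 * (triL p (xv c l) (xv c l) x - c.s x * triL p (xv c l) (xv c l) z) := by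
  simp only [nu, LinearMap.add_apply, LinearMap.smul_apply, LinearMap.sub_apply,
    LinearMap.sum_apply, LinearMap.comp_apply, LinearMap.id_apply, LinearMap.smulRight_apply,
    smul_eq_mul, map_sub, map_smul]

/-! values of the coordinates -/

theorem s_yv (c : Co p e z m k) (η) : c.s (yv c η) = 0 := by simp [yv, c.se0, c.sw]
theorem x0_yv (c : Co p e z m k) (η) : c.x0 (yv c η) = 1 := by simp [yv, c.x0e0, c.x0w]
theorem f_yv (c : Co p e z m k) (η) (i) : c.f i (yv c η) = η i := by simp [yv, c.fe0, c.fw]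
theorem g_yv (c : Co p e z m k) (η) (i) : c.g i (yv c η) = 0 := by simp [yv, c.ge0, c.gw]
theorem s_uv (c : Co p e z m k) (w) : c.s (uv c w) = 0 := by simp [uv, c.su]
theorem x0_uv (c : Co p e z m k) (w) : c.x0 (uv c w) = 0 := by simp [uv, c.x0u]
theorem f_uv (c : Co p e z m k) (w) (i) : c.f i (uv c w) = 0 := by simp [uv, c.fu]
theorem g_uv (c : Co p e z m k) (w) (i) : c.g i (uv c w) = w (Fin.succ i) := by
  simp [uv, c.gu]
theorem s_xv (c : Co p e z m k) (l) : c.s (xv c l) = 0 := by simp [xv, s_yv, s_uv]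
theorem x0_xv (c : Co p e z m k) (l) : c.x0 (xv c l) = l.1 0 := by simp [xv, x0_yv, x0_uv]
theorem f_xv (c : Co p e z m k) (l) (i) : c.f i (xv c l) = l.1 0 * l.2 i := by
  simp [xv, f_yv, f_uv]

theorem ker_u (c : Co p e z m k) (j : Fin k) (y : Fin n → ℝ) : triL p z (c.u j) y = 0 := by
  have h1 := c.q (c.u j) y
  simp only [c.x0u, c.fu, zero_mul, Finset.sum_const_zero, sub_zero] at h1
  linarith

theorem ker_uv (c : Co p e z m k) (w) (y : Fin n → ℝ) : triL p z (uv c w) y = 0 := by
  simp only [uv, map_sum, map_smul, LinearMap.sum_apply, LinearMap.smul_apply, ker_u, smul_zero,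
    Finset.sum_const_zero]

theorem eval_ker (h : DPt p e z) {v : Fin n → ℝ} (hv : ∀ y, triL p z v y = 0) :
    eval v p = 0 := by
  have key : ∀ v : Fin n → ℝ, (∀ y, triL p z v y = 0) → v ∈ hypCone (part p z 2) e := by
    intro v hv
    rw [mem_hypCone_iff (part_homog p z 2)]
    intro t ht
    rw [part2 h.hom]
    simp only [map_add, map_smul, LinearMap.add_apply, LinearMap.smul_apply, smul_eq_mul, hv]
    rw [triL_swap23 p z e v, hv]
    have h1 := h.qe
    have : 0 < 3 * (0 + t * 0 + t * (0 + t * triL p z e e)) := by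
      nlinarith [mul_pos ht ht]
    nlinarith [mul_pos ht ht, mul_pos (mul_pos ht ht) h1]
  have h1 := h.nonpos (key v hv) (hv v)
  have hv' : ∀ y, triL p z (-v) y = 0 := fun y => by
    rw [map_neg, LinearMap.neg_apply, hv, neg_zero]
  have h2 := h.nonpos (key (-v) hv') (hv' _)
  have h3 : eval (-v) p = -eval v p := by
    have h4 : (-v) = (-1 : ℝ) • v := by module
    rw [h4, eval_smul' h.hom]
    ring
  rw [h3] at h2
  linarith

theorem tri_ker (h : DPt p e z) {a b c : Fin n → ℝ} (ha : ∀ y, triL p z a y = 0)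
    (hb : ∀ y, triL p z b y = 0) (hc : ∀ y, triL p z c y = 0) : triL p a b c = 0 := by
  have hadd : ∀ {a b : Fin n → ℝ}, (∀ y, triL p z a y = 0) → (∀ y, triL p z b y = 0) →
      ∀ y, triL p z (a + b) y = 0 := by
    intro a b ha hb y
    rw [map_add, LinearMap.add_apply, ha, hb, add_zero]
  have h1 := triL_pol h.hom a b c
  rw [eval_ker h (hadd (hadd ha hb) hc), eval_ker h (hadd ha hb), eval_ker h (hadd ha hc),
    eval_ker h (hadd hb hc), eval_ker h ha, eval_ker h hb, eval_ker h hc] at h1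
  linarith

theorem tri_uv (h : DPt p e z) (c : Co p e z m k) (w w' w'') :
    triL p (uv c w) (uv c w') (uv c w'') = 0 :=
  tri_ker h (ker_uv c w) (ker_uv c w') (ker_uv c w'')

theorem q_xv (c : Co p e z m k) (l : Par m k) :
    3 * triL p z (xv c l) (xv c l) = (l.1 0) ^ 2 * qh l.2 := by
  rw [c.q, x0_xv, qh, mul_sub, mul_one, Finset.mul_sum]
  simp only [f_xv]
  congr 1
  · ring
  · exact Finset.sum_congr rfl fun i _ => by ring

theorem tri_xv (h : DPt p e z) (c : Co p e z m k) (l x : Par m k) :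
    3 * triL p (xv c l) (xv c l) (xv c x) =
      -(x.1 0 * (nf c).nn l.2 l.1 l.1 + 2 * l.1 0 * (nf c).nn l.2 l.1 x.1) -
        x.1 0 * (nf c).dn l.2 (fun i => x.2 i - l.2 i) l.1 l.1 := by
  have hy : yv c x.2 = yv c l.2 + dv c (fun i => x.2 i - l.2 i) := by
    have h1 := yv_add c l.2 (fun i => x.2 i - l.2 i) 1
    rw [one_smul, one_smul] at h1
    rw [← h1]
    congr 1
    funext i
    simp
  simp only [nn_eq, dn_eq]
  unfold xv
  rw [hy]
  have h0 := tri_uv h c l.1 l.1 x.1
  set y := yv c l.2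
  set δ := dv c (fun i => x.2 i - l.2 i)
  set U := uv c l.1
  set U' := uv c x.1
  simp only [map_add, map_smul, LinearMap.add_apply, LinearMap.smul_apply, smul_eq_mul, h0]
  have e1 : triL p U y y = triL p y y U := by rw [triL_swap12, triL_swap23]
  have e2 : triL p U y δ = triL p y δ U := by rw [triL_swap12, triL_swap23]
  have e3 : triL p U y U' = triL p y U U' := by rw [triL_swap12]
  have e4 : triL p y U y = triL p y y U := by rw [triL_swap23]
  have e5 : triL p y U δ = triL p y δ U := by rw [triL_swap23]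
  have e6 : triL p U U y = triL p y U U := by rw [triL_swap23, triL_swap12]
  have e7 : triL p U U δ = triL p δ U U := by rw [triL_swap23, triL_swap12]
  rw [e1, e2, e3, e4, e5, e6, e7]
  ring

theorem eval_xv (h : DPt p e z) (c : Co p e z m k) (l : Par m k) :
    eval (xv c l) p = -(l.1 0 * (nf c).nn l.2 l.1 l.1) := by
  have h1 := tri_xv h c l l
  have h2 : (nf c).dn l.2 (fun i => l.2 i - l.2 i) l.1 l.1 = 0 := by
    simp [NF.dn]
  rw [h2] at h1
  rw [tri_diag h.hom]
  linarith

theorem nu_Xv (h : DPt p e z) (c : Co p e z m k) (l x : Par m k) :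
    nu c l (Xv c x) = (nf c).kern l x := by
  have hs : c.s (Xv c x) = (nf c).nn x.2 x.1 x.1 := by
    simp only [Xv, map_add, map_smul, c.sz, s_xv, smul_eq_mul, mul_one, mul_zero, add_zero]
  have hx0 : c.x0 (Xv c x) = ro x * x.1 0 := by
    simp only [Xv, map_add, map_smul, c.x0z, x0_xv, smul_eq_mul, mul_zero, zero_add]
  have hf : ∀ i, c.f i (Xv c x) = ro x * (x.1 0 * x.2 i) := by
    intro i
    simp only [Xv, map_add, map_smul, c.fz, f_xv, smul_eq_mul, mul_zero, zero_add]
  have ht : triL p (xv c l) (xv c l) (Xv c x) =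
      (nf c).nn x.2 x.1 x.1 * triL p (xv c l) (xv c l) z +
        ro x * triL p (xv c l) (xv c l) (xv c x) := by
    simp only [Xv, map_add, map_smul, smul_eq_mul]
  have ht2 := tri_xv h c l x
  rw [nu_apply, hs, hx0, ht]
  simp only [hf, NF.kern]
  have e1 : ∑ i, l.2 i * (ro x * (x.1 0 * x.2 i)) = ro x * x.1 0 * ∑ i, l.2 i * x.2 i := by
    rw [Finset.mul_sum]
    exact Finset.sum_congr rfl fun i _ => by ring
  have e2 : ∑ i, (x.2 i - l.2 i) ^ 2 = ∑ i, x.2 i ^ 2 + ∑ i, l.2 i ^ 2 -
      2 * ∑ i, l.2 i * x.2 i := by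
    rw [Finset.mul_sum, ← Finset.sum_add_distrib, ← Finset.sum_sub_distrib]
    exact Finset.sum_congr rfl fun i _ => by ring
  have e3 : ∑ i, x.2 i ^ 2 = 1 - qh x.2 := by rw [qh]; ring
  have e4 : ∑ i, l.2 i ^ 2 = 1 - qh l.2 := by rw [qh]; ring
  rw [e1, e2, e3, e4]
  set Nx := (nf c).nn x.2 x.1 x.1
  set Nl := (nf c).nn l.2 l.1 l.1
  set Nlx := (nf c).nn l.2 l.1 x.1
  set Dl := (nf c).dn l.2 (fun i => x.2 i - l.2 i) l.1 l.1
  set S := ∑ i, l.2 i * x.2 i
  set T := triL p (xv c l) (xv c l) (xv c x)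
  have hT : 3 * qh l.2 * (Nx * triL p (xv c l) (xv c l) z + ro x * T -
      Nx * triL p (xv c l) (xv c l) z) = qh l.2 * ro x * (3 * T) := by ring
  rw [hT, ht2]
  simp only [ro]
  ring

theorem dd_nu (h : DPt p e z) (c : Co p e z m k) (l : Par m k) (x : Fin n → ℝ) :
    (l.1 0) ^ 2 * qh l.2 * nu c l x = 3 * triL p (Xv c l) (Xv c l) x := by
  have h1 : 3 * triL p (Xv c l) (Xv c l) x = 2 * (nf c).nn l.2 l.1 l.1 * ro l *
      (3 * triL p z (xv c l) x) + ro l ^ 2 * (3 * triL p (xv c l) (xv c l) x) := by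
    simp only [Xv, map_add, map_smul, LinearMap.add_apply, LinearMap.smul_apply, smul_eq_mul,
      h.grad]
    rw [triL_swap12 p (xv c l) z x]
    ring
  have h2 : 3 * triL p z (xv c l) x = l.1 0 * (c.x0 x - ∑ i, l.2 i * c.f i x) := by
    rw [c.q, x0_xv, mul_sub, Finset.mul_sum]
    simp only [f_xv]
    congr 1
    exact Finset.sum_congr rfl fun i _ => by ring
  have h3 : 3 * triL p (xv c l) (xv c l) z = (l.1 0) ^ 2 * qh l.2 := by
    rw [← q_xv c l, triL_swap23, triL_swap12]
  have h4 : 3 * qh l.2 * (triL p (xv c l) (xv c l) x - c.s x * triL p (xv c l) (xv c l) z) =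
      qh l.2 * (3 * triL p (xv c l) (xv c l) x - c.s x *
        (3 * triL p (xv c l) (xv c l) z)) := by ring
  rw [nu_apply, h1, h2, h4, h3]
  simp only [ro]
  ring

/-- strictness -/
structure Str (p : MvPolynomial (Fin n) ℝ) (e z : Fin n → ℝ) : Prop where
  one : ∀ x ∈ hypCone (part p z 2) e, (∃ y, triL p z x y ≠ 0) → triL p z x x = 0 →
    eval x p < 0
  two : ∀ u, (∀ y, triL p z u y = 0) → (∀ c : ℝ, u ≠ c • z) →
    ∀ x ∈ hypCone (part p z 2) e, (∃ y, triL p z x y ≠ 0) → triL p u u x < 0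

theorem x0_nonneg (h : DPt p e z) (c : Co p e z m k) {x : Fin n → ℝ}
    (hx : x ∈ hypCone (part p z 2) e) : 0 ≤ c.x0 x := by
  by_contra hneg
  push Not at hneg
  have hE := h.qe
  have hB : 3 * triL p z x e = c.x0 x * c.x0 e := by
    rw [c.q]
    simp [c.fe]
  have hB0 : 3 * triL p z x e < 0 := by
    rw [hB]
    exact mul_neg_of_neg_of_pos hneg c.x0e
  set B := 3 * triL p z x e with hBdef
  set E := 3 * triL p z e e with hEdef
  have ht : 0 < -B / E := by
    apply div_pos _ hE
    linarith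
  have hval : ∀ t : ℝ, eval (x + t • e) (part p z 2) =
      3 * triL p z x x + 2 * t * B + t ^ 2 * E := by
    intro t
    rw [part2 h.hom]
    simp only [map_add, map_smul, LinearMap.add_apply, LinearMap.smul_apply, smul_eq_mul]
    rw [triL_swap23 p z e x, hBdef, hEdef]
    ring
  have h1 := (mem_hypCone_iff (part_homog p z 2) x).1 hx _ ht
  have h2 : 0 ≤ eval (x + (-B / E) • e) (part p z 2) := by
    apply K_eval_nonneg h.hypq
    exact K_add h.hypq hx (K_smul h.hypq ((e_inOpen h.hypq).mem h.hypq) ht.le)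
  rw [hval] at h1 h2
  have h3 := h.rcs x
  have h4 : 3 * triL p z x x + 2 * (-B / E) * B + (-B / E) ^ 2 * E =
      (3 * triL p z x x * E - B ^ 2) / E := by
    field_simp
    ring
  rw [h4] at h1 h2
  have h5 : (3 * triL p z x x * E - B ^ 2) / E ≤ 0 :=
    div_nonpos_of_nonpos_of_nonneg (by linarith) hE.le
  exact h1 (le_antisymm h5 h2)

theorem ker_of (c : Co p e z m k) {x : Fin n → ℝ} (h0 : c.x0 x = 0) (hf : ∀ i, c.f i x = 0)
    (y : Fin n → ℝ) : triL p z x y = 0 := by
  have h1 := c.q x y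
  simp only [h0, hf, zero_mul, Finset.sum_const_zero, sub_zero] at h1
  linarith

/-- the points of the cone -/
theorem point_form (h : DPt p e z) (hS : Str p e z) (c : Co p e z m k) {x : Fin n → ℝ}
    (hx : x ∈ hypCone p e) :
    (∃ a : ℝ, 0 ≤ a ∧ x = a • z) ∨
    ∃ (l : Par m k) (a b : ℝ), l ∈ DD m k ∧ 0 < a ∧ 0 ≤ b ∧ 0 < l.1 0 ∧ 0 < qh l.2 ∧
      x = a • Xv c l + b • z ∧ (eval x p = 0 → b = 0) := by
  have hxq := h.sub hx
  have hx0 := x0_nonneg h c hxq
  have hq0 : 0 ≤ 3 * triL p z x x := by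
    rw [← part2 h.hom]
    exact K_eval_nonneg h.hypq hxq
  have hp0 := K_eval_nonneg h.hyp hx
  rcases hq0.lt_or_eq with hq | hq
  · right
    have hqq : 0 < c.x0 x ^ 2 - ∑ i, c.f i x ^ 2 := by
      have h1 := c.q x x
      have h2 : ∑ i, c.f i x * c.f i x = ∑ i, c.f i x ^ 2 :=
        Finset.sum_congr rfl fun i _ => by ring
      rw [h2] at h1
      nlinarith
    have hlam : 0 < c.x0 x := by
      rcases hx0.lt_or_eq with h1 | h1
      · exact h1
      · exfalso
        rw [← h1] at hqq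
        have : 0 ≤ ∑ i, c.f i x ^ 2 := Finset.sum_nonneg fun i _ => sq_nonneg _
        nlinarith
    set w' : Fin (k + 1) → ℝ := Fin.cons (c.x0 x) (fun j => c.g j x) with hw'
    set η : Fin m → ℝ := fun i => c.f i x / c.x0 x with hη
    have hw0 : w' 0 = c.x0 x := rfl
    have hws : ∀ j : Fin k, w' j.succ = c.g j x := fun j => rfl
    have hN : 0 < ∑ i, w' i ^ 2 := by
      rw [Fin.sum_univ_succ, hw0]
      have : 0 ≤ ∑ i : Fin k, w' i.succ ^ 2 := Finset.sum_nonneg fun i _ => sq_nonneg _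
      nlinarith [mul_pos hlam hlam]
    set r := Real.sqrt (∑ i, w' i ^ 2) with hr
    have hr0 : 0 < r := Real.sqrt_pos.2 hN
    have hrr : r ^ 2 = ∑ i, w' i ^ 2 := Real.sq_sqrt hN.le
    set l : Par m k := (r⁻¹ • w', η) with hl
    have hl0 : l.1 0 = r⁻¹ * c.x0 x := rfl
    have hl00 : 0 < l.1 0 := by rw [hl0]; positivity
    have hqh : 0 < qh l.2 := by
      have h1 : qh l.2 = (c.x0 x ^ 2 - ∑ i, c.f i x ^ 2) / c.x0 x ^ 2 := by
        simp only [qh, hl, hη]
        rw [sub_div, div_self (pow_ne_zero 2 hlam.ne'), Finset.sum_div]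
        congr 1
        exact Finset.sum_congr rfl fun i _ => by rw [div_pow]
      rw [h1]
      positivity
    have hxx : x = c.s x • z + r • xv c l := by
      have h1 : r • xv c l = c.x0 x • c.e0 + ∑ i, c.f i x • c.w i + ∑ j, c.g j x • c.u j := by
        have h2 : r * l.1 0 = c.x0 x := by rw [hl0, ← mul_assoc, mul_inv_cancel₀ hr0.ne', one_mul]
        rw [xv, smul_add, smul_smul, h2, yv, smul_add, Finset.smul_sum, uv, Finset.smul_sum]
        congr 1
        · congr 1
          refine Finset.sum_congr rfl fun i _ => ?_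
          rw [smul_smul]
          congr 1
          simp only [hl, hη]
          field_simp
        · refine Finset.sum_congr rfl fun j _ => ?_
          rw [smul_smul]
          congr 1
          simp only [hl, Pi.smul_apply, smul_eq_mul, hws]
          field_simp
      rw [h1]
      conv_lhs => rw [c.dec x]
      abel
    have hro : 0 < ro l := mul_pos hl00 hqh
    set N := (nf c).nn l.2 l.1 l.1 with hNd
    have hev : eval x p = r ^ 2 * (l.1 0 * (ro l * c.s x - r * N)) := by
      rw [hxx]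
      have h1 : c.s x • z + r • xv c l = r • xv c l + c.s x • z := by abel
      have h2 : c.s (c.s x • z + r • xv c l) = c.s x := by rw [← hxx]
      rw [h2, h1, h.eval_add, eval_smul' h.hom, eval_xv h]
      simp only [map_smul, LinearMap.smul_apply, smul_eq_mul]
      have h3 := q_xv c l
      have h4 : 3 * (r * (r * triL p z (xv c l) (xv c l))) =
          r ^ 2 * (3 * triL p z (xv c l) (xv c l)) := by ring
      rw [h4, h3, ro]
      ring
    have hb : 0 ≤ ro l * c.s x - r * N := by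
      by_contra hneg
      push Not at hneg
      rw [hev] at hp0
      have := mul_neg_of_pos_of_neg (pow_pos hr0 2) (mul_neg_of_pos_of_neg hl00 hneg)
      linarith
    refine ⟨l, r / ro l, (ro l * c.s x - r * N) / ro l, ⟨?_, hl00.le, ?_⟩, by positivity,
      div_nonneg hb hro.le, hl00, hqh, ?_, ?_⟩
    · have h1 : ∀ i, l.1 i ^ 2 = (r ^ 2)⁻¹ * w' i ^ 2 := by
        intro i
        simp only [hl, Pi.smul_apply, smul_eq_mul]
        rw [mul_pow, inv_pow]
      simp_rw [h1]
      rw [← Finset.mul_sum, ← hrr, inv_mul_cancel₀ (pow_ne_zero 2 hr0.ne')]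
    · have h1 : ∑ i, l.2 i ^ 2 = 1 - qh l.2 := by rw [qh]; ring
      rw [h1]
      linarith
    · conv_lhs => rw [hxx]
      rw [Xv, ← hNd, smul_add, smul_smul, smul_smul, div_mul_cancel₀ _ hro.ne']
      have h1 : c.s x = r / ro l * N + (ro l * c.s x - r * N) / ro l := by
        field_simp
        ring
      conv_lhs => rw [h1]
      rw [add_smul]
      abel
    · intro h0
      rw [hev] at h0
      have h1 : ro l * c.s x - r * N = 0 := by
        rcases mul_eq_zero.1 h0 with h1 | h1
        · exact absurd h1 (pow_ne_zero 2 hr0.ne')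
        · rcases mul_eq_zero.1 h1 with h1 | h1
          · exact absurd h1 hl00.ne'
          · exact h1
      rw [h1, zero_div]
  · left
    have hq' : triL p z x x = 0 := by linarith
    have hker : ∀ y, triL p z x y = 0 := by
      by_contra hcon
      push Not at hcon
      have := hS.one x hxq hcon hq'
      linarith
    have hmul : ∃ a : ℝ, x = a • z := by
      by_contra hcon
      push Not at hcon
      have he : ∃ y, triL p z e y ≠ 0 := ⟨e, by
        intro h0
        have := h.qe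
        rw [h0, mul_zero] at this
        exact lt_irrefl _ this⟩
      have h1 := hS.two x hker hcon e ((e_inOpen h.hypq).mem h.hypq) he
      have h2 : ∀ ε : ℝ, 0 ≤ ε → 0 ≤ 3 * triL p x x e * ε + 3 * triL p x e e * ε ^ 2 +
          eval e p * ε ^ 3 := by
        intro ε hε
        have h3 := K_eval_nonneg h.hyp (K_add h.hyp hx (K_smul h.hyp
          ((e_inOpen h.hyp).mem h.hyp) hε))
        rw [eval_add_cubic h.hom, eval_ker h hker, eval_smul' h.hom] at h3
        simp only [map_smul, LinearMap.smul_apply, smul_eq_mul] at h3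
        linarith
      -- small `ε`
      set a := -(3 * triL p x x e) with ha
      have ha0 : 0 < a := by rw [ha]; linarith
      set M := |3 * triL p x e e| + |eval e p| + 1 with hM
      have hM1 : 1 ≤ M := by rw [hM]; linarith [abs_nonneg (3 * triL p x e e), abs_nonneg (eval e p)]
      set ε := min 1 (a / (2 * M)) with hε
      have hε0 : 0 < ε := lt_min one_pos (by positivity)
      have hε1 : ε ≤ 1 := min_le_left _ _
      have hεM : ε * (2 * M) ≤ a := by
        have h3 : ε ≤ a / (2 * M) := min_le_right _ _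
        rwa [le_div_iff₀ (by positivity)] at h3
      have h3 := h2 ε hε0.le
      have h4 : 3 * triL p x e e * ε ^ 2 ≤ |3 * triL p x e e| * ε ^ 2 :=
        mul_le_mul_of_nonneg_right (le_abs_self _) (sq_nonneg _)
      have h5 : eval e p * ε ^ 3 ≤ |eval e p| * ε ^ 2 := by
        have h6 : ε ^ 3 ≤ ε ^ 2 := by nlinarith [sq_nonneg ε]
        calc eval e p * ε ^ 3 ≤ |eval e p| * ε ^ 3 :=
              mul_le_mul_of_nonneg_right (le_abs_self _) (by positivity)
          _ ≤ |eval e p| * ε ^ 2 := mul_le_mul_of_nonneg_left h6 (abs_nonneg _)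
      have h6 : (|3 * triL p x e e| + |eval e p|) * ε ^ 2 ≤ M * ε ^ 2 :=
        mul_le_mul_of_nonneg_right (by rw [hM]; linarith) (sq_nonneg _)
      have h7 : M * ε ^ 2 * 2 ≤ a * ε := by nlinarith
      nlinarith [mul_pos ha0 hε0]
    obtain ⟨a, ha⟩ := hmul
    refine ⟨a, ?_, ha⟩
    by_contra hneg
    push Not at hneg
    apply h.neg
    have h1 := K_smul h.hyp hx (c := (-a)⁻¹) (inv_nonneg.2 (by linarith))
    have h2 : (-a)⁻¹ • x = -z := by
      rw [ha, smul_smul]
      have : (-a)⁻¹ * a = -1 := by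
        have : a ≠ 0 := hneg.ne
        field_simp
      rw [this, neg_one_smul]
    rwa [h2] at h1

end Vale.Agent.P256.St
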