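import Vale.Agent.P256.St.Defs
import Vale.Agent.P256.St.Diag
import Vale.Agent.P256.C5.OrdLin

/-! The normal form of a cubic at a double point. -/

namespace Vale.Agent.P256.St

open MvPolynomial Filter Topology

variable {n m k : ℕ} {p : MvPolynomial (Fin n) ℝ} {e z : Fin n → ℝ}

/-- the vectors `e₀, w_i` -/
def vy (c : Co p e z m k) : Fin (m + 1) → Fin n → ℝ := Fin.cons c.e0 c.w

/-- the polynomials `1, η_i` -/
noncomputable def YY : Fin (m + 1) → MvPolynomial (Fin m) ℝ := Fin.cons 1 X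

/-- `ŷ(η) = e₀ + ∑ η_i w_i` -/
def yv (c : Co p e z m k) (η : Fin m → ℝ) : Fin n → ℝ := c.e0 + ∑ i, η i • c.w i

def dv (c : Co p e z m k) (d : Fin m → ℝ) : Fin n → ℝ := ∑ i, d i • c.w i

def uv (c : Co p e z m k) (w : Fin (k + 1) → ℝ) : Fin n → ℝ := ∑ j, w (Fin.succ j) • c.u j

theorem eval_YY (η : Fin m → ℝ) (a : Fin (m + 1)) :
    eval η (YY a) = (Fin.cons 1 η : Fin (m + 1) → ℝ) a := by
  refine Fin.cases ?_ (fun i => ?_) a
  · simp [YY]
  · simp [YY]

theorem yv_eq (c : Co p e z m k) (η : Fin m → ℝ) :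
    yv c η = ∑ a, (Fin.cons 1 η : Fin (m + 1) → ℝ) a • vy c a := by
  rw [Fin.sum_univ_succ]
  simp [yv, vy]

theorem yv_add (c : Co p e z m k) (η d : Fin m → ℝ) (t : ℝ) :
    yv c (η + t • d) = yv c η + t • dv c d := by
  simp only [yv, dv, Pi.add_apply, Pi.smul_apply, smul_eq_mul, add_smul, Finset.sum_add_distrib,
    Finset.smul_sum, smul_smul]
  abel

theorem deg_YY (a : Fin (m + 1)) : (YY a : MvPolynomial (Fin m) ℝ).totalDegree ≤ 1 := by
  refine Fin.cases ?_ (fun i => ?_) a
  · simp [YY]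
  · simp [YY, totalDegree_X]

noncomputable def N00 (c : Co p e z m k) : MvPolynomial (Fin m) ℝ :=
  -∑ a, ∑ b, ∑ d, C (triL p (vy c a) (vy c b) (vy c d)) * (YY a * YY b * YY d)

noncomputable def N0 (c : Co p e z m k) (j : Fin k) : MvPolynomial (Fin m) ℝ :=
  -∑ a, ∑ b, C (3 / 2 * triL p (vy c a) (vy c b) (c.u j)) * (YY a * YY b)

noncomputable def N2 (c : Co p e z m k) (i j : Fin k) : MvPolynomial (Fin m) ℝ :=
  -∑ a, C (3 * triL p (vy c a) (c.u i) (c.u j)) * YY a

theorem eval_N00 (c : Co p e z m k) (η : Fin m → ℝ) :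
    eval η (N00 c) = -triL p (yv c η) (yv c η) (yv c η) := by
  rw [N00, yv_eq]
  simp only [map_neg, map_sum, map_mul, eval_C, eval_YY, LinearMap.sum_apply, map_smul,
    LinearMap.smul_apply, smul_eq_mul, Finset.mul_sum]
  congr 1
  refine Finset.sum_congr rfl fun a _ => Finset.sum_congr rfl fun b _ =>
    Finset.sum_congr rfl fun d _ => ?_
  have h1 : triL p (vy c d) (vy c b) (vy c a) = triL p (vy c a) (vy c b) (vy c d) := by
    rw [triL_swap12, triL_swap23, triL_swap12]
  rw [h1]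
  ring

theorem eval_N0 (c : Co p e z m k) (j : Fin k) (η : Fin m → ℝ) :
    eval η (N0 c j) = -(3 / 2 * triL p (yv c η) (yv c η) (c.u j)) := by
  rw [N0, yv_eq]
  simp only [map_neg, map_sum, map_mul, eval_C, eval_YY, LinearMap.sum_apply, map_smul,
    LinearMap.smul_apply, smul_eq_mul, Finset.mul_sum]
  congr 1
  refine Finset.sum_congr rfl fun a _ => Finset.sum_congr rfl fun b _ => ?_
  rw [triL_swap12 p (vy c b) (vy c a)]
  ring

theorem eval_N2 (c : Co p e z m k) (i j : Fin k) (η : Fin m → ℝ) :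
    eval η (N2 c i j) = -(3 * triL p (yv c η) (c.u i) (c.u j)) := by
  rw [N2, yv_eq]
  simp only [map_neg, map_sum, map_mul, eval_C, eval_YY, LinearMap.sum_apply, map_smul,
    LinearMap.smul_apply, smul_eq_mul, Finset.mul_sum]
  congr 1
  refine Finset.sum_congr rfl fun a _ => ?_
  ring

/-- the normal form -/
noncomputable def nf (c : Co p e z m k) : NF m k where
  N := Fin.cases (Fin.cases (N00 c) (N0 c)) (fun i => Fin.cases (N0 c i) (N2 c i))
  symm := by
    intro a b
    refine Fin.cases ?_ (fun i => ?_) a <;> refine Fin.cases ?_ (fun j => ?_) b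
    · rfl
    · rfl
    · rfl
    · show N2 c i j = N2 c j i
      unfold N2
      simp only [triL_swap23 p _ (c.u i) (c.u j)]
  deg2 := by
    intro i j
    show (N2 c i j).totalDegree ≤ 1
    unfold N2
    rw [totalDegree_neg]
    refine totalDegree_finsetSum_le fun a _ => ?_
    refine (totalDegree_mul _ _).trans ?_
    rw [totalDegree_C, zero_add]
    exact deg_YY a
  deg1 := by
    intro j
    show (N0 c j).totalDegree ≤ 2
    unfold N0
    rw [totalDegree_neg]
    refine totalDegree_finsetSum_le fun a _ => totalDegree_finsetSum_le fun b _ => ?_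
    refine (totalDegree_mul _ _).trans ?_
    rw [totalDegree_C, zero_add]
    refine (totalDegree_mul _ _).trans ?_
    have h1 := deg_YY (m := m) a
    have h2 := deg_YY (m := m) b
    omega
  deg0 := by
    show (N00 c).totalDegree ≤ 3
    unfold N00
    rw [totalDegree_neg]
    refine totalDegree_finsetSum_le fun a _ => totalDegree_finsetSum_le fun b _ =>
      totalDegree_finsetSum_le fun d _ => ?_
    refine (totalDegree_mul _ _).trans ?_
    rw [totalDegree_C, zero_add]
    refine (totalDegree_mul _ _).trans ?_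
    have h0 := totalDegree_mul (YY a : MvPolynomial (Fin m) ℝ) (YY b)
    have h1 := deg_YY (m := m) a
    have h2 := deg_YY (m := m) b
    have h3 := deg_YY (m := m) d
    omega

theorem nn_eq (c : Co p e z m k) (η : Fin m → ℝ) (w w' : Fin (k + 1) → ℝ) :
    (nf c).nn η w w' = -(w 0 * w' 0 * triL p (yv c η) (yv c η) (yv c η) +
      3 / 2 * (w 0 * triL p (yv c η) (yv c η) (uv c w') +
        w' 0 * triL p (yv c η) (yv c η) (uv c w)) +
      3 * triL p (yv c η) (uv c w) (uv c w')) := by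
  have h1 : ∀ a b : Fin (k + 1), (nf c).N a b =
    (Fin.cases (motive := fun _ => Fin (k + 1) → MvPolynomial (Fin m) ℝ)
      (Fin.cases (N00 c) (N0 c)) (fun i => Fin.cases (N0 c i) (N2 c i)) a : _) b := fun a b => rfl
  have hU1 : ∀ (v1 v2 : Fin n → ℝ) (w : Fin (k + 1) → ℝ),
      triL p v1 v2 (uv c w) = ∑ j, w (Fin.succ j) * triL p v1 v2 (c.u j) := by
    intro v1 v2 w
    simp only [uv, map_sum, map_smul, smul_eq_mul]
  have hU2 : triL p (yv c η) (uv c w) (uv c w') =
      ∑ i, ∑ j, w (Fin.succ i) * w' (Fin.succ j) * triL p (yv c η) (c.u i) (c.u j) := by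
    rw [triL_swap23, hU1, Finset.sum_congr rfl fun i _ => by
      rw [triL_swap23 p (yv c η) (uv c w') (c.u i), hU1, Finset.mul_sum]]
    refine Finset.sum_congr rfl fun i _ => Finset.sum_congr rfl fun j _ => ?_
    ring
  rw [NF.nn, Fin.sum_univ_succ]
  simp only [Fin.sum_univ_succ, h1, Fin.cases_zero, Fin.cases_succ, eval_N00, eval_N0, eval_N2]
  rw [Finset.sum_add_distrib, hU1 _ _ w', hU1 _ _ w, hU2]
  have s1 : ∑ i : Fin k, -(3 / 2 * triL p (yv c η) (yv c η) (c.u i)) * w 0 * w' i.succ =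
      -(3 / 2 * (w 0 * ∑ j, w' (Fin.succ j) * triL p (yv c η) (yv c η) (c.u j))) := by
    rw [Finset.mul_sum, Finset.mul_sum, ← Finset.sum_neg_distrib]
    exact Finset.sum_congr rfl fun i _ => by ring
  have s2 : ∑ i : Fin k, -(3 / 2 * triL p (yv c η) (yv c η) (c.u i)) * w i.succ * w' 0 =
      -(3 / 2 * (w' 0 * ∑ j, w (Fin.succ j) * triL p (yv c η) (yv c η) (c.u j))) := by
    rw [Finset.mul_sum, Finset.mul_sum, ← Finset.sum_neg_distrib]
    exact Finset.sum_congr rfl fun i _ => by ring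
  have s3 : ∑ i : Fin k, ∑ j : Fin k,
      -(3 * triL p (yv c η) (c.u i) (c.u j)) * w i.succ * w' j.succ =
      -(3 * ∑ i, ∑ j, w (Fin.succ i) * w' (Fin.succ j) *
        triL p (yv c η) (c.u i) (c.u j)) := by
    rw [Finset.mul_sum, ← Finset.sum_neg_distrib]
    refine Finset.sum_congr rfl fun i _ => ?_
    rw [Finset.mul_sum, ← Finset.sum_neg_distrib]
    exact Finset.sum_congr rfl fun j _ => by ring
  rw [s1, s2, s3]
  ring

theorem dn_eq (c : Co p e z m k) (η d : Fin m → ℝ) (w w' : Fin (k + 1) → ℝ) :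
    (nf c).dn η d w w' = -(w 0 * w' 0 * (3 * triL p (yv c η) (yv c η) (dv c d)) +
      3 / 2 * (w 0 * (2 * triL p (yv c η) (dv c d) (uv c w')) +
        w' 0 * (2 * triL p (yv c η) (dv c d) (uv c w))) +
      3 * triL p (dv c d) (uv c w) (uv c w')) := by
  have hd1 : HasDerivAt (fun t : ℝ => (nf c).nn (η + t • d) w w') ((nf c).dn η d w w') 0 := by
    have h1 : ∀ a b, HasDerivAt (fun t : ℝ => eval (η + t • d) ((nf c).N a b) * w a * w' b)
        ((∑ i, d i * eval η (pderiv i ((nf c).N a b))) * w a * w' b) 0 := by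
      intro a b
      have h2 := hasDerivAt_eval_comp ((nf c).N a b) (γ := fun t : ℝ => η + t • d) (γ' := d)
        (t0 := 0) (fun i => by
          have h3 := ((hasDerivAt_id (0 : ℝ)).mul_const (d i)).const_add (η i)
          simpa using h3)
      rw [zero_smul, add_zero] at h2
      exact (h2.mul_const (w a)).mul_const (w' b)
    have h4 := HasDerivAt.fun_sum (u := Finset.univ) fun (a : Fin (k + 1)) _ =>
      HasDerivAt.fun_sum (u := Finset.univ) fun (b : Fin (k + 1)) _ => h1 a b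
    refine h4.congr_deriv ?_
    unfold NF.dn
    simp only [Finset.mul_sum, Finset.sum_mul]
    rw [Finset.sum_comm]
    conv_rhs => rw [Finset.sum_comm]
    rw [Finset.sum_comm]
    refine Finset.sum_congr rfl fun a _ => ?_
    conv_rhs => rw [Finset.sum_comm]
    refine Finset.sum_congr rfl fun b _ => Finset.sum_congr rfl fun i _ => ?_
    ring
  have hd2 : HasDerivAt (fun t : ℝ => (nf c).nn (η + t • d) w w')
      (-(w 0 * w' 0 * (3 * triL p (yv c η) (yv c η) (dv c d)) +
      3 / 2 * (w 0 * (2 * triL p (yv c η) (dv c d) (uv c w')) +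
        w' 0 * (2 * triL p (yv c η) (dv c d) (uv c w))) +
      3 * triL p (dv c d) (uv c w) (uv c w'))) 0 := by
    set y := yv c η
    set δ := dv c d
    set U := uv c w
    set U' := uv c w'
    have h1 : ∀ t : ℝ, (nf c).nn (η + t • d) w w' =
        (-(w 0 * w' 0 * triL p y y y + 3 / 2 * (w 0 * triL p y y U' + w' 0 * triL p y y U) +
          3 * triL p y U U')) +
        (-(w 0 * w' 0 * (3 * triL p y y δ) + 3 / 2 * (w 0 * (2 * triL p y δ U') +
          w' 0 * (2 * triL p y δ U)) + 3 * triL p δ U U')) * t +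
        (-(w 0 * w' 0 * (3 * triL p y δ δ) + 3 / 2 * (w 0 * triL p δ δ U' +
          w' 0 * triL p δ δ U))) * t ^ 2 + (-(w 0 * w' 0 * triL p δ δ δ)) * t ^ 3 := by
      intro t
      rw [nn_eq, yv_add]
      simp only [map_add, map_smul, LinearMap.add_apply, LinearMap.smul_apply, smul_eq_mul]
      rw [triL_swap23 p y δ y, triL_swap12 p δ y y, triL_swap23 p y δ y, triL_swap12 p δ δ y,
        triL_swap23 p δ y δ, triL_swap12 p δ y U', triL_swap12 p δ y U]
      have e1 : triL p δ δ y = triL p y δ δ := by rw [triL_swap23 p δ δ y, triL_swap12]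
      have e2 : triL p δ y δ = triL p y δ δ := triL_swap12 p δ y δ
      simp only [e1]
      ring
    have h2 : (fun t : ℝ => (nf c).nn (η + t • d) w w') = fun t : ℝ =>
        (-(w 0 * w' 0 * triL p y y y + 3 / 2 * (w 0 * triL p y y U' + w' 0 * triL p y y U) +
          3 * triL p y U U')) +
        (-(w 0 * w' 0 * (3 * triL p y y δ) + 3 / 2 * (w 0 * (2 * triL p y δ U') +
          w' 0 * (2 * triL p y δ U)) + 3 * triL p δ U U')) * t +
        (-(w 0 * w' 0 * (3 * triL p y δ δ) + 3 / 2 * (w 0 * triL p δ δ U' +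
          w' 0 * triL p δ δ U))) * t ^ 2 + (-(w 0 * w' 0 * triL p δ δ δ)) * t ^ 3 := funext h1
    rw [h2]
    have h3 := (((((hasDerivAt_id (0 : ℝ)).const_mul
      (-(w 0 * w' 0 * (3 * triL p y y δ) + 3 / 2 * (w 0 * (2 * triL p y δ U') +
          w' 0 * (2 * triL p y δ U)) + 3 * triL p δ U U'))).const_add
      (-(w 0 * w' 0 * triL p y y y + 3 / 2 * (w 0 * triL p y y U' + w' 0 * triL p y y U) +
          3 * triL p y U U'))).add ((hasDerivAt_pow 2 (0 : ℝ)).const_mul
      (-(w 0 * w' 0 * (3 * triL p y δ δ) + 3 / 2 * (w 0 * triL p δ δ U' +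
          w' 0 * triL p δ δ U)))))).add ((hasDerivAt_pow 3 (0 : ℝ)).const_mul
      (-(w 0 * w' 0 * triL p δ δ δ)))
    refine (h3.congr_deriv ?_)
    simp
  exact hd1.unique hd2

end Vale.Agent.P256.St
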