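import Vale.Agent.P256.St.Defs

/-! Line restrictions of the form `N` and the positivity of the tangent gap of `N/q`. -/

namespace Vale.Agent.P256.St

open MvPolynomial

variable {m k : ℕ}

namespace NF

variable (F : NF m k)

theorem nn_add_left (η : Fin m → ℝ) (x y z : Fin (k + 1) → ℝ) :
    F.nn η (x + y) z = F.nn η x z + F.nn η y z := by
  simp only [nn, Pi.add_apply, mul_add, add_mul, Finset.sum_add_distrib]

theorem nn_add_right (η : Fin m → ℝ) (x y z : Fin (k + 1) → ℝ) :
    F.nn η x (y + z) = F.nn η x y + F.nn η x z := by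
  simp only [nn, Pi.add_apply, mul_add, Finset.sum_add_distrib]

theorem nn_smul_left (η : Fin m → ℝ) (c : ℝ) (x z : Fin (k + 1) → ℝ) :
    F.nn η (c • x) z = c * F.nn η x z := by
  simp only [nn, Pi.smul_apply, smul_eq_mul, Finset.mul_sum]
  refine Finset.sum_congr rfl fun a _ => Finset.sum_congr rfl fun b _ => ?_
  ring

theorem nn_smul_right (η : Fin m → ℝ) (c : ℝ) (x z : Fin (k + 1) → ℝ) :
    F.nn η x (c • z) = c * F.nn η x z := by
  simp only [nn, Pi.smul_apply, smul_eq_mul, Finset.mul_sum]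
  refine Finset.sum_congr rfl fun a _ => Finset.sum_congr rfl fun b _ => ?_
  ring

theorem nn_comm (η : Fin m → ℝ) (x y : Fin (k + 1) → ℝ) : F.nn η x y = F.nn η y x := by
  unfold nn
  rw [Finset.sum_comm]
  refine Finset.sum_congr rfl fun a _ => Finset.sum_congr rfl fun b _ => ?_
  rw [F.symm b a]
  ring

theorem dn_eq (η d : Fin m → ℝ) (x y : Fin (k + 1) → ℝ) :
    F.dn η d x y = ∑ a, ∑ b, dd (F.N a b) η d * x a * y b := by
  unfold dn dd
  simp only [Finset.mul_sum, Finset.sum_mul]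
  rw [Finset.sum_comm]
  refine Finset.sum_congr rfl fun a _ => ?_
  rw [Finset.sum_comm]
  refine Finset.sum_congr rfl fun b _ => Finset.sum_congr rfl fun i _ => ?_
  ring

theorem dn_add_left (η d : Fin m → ℝ) (x y z : Fin (k + 1) → ℝ) :
    F.dn η d (x + y) z = F.dn η d x z + F.dn η d y z := by
  simp only [dn_eq, Pi.add_apply, mul_add, add_mul, Finset.sum_add_distrib]

theorem dn_add_right (η d : Fin m → ℝ) (x y z : Fin (k + 1) → ℝ) :
    F.dn η d x (y + z) = F.dn η d x y + F.dn η d x z := by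
  simp only [dn_eq, Pi.add_apply, mul_add, Finset.sum_add_distrib]

theorem dn_smul_left (η d : Fin m → ℝ) (c : ℝ) (x z : Fin (k + 1) → ℝ) :
    F.dn η d (c • x) z = c * F.dn η d x z := by
  simp only [dn_eq, Pi.smul_apply, smul_eq_mul, Finset.mul_sum]
  refine Finset.sum_congr rfl fun a _ => Finset.sum_congr rfl fun b _ => ?_
  ring

theorem dn_smul_right (η d : Fin m → ℝ) (c : ℝ) (x z : Fin (k + 1) → ℝ) :
    F.dn η d x (c • z) = c * F.dn η d x z := by
  simp only [dn_eq, Pi.smul_apply, smul_eq_mul, Finset.mul_sum]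
  refine Finset.sum_congr rfl fun a _ => Finset.sum_congr rfl fun b _ => ?_
  ring

theorem dn_smul_dir (η d : Fin m → ℝ) (c : ℝ) (x z : Fin (k + 1) → ℝ) :
    F.dn η (c • d) x z = c * F.dn η d x z := by
  simp only [dn, Pi.smul_apply, smul_eq_mul, Finset.mul_sum]
  refine Finset.sum_congr rfl fun i _ => Finset.sum_congr rfl fun a _ =>
    Finset.sum_congr rfl fun b _ => ?_
  ring

theorem dn_comm (η d : Fin m → ℝ) (x y : Fin (k + 1) → ℝ) : F.dn η d x y = F.dn η d y x := by
  rw [dn_eq, dn_eq, Finset.sum_comm]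
  refine Finset.sum_congr rfl fun a _ => Finset.sum_congr rfl fun b _ => ?_
  rw [F.symm b a]
  ring

/-- second order part in `η` -/
noncomputable def d2 (η e : Fin m → ℝ) (w w' : Fin (k + 1) → ℝ) : ℝ :=
  ∑ i, ∑ j, e i * e j * ∑ a, ∑ b, (1 / 2 * eval η (pderiv i (pderiv j (F.N a b)))) * w a * w' b

theorem d2_eq (η e : Fin m → ℝ) (w w' : Fin (k + 1) → ℝ) :
    F.d2 η e w w' = ∑ a, ∑ b, (1 / 2 * dd2 (F.N a b) η e) * w a * w' b := by
  unfold d2 dd2
  simp only [Finset.mul_sum, Finset.sum_mul]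
  rw [Finset.sum_congr rfl (fun i _ => Finset.sum_comm)]
  rw [Finset.sum_comm]
  refine Finset.sum_congr rfl fun a _ => ?_
  rw [Finset.sum_congr rfl (fun i _ => Finset.sum_comm)]
  rw [Finset.sum_comm]
  refine Finset.sum_congr rfl fun b _ => Finset.sum_congr rfl fun i _ =>
    Finset.sum_congr rfl fun j _ => ?_
  ring

theorem d2_smul_dir (η e : Fin m → ℝ) (c : ℝ) (x z : Fin (k + 1) → ℝ) :
    F.d2 η (c • e) x z = c ^ 2 * F.d2 η e x z := by
  simp only [d2, Pi.smul_apply, smul_eq_mul, Finset.mul_sum]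
  refine Finset.sum_congr rfl fun i _ => Finset.sum_congr rfl fun j _ =>
    Finset.sum_congr rfl fun a _ => Finset.sum_congr rfl fun b _ => ?_
  ring

end NF

section Line

open Polynomial in
theorem natDegree_line_le {n : ℕ} (p : MvPolynomial (Fin n) ℝ) (x v : Fin n → ℝ) {D : ℕ}
    (h : p.totalDegree ≤ D) : (line p x v).natDegree ≤ D := by
  have := MvPolynomial.aeval_natDegree_le p h (fun i => Polynomial.C (x i) + Polynomial.X *
    Polynomial.C (v i)) (n := 1) (fun i => by
      refine (Polynomial.natDegree_add_le _ _).trans ?_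
      simp only [Polynomial.natDegree_C, Polynomial.X_mul_C]
      exact max_le (Nat.zero_le _) ((Polynomial.natDegree_C_mul_le _ _).trans
        Polynomial.natDegree_X_le))
  rw [mul_one] at this
  exact this

theorem coeff_zero_line {n : ℕ} (p : MvPolynomial (Fin n) ℝ) (x v : Fin n → ℝ) :
    (line p x v).coeff 0 = eval x p := by
  rw [Polynomial.coeff_zero_eq_eval_zero, eval_line, zero_smul, add_zero]

theorem coeff_one_line {n : ℕ} (p : MvPolynomial (Fin n) ℝ) (x v : Fin n → ℝ) :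
    (line p x v).coeff 1 = dd p x v := by
  have h := eval_derivative_line p x v 0
  rw [zero_smul, add_zero, ← Polynomial.coeff_zero_eq_eval_zero, Polynomial.coeff_derivative] at h
  simpa using h

theorem coeff_two_line {n : ℕ} (p : MvPolynomial (Fin n) ℝ) (x v : Fin n → ℝ) :
    (line p x v).coeff 2 = 1 / 2 * dd2 p x v := by
  have h := eval_derivative2_line p x v 0
  rw [zero_smul, add_zero, ← Polynomial.coeff_zero_eq_eval_zero, Polynomial.coeff_derivative,
    Polynomial.coeff_derivative, ← dd2_eq_eval] at h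
  norm_num at h
  linarith

end Line

namespace NF

variable (F : NF m k)

/-- the restriction of the quadratic form to a line -/
noncomputable def gp (η e : Fin m → ℝ) (w v : Fin (k + 1) → ℝ) : Polynomial ℝ :=
  ∑ a, ∑ b, (Polynomial.C (w a * w b) * line (F.N a b) η e +
    Polynomial.C (w a * v b + v a * w b) * (Polynomial.X * line (F.N a b) η e) +
    Polynomial.C (v a * v b) * (Polynomial.X ^ 2 * line (F.N a b) η e))

theorem eval_gp (η e : Fin m → ℝ) (w v : Fin (k + 1) → ℝ) (t : ℝ) :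
    (F.gp η e w v).eval t = F.nn (η + t • e) (w + t • v) (w + t • v) := by
  simp only [gp, nn, Polynomial.eval_finsetSum, Polynomial.eval_add, Polynomial.eval_mul,
    Polynomial.eval_C, Polynomial.eval_pow, Polynomial.eval_X, eval_line, Pi.add_apply,
    Pi.smul_apply, smul_eq_mul]
  refine Finset.sum_congr rfl fun a _ => Finset.sum_congr rfl fun b _ => ?_
  ring

theorem natDegree_gp_le (η e : Fin m → ℝ) (w v : Fin (k + 1) → ℝ) (hv : v 0 = 0) :
    (F.gp η e w v).natDegree ≤ 3 := by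
  unfold gp
  refine Polynomial.natDegree_sum_le_of_forall_le _ _ (fun a _ => ?_)
  refine Polynomial.natDegree_sum_le_of_forall_le _ _ (fun b _ => ?_)
  have key : ∀ D : ℕ, (F.N a b).totalDegree ≤ D → (line (F.N a b) η e).natDegree ≤ D :=
    fun D h => natDegree_line_le _ _ _ h
  have h1 : ∀ (c : ℝ) (p : Polynomial ℝ), (Polynomial.C c * p).natDegree ≤ p.natDegree :=
    fun c p => Polynomial.natDegree_C_mul_le c p
  have h2 : ∀ p : Polynomial ℝ, (Polynomial.X * p).natDegree ≤ 1 + p.natDegree := fun p =>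
    Polynomial.natDegree_mul_le.trans (add_le_add_left Polynomial.natDegree_X_le _)
  have h3 : ∀ p : Polynomial ℝ, (Polynomial.X ^ 2 * p).natDegree ≤ 2 + p.natDegree := fun p =>
    Polynomial.natDegree_mul_le.trans (add_le_add_left (Polynomial.natDegree_X_pow_le 2) _)
  refine Polynomial.natDegree_add_le_of_degree_le (Polynomial.natDegree_add_le_of_degree_le ?_ ?_) ?_
  all_goals
    revert key
    refine Fin.cases ?_ (fun i => ?_) a <;> refine Fin.cases ?_ (fun j => ?_) b <;> intro key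
  · exact (h1 _ _).trans (key 3 F.deg0)
  · exact (h1 _ _).trans ((key 2 (F.deg1 j)).trans (by norm_num))
  · exact (h1 _ _).trans ((key 2 (by rw [F.symm]; exact F.deg1 i)).trans (by norm_num))
  · exact (h1 _ _).trans ((key 1 (F.deg2 i j)).trans (by norm_num))
  · rw [hv]; simp
  · exact (h1 _ _).trans ((h2 _).trans (by have := key 2 (F.deg1 j); omega))
  · exact (h1 _ _).trans ((h2 _).trans
      (by have := key 2 (by rw [F.symm]; exact F.deg1 i); omega))
  · exact (h1 _ _).trans ((h2 _).trans (by have := key 1 (F.deg2 i j); omega))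
  · rw [hv]; simp
  · rw [hv]; simp
  · rw [hv]; simp
  · exact (h1 _ _).trans ((h3 _).trans (by have := key 1 (F.deg2 i j); omega))

theorem coeff_gp_zero (η e : Fin m → ℝ) (w v : Fin (k + 1) → ℝ) :
    (F.gp η e w v).coeff 0 = F.nn η w w := by
  rw [Polynomial.coeff_zero_eq_eval_zero, eval_gp, zero_smul, zero_smul, add_zero, add_zero]

theorem coeff_gp_one (η e : Fin m → ℝ) (w v : Fin (k + 1) → ℝ) :
    (F.gp η e w v).coeff 1 = F.dn η e w w + 2 * F.nn η w v := by
  have h2 : 2 * F.nn η w v = F.nn η w v + F.nn η v w := by rw [F.nn_comm η v w]; ring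
  rw [h2, dn_eq]
  simp only [gp, nn, Polynomial.finsetSum_coeff, Polynomial.coeff_add, Polynomial.coeff_C_mul,
    ← Finset.sum_add_distrib]
  refine Finset.sum_congr rfl fun a _ => Finset.sum_congr rfl fun b _ => ?_
  have e1 : (Polynomial.X * line (F.N a b) η e).coeff 1 = (line (F.N a b) η e).coeff 0 :=
    Polynomial.coeff_X_mul _ 0
  have e2 : (Polynomial.X ^ 2 * line (F.N a b) η e).coeff 1 = 0 := by
    rw [Polynomial.coeff_X_pow_mul']; simp
  rw [e1, e2, coeff_one_line, coeff_zero_line]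
  ring

theorem coeff_gp_two (η e : Fin m → ℝ) (w v : Fin (k + 1) → ℝ) :
    (F.gp η e w v).coeff 2 = F.d2 η e w w + 2 * F.dn η e w v + F.nn η v v := by
  have h2 : 2 * F.dn η e w v = F.dn η e w v + F.dn η e v w := by rw [F.dn_comm η e v w]; ring
  rw [h2, dn_eq, dn_eq, d2_eq]
  simp only [gp, nn, Polynomial.finsetSum_coeff, Polynomial.coeff_add, Polynomial.coeff_C_mul,
    ← Finset.sum_add_distrib]
  refine Finset.sum_congr rfl fun a _ => Finset.sum_congr rfl fun b _ => ?_
  have e1 : (Polynomial.X * line (F.N a b) η e).coeff 2 = (line (F.N a b) η e).coeff 1 :=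
    Polynomial.coeff_X_mul _ 1
  have e2 : (Polynomial.X ^ 2 * line (F.N a b) η e).coeff 2 = (line (F.N a b) η e).coeff 0 := by
    rw [Polynomial.coeff_X_pow_mul']; simp
  rw [e1, e2, coeff_one_line, coeff_zero_line, coeff_two_line]
  ring

/-- the restriction to a line with constant `w 0` is a cubic polynomial -/
theorem nn_cubic (η e : Fin m → ℝ) (w v : Fin (k + 1) → ℝ) (hv : v 0 = 0) :
    ∃ F3 : ℝ, ∀ t : ℝ, F.nn (η + t • e) (w + t • v) (w + t • v) =
      F.nn η w w + (F.dn η e w w + 2 * F.nn η w v) * t +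
        (F.d2 η e w w + 2 * F.dn η e w v + F.nn η v v) * t ^ 2 + F3 * t ^ 3 := by
  refine ⟨(F.gp η e w v).coeff 3, fun t => ?_⟩
  rw [← eval_gp, Polynomial.eval_eq_sum_range' (n := 4)
    (lt_of_le_of_lt (F.natDegree_gp_le η e w v hv) (by norm_num))]
  simp only [Finset.sum_range_succ, Finset.sum_range_zero, coeff_gp_zero, coeff_gp_one,
    coeff_gp_two]
  ring

/-- `A(η)[u,u]` is affine in `η` -/
theorem nn_affine (η e : Fin m → ℝ) (w : Fin (k + 1) → ℝ) (hw : w 0 = 0) (t : ℝ) :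
    F.nn (η + t • e) w w = F.nn η w w + t * F.dn η e w w := by
  rw [dn_eq]
  simp only [nn, Finset.mul_sum, ← Finset.sum_add_distrib]
  refine Finset.sum_congr rfl fun a _ => Finset.sum_congr rfl fun b _ => ?_
  rcases Fin.eq_zero_or_eq_succ a with rfl | ⟨i, rfl⟩
  · rw [hw]; ring
  rcases Fin.eq_zero_or_eq_succ b with rfl | ⟨j, rfl⟩
  · rw [hw]; ring
  have h := Polynomial.eval_eq_sum_range' (n := 2)
    (lt_of_le_of_lt (natDegree_line_le (F.N i.succ j.succ) η e (F.deg2 i j)) (by norm_num)) t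
  rw [eval_line] at h
  simp only [Finset.sum_range_succ, Finset.sum_range_zero, coeff_zero_line, coeff_one_line] at h
  rw [h]
  ring

end NF

theorem qh_line (η e : Fin m → ℝ) (t : ℝ) :
    qh (η + t • e) = qh η - (2 * ∑ i, η i * e i) * t - (∑ i, e i ^ 2) * t ^ 2 := by
  unfold qh
  simp only [Pi.add_apply, Pi.smul_apply, smul_eq_mul, Finset.mul_sum, Finset.sum_mul]
  have : ∀ i, (η i + t * e i) ^ 2 = η i ^ 2 + 2 * (η i * e i) * t + e i ^ 2 * t ^ 2 := by
    intro i; ring
  rw [Finset.sum_congr rfl (fun i _ => this i), Finset.sum_add_distrib, Finset.sum_add_distrib]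
  ring

theorem roots_aux {q b c : ℝ} (hq : 0 < q) (hc : 0 < c) :
    ∃ s1 s2 : ℝ, 0 < s1 ∧ 0 < s2 ∧ q = c * s1 * s2 ∧ b = c * (s1 - s2) := by
  have hΔ : 0 < b ^ 2 + 4 * q * c := by positivity
  set r := Real.sqrt (b ^ 2 + 4 * q * c) with hr
  have hr2 : r ^ 2 = b ^ 2 + 4 * q * c := Real.sq_sqrt hΔ.le
  have hrb : |b| < r := by
    rw [hr, ← Real.sqrt_sq_eq_abs]
    exact Real.sqrt_lt_sqrt (sq_nonneg _) (by nlinarith [mul_pos hq hc])
  have h1 := (abs_lt.1 hrb).1
  have h2 := (abs_lt.1 hrb).2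
  refine ⟨(r + b) / (2 * c), (r - b) / (2 * c), div_pos (by linarith) (by linarith),
    div_pos (by linarith) (by linarith), ?_, ?_⟩
  · field_simp
    nlinarith [hr2]
  · field_simp
    ring

theorem sum_sq_pos {e : Fin m → ℝ} (he : e ≠ 0) : 0 < ∑ i, e i ^ 2 := by
  obtain ⟨i, hi⟩ := Function.ne_iff.1 he
  have h1 : e i ^ 2 ≤ ∑ j, e j ^ 2 :=
    Finset.single_le_sum (f := fun j => e j ^ 2) (fun j _ => sq_nonneg _) (Finset.mem_univ i)
  have h2 : 0 < e i ^ 2 := by
    have : e i ≠ 0 := by simpa using hi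
    positivity
  linarith

namespace NF

variable {F : NF m k}

/-- strictness at a point with `q = 0` -/
theorem Strict.pos (hs : F.Strict) {η : Fin m → ℝ} (h : qh η = 0) {w : Fin (k + 1) → ℝ}
    (hw : w ≠ 0) : 0 < F.nn η w w :=
  hs η (by unfold qh at h; linarith) w hw

theorem Strict.nonneg (hs : F.Strict) {η : Fin m → ℝ} (h : qh η = 0) (w : Fin (k + 1) → ℝ) :
    0 ≤ F.nn η w w := by
  by_cases hw : w = 0
  · subst hw
    simp [nn]
  · exact (hs.pos h hw).le

/-- `A(η) > 0` on the closed ball -/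
theorem Strict.pos_aff (hs : F.Strict) (hm : 0 < m) {η : Fin m → ℝ} (h : 0 ≤ qh η)
    {w : Fin (k + 1) → ℝ} (hw0 : w 0 = 0) (hw : w ≠ 0) : 0 < F.nn η w w := by
  rcases h.eq_or_lt with h | h
  · exact hs.pos h.symm hw
  set e : Fin m → ℝ := Pi.single ⟨0, hm⟩ 1 with he
  have he0 : e ≠ 0 := by
    intro h0
    have := congrFun h0 ⟨0, hm⟩
    simp [he] at this
  obtain ⟨s1, s2, h1, h2, e1, e2⟩ := roots_aux (q := qh η) (b := 2 * ∑ i, η i * e i)
    (c := ∑ i, e i ^ 2) h (sum_sq_pos he0)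
  have r1 : qh (η + (-s1) • e) = 0 := by rw [qh_line, e2, e1]; ring
  have r2 : qh (η + s2 • e) = 0 := by rw [qh_line, e2, e1]; ring
  have p1 := hs.pos r1 hw
  have p2 := hs.pos r2 hw
  rw [F.nn_affine η e w hw0] at p1 p2
  by_contra hcon
  rw [not_lt] at hcon
  nlinarith [mul_pos h1 p2, mul_pos h2 p1]

/-- the tangent gap of `N/q` (times `q q*²`) -/
noncomputable def tt (F : NF m k) (l x : (Fin (k + 1) → ℝ) × (Fin m → ℝ)) : ℝ :=
  F.nn x.2 x.1 x.1 * qh l.2 ^ 2 - 2 * qh x.2 * qh l.2 * F.nn l.2 l.1 x.1 +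
    qh x.2 * (F.nn l.2 l.1 l.1 * (qh x.2 + ∑ i, (x.2 i - l.2 i) ^ 2) -
      qh l.2 * F.dn l.2 (fun i => x.2 i - l.2 i) l.1 l.1)

/-- strict convexity of `N/q`: two different points -/
theorem Strict.tt_pos (hs : F.Strict) (hm : 0 < m) {l x : (Fin (k + 1) → ℝ) × (Fin m → ℝ)}
    (hl : 0 < qh l.2) (hx : 0 < qh x.2) (h0 : x.1 0 = l.1 0) (hne : l ≠ x)
    (hw : l.1 ≠ 0 ∨ x.1 ≠ 0) : 0 < F.tt l x := by
  obtain ⟨w', η'⟩ := l
  obtain ⟨w, η⟩ := x
  simp only at hl hx h0 hw
  set e : Fin m → ℝ := fun i => η i - η' i with he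
  set v : Fin (k + 1) → ℝ := w - w' with hv
  have hv0 : v 0 = 0 := by simp [hv, h0]
  have eη : η = η' + (1 : ℝ) • e := by ext i; simp [he]
  have ew : w = w' + (1 : ℝ) • v := by ext i; simp [hv]
  have htt : F.tt (w', η') (w, η) = F.nn η w w * qh η' ^ 2 - 2 * qh η * qh η' * F.nn η' w' w +
      qh η * (F.nn η' w' w' * (qh η + ∑ i, e i ^ 2) - qh η' * F.dn η' e w' w') := rfl
  by_cases he0 : e = 0
  · have eηη : η = η' := by rw [eη, he0, smul_zero, add_zero]
    have hvne : v ≠ 0 := by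
      intro h
      apply hne
      rw [eηη]
      rw [ew, h, smul_zero, add_zero]
    have h1 := hs.pos_aff hm hl.le hv0 hvne
    have h2 : F.nn η' v v = F.nn η' w w - 2 * F.nn η' w' w + F.nn η' w' w' := by
      have e1 : w = w' + v := by rw [hv]; abel
      rw [e1, F.nn_add_left, F.nn_add_right, F.nn_add_right, F.nn_comm η' v w']
      ring
    have h3 : F.dn η' e w' w' = 0 := by rw [he0]; simp [dn]
    rw [htt, h3, he0, eηη]
    have h4 : ∑ i, (0 : Fin m → ℝ) i ^ 2 = 0 := by simp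
    rw [h4]
    have h5 : 0 < qh η' ^ 2 * F.nn η' v v := by positivity
    rw [h2] at h5
    linarith
  · obtain ⟨F3, hF⟩ := F.nn_cubic η' e w' v hv0
    have hc : 0 < ∑ i, e i ^ 2 := sum_sq_pos he0
    obtain ⟨s1, s2, h1, h2, e1, e2⟩ := roots_aux (q := qh η') (b := 2 * ∑ i, η' i * e i)
      (c := ∑ i, e i ^ 2) hl hc
    have r1 : qh (η' + (-s1) • e) = 0 := by rw [qh_line, e2, e1]; ring
    have r2 : qh (η' + s2 • e) = 0 := by rw [qh_line, e2, e1]; ring
    have r3 : qh η = (∑ i, e i ^ 2) * (1 + s1) * (s2 - 1) := by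
      conv_lhs => rw [eη]
      rw [qh_line, e2, e1]; ring
    have hs2 : 0 < s2 - 1 := by
      rw [r3] at hx
      exact (pos_iff_pos_of_mul_pos hx).1 (by positivity)
    have hF1 := hF 1
    rw [← eη, ← ew] at hF1
    have g1 := hF (-s1)
    have g2 := hF s2
    have n1 := hs.nonneg r1 (w' + (-s1) • v)
    have n2 := hs.nonneg r2 (w' + s2 • v)
    have hor : 0 < F.nn (η' + (-s1) • e) (w' + (-s1) • v) (w' + (-s1) • v) ∨
        0 < F.nn (η' + s2 • e) (w' + s2 • v) (w' + s2 • v) := by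
      by_contra hcon
      rw [not_or] at hcon
      have z1 : w' + (-s1) • v = 0 := by
        by_contra h
        exact hcon.1 (hs.pos r1 h)
      have z2 : w' + s2 • v = 0 := by
        by_contra h
        exact hcon.2 (hs.pos r2 h)
      have z3 : v = 0 := by
        ext i
        have a1 := congrFun z1 i
        have a2 := congrFun z2 i
        simp only [Pi.add_apply, Pi.smul_apply, smul_eq_mul, Pi.zero_apply] at a1 a2
        have a3 : (s1 + s2) * v i = 0 := by linarith
        rcases mul_eq_zero.1 a3 with a4 | a4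
        · linarith
        · exact a4
      have z4 : w' = 0 := by
        rw [z3, smul_zero, add_zero] at z1
        exact z1
      have z5 : w = 0 := by rw [ew, z3, z4, smul_zero, add_zero]
      rcases hw with hw | hw
      · exact hw z4
      · exact hw z5
    have hdn : F.nn η' w' w = F.nn η' w' w' + F.nn η' w' v := by
      have e1 : w = w' + v := by rw [hv]; abel
      rw [e1, F.nn_add_right]
    rw [htt, hdn, hF1]
    set N0 := F.nn η' w' w'
    set A1 := F.dn η' e w' w'
    set B1 := F.nn η' w' v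
    set F2 := F.d2 η' e w' w' + 2 * F.dn η' e w' v + F.nn η' v v
    set c := ∑ i, e i ^ 2
    set G1 := F.nn (η' + (-s1) • e) (w' + (-s1) • v) (w' + (-s1) • v)
    set G2 := F.nn (η' + s2 • e) (w' + s2 • v) (w' + s2 • v)
    rw [r3, e1]
    have key : (s1 + s2) * ((N0 + (A1 + 2 * B1) * 1 + F2 * 1 ^ 2 + F3 * 1 ^ 3) *
        (c * s1 * s2) ^ 2 - 2 * (c * (1 + s1) * (s2 - 1)) * (c * s1 * s2) * (N0 + B1) +
        c * (1 + s1) * (s2 - 1) * (N0 * (c * (1 + s1) * (s2 - 1) + c) - c * s1 * s2 * A1)) =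
        c ^ 2 * ((s2 - 1) * s2 ^ 2 * G1 + (1 + s1) * s1 ^ 2 * G2) := by
      rw [g1, g2]
      ring
    have hpos : 0 < c ^ 2 * ((s2 - 1) * s2 ^ 2 * G1 + (1 + s1) * s1 ^ 2 * G2) := by
      have k1 : 0 < (s2 - 1) * s2 ^ 2 := by positivity
      have k2 : 0 < (1 + s1) * s1 ^ 2 := by positivity
      have k3 : 0 < (s2 - 1) * s2 ^ 2 * G1 + (1 + s1) * s1 ^ 2 * G2 := by
        rcases hor with h | h
        · have := mul_pos k1 h
          have := mul_nonneg k2.le n2
          linarith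
        · have := mul_pos k2 h
          have := mul_nonneg k1.le n1
          linarith
      positivity
    rw [← key] at hpos
    exact (pos_iff_pos_of_mul_pos hpos).1 (by linarith)

/-- strict convexity of `N/q`: second derivative -/
theorem Strict.hess_pos (hs : F.Strict) (hm : 0 < m) {η e : Fin m → ℝ}
    {w v : Fin (k + 1) → ℝ} (hq : 0 < qh η) (hw : w ≠ 0) (hv0 : v 0 = 0)
    (hne : v ≠ 0 ∨ e ≠ 0) :
    0 < qh η ^ 2 * (F.d2 η e w w + 2 * F.dn η e w v + F.nn η v v) +
      (2 * ∑ i, η i * e i) * qh η * (F.dn η e w w + 2 * F.nn η w v) +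
      ((∑ i, e i ^ 2) * qh η + (2 * ∑ i, η i * e i) ^ 2) * F.nn η w w := by
  by_cases he0 : e = 0
  · have hvne : v ≠ 0 := hne.resolve_right (fun h => h he0)
    have h1 := hs.pos_aff hm hq.le hv0 hvne
    have h3 : F.dn η e w w = 0 := by rw [he0]; simp [dn]
    have h4 : F.dn η e w v = 0 := by rw [he0]; simp [dn]
    have h5 : F.d2 η e w w = 0 := by rw [he0]; simp [d2]
    have h6 : ∑ i, η i * e i = 0 := by rw [he0]; simp
    have h7 : ∑ i, e i ^ 2 = 0 := by rw [he0]; simp
    rw [h3, h4, h5, h6, h7]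
    have : 0 < qh η ^ 2 * F.nn η v v := by positivity
    nlinarith
  · obtain ⟨F3, hF⟩ := F.nn_cubic η e w v hv0
    have hc : 0 < ∑ i, e i ^ 2 := sum_sq_pos he0
    obtain ⟨s1, s2, h1, h2, e1, e2⟩ := roots_aux (q := qh η) (b := 2 * ∑ i, η i * e i)
      (c := ∑ i, e i ^ 2) hq hc
    have r1 : qh (η + (-s1) • e) = 0 := by rw [qh_line, e2, e1]; ring
    have r2 : qh (η + s2 • e) = 0 := by rw [qh_line, e2, e1]; ring
    have g1 := hF (-s1)
    have g2 := hF s2
    have n1 := hs.nonneg r1 (w + (-s1) • v)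
    have n2 := hs.nonneg r2 (w + s2 • v)
    have hor : 0 < F.nn (η + (-s1) • e) (w + (-s1) • v) (w + (-s1) • v) ∨
        0 < F.nn (η + s2 • e) (w + s2 • v) (w + s2 • v) := by
      by_contra hcon
      rw [not_or] at hcon
      have z1 : w + (-s1) • v = 0 := by
        by_contra h
        exact hcon.1 (hs.pos r1 h)
      have z2 : w + s2 • v = 0 := by
        by_contra h
        exact hcon.2 (hs.pos r2 h)
      have z3 : v = 0 := by
        ext i
        have a1 := congrFun z1 i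
        have a2 := congrFun z2 i
        simp only [Pi.add_apply, Pi.smul_apply, smul_eq_mul, Pi.zero_apply] at a1 a2
        have a3 : (s1 + s2) * v i = 0 := by linarith
        rcases mul_eq_zero.1 a3 with a4 | a4
        · linarith
        · exact a4
      rw [z3, smul_zero, add_zero] at z1
      exact hw z1
    rw [e2, e1]
    set N0 := F.nn η w w
    set A1 := F.dn η e w w + 2 * F.nn η w v
    set F2 := F.d2 η e w w + 2 * F.dn η e w v + F.nn η v v
    set c := ∑ i, e i ^ 2
    set G1 := F.nn (η + (-s1) • e) (w + (-s1) • v) (w + (-s1) • v)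
    set G2 := F.nn (η + s2 • e) (w + s2 • v) (w + s2 • v)
    have key : (s1 + s2) * ((c * s1 * s2) ^ 2 * F2 + c * (s1 - s2) * (c * s1 * s2) * A1 +
        (c * (c * s1 * s2) + (c * (s1 - s2)) ^ 2) * N0) =
        c ^ 2 * (s2 ^ 3 * G1 + s1 ^ 3 * G2) := by
      rw [g1, g2]
      ring
    have hpos : 0 < c ^ 2 * (s2 ^ 3 * G1 + s1 ^ 3 * G2) := by
      have k1 : 0 < s2 ^ 3 := by positivity
      have k2 : 0 < s1 ^ 3 := by positivity
      have k3 : 0 < s2 ^ 3 * G1 + s1 ^ 3 * G2 := by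
        rcases hor with h | h
        · have := mul_pos k1 h
          have := mul_nonneg k2.le n2
          linarith
        · have := mul_pos k2 h
          have := mul_nonneg k1.le n1
          linarith
      positivity
    rw [← key] at hpos
    exact (pos_iff_pos_of_mul_pos hpos).1 (by linarith)

/-- the affine inequality at a functional with `λ* = 0`, `q* > 0` -/
theorem Strict.aff_pos (hs : F.Strict) (hm : 0 < m) {η η' : Fin m → ℝ}
    {w : Fin (k + 1) → ℝ} (hq : 0 ≤ qh η) (hq' : 0 < qh η') (hw0 : w 0 = 0) (hw : w ≠ 0) :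
    0 < F.nn η' w w * (qh η + ∑ i, (η i - η' i) ^ 2) -
      qh η' * F.dn η' (fun i => η i - η' i) w w := by
  set e : Fin m → ℝ := fun i => η i - η' i with he
  have eη : η = η' + (1 : ℝ) • e := by ext i; simp [he]
  by_cases he0 : e = 0
  · have eηη : η = η' := by rw [eη, he0, smul_zero, add_zero]
    have h1 := hs.pos_aff hm hq'.le hw0 hw
    have h3 : F.dn η' e w w = 0 := by rw [he0]; simp [dn]
    have h4 : ∑ i, (η i - η' i) ^ 2 = 0 := by rw [eηη]; simp
    rw [h3, h4, eηη]
    have : 0 < F.nn η' w w * qh η' := by positivity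
    linarith
  · have hc : 0 < ∑ i, e i ^ 2 := sum_sq_pos he0
    obtain ⟨s1, s2, h1, h2, e1, e2⟩ := roots_aux (q := qh η') (b := 2 * ∑ i, η' i * e i)
      (c := ∑ i, e i ^ 2) hq' hc
    have r1 : qh (η' + (-s1) • e) = 0 := by rw [qh_line, e2, e1]; ring
    have r2 : qh (η' + s2 • e) = 0 := by rw [qh_line, e2, e1]; ring
    have r3 : qh η = (∑ i, e i ^ 2) * (1 + s1) * (s2 - 1) := by
      conv_lhs => rw [eη]
      rw [qh_line, e2, e1]; ring
    have hs2 : 0 ≤ s2 - 1 := by
      rw [r3] at hq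
      exact nonneg_of_mul_nonneg_right hq (by positivity)
    have g1 := F.nn_affine η' e w hw0 (-s1)
    have g2 := F.nn_affine η' e w hw0 s2
    have n1 := hs.pos r1 hw
    have n2 := hs.pos r2 hw
    have h4 : ∑ i, (η i - η' i) ^ 2 = ∑ i, e i ^ 2 := rfl
    rw [h4]
    set N0 := F.nn η' w w
    set A1 := F.dn η' e w w
    set c := ∑ i, e i ^ 2
    set G1 := F.nn (η' + (-s1) • e) w w
    set G2 := F.nn (η' + s2 • e) w w
    rw [r3, e1]
    have key : (s1 + s2) * (N0 * (c * (1 + s1) * (s2 - 1) + c) - c * s1 * s2 * A1) =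
        c * (s2 ^ 2 * (1 + s1) * G1 + s1 ^ 2 * (s2 - 1) * G2) := by
      rw [g1, g2]
      ring
    have hpos : 0 < c * (s2 ^ 2 * (1 + s1) * G1 + s1 ^ 2 * (s2 - 1) * G2) := by
      have k1 : 0 < s2 ^ 2 * (1 + s1) * G1 := by positivity
      have k2 : 0 ≤ s1 ^ 2 * (s2 - 1) * G2 := by positivity
      have k3 := add_pos_of_pos_of_nonneg k1 k2
      positivity
    rw [← key] at hpos
    exact (pos_iff_pos_of_mul_pos hpos).1 (by linarith)

/-- the affine inequality at a point with `λ = 0`, `q > 0` against `q* = 0` -/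
theorem Strict.aff_pos' (hs : F.Strict) {η η' : Fin m → ℝ}
    {w : Fin (k + 1) → ℝ} (hq : 0 < qh η) (hq' : qh η' = 0) (hw0 : w 0 = 0) (hw : w ≠ 0) :
    0 < F.nn η w w * (qh η + ∑ i, (η i - η' i) ^ 2) - qh η * F.nn η' w w := by
  set e : Fin m → ℝ := fun i => η' i - η i with he
  have eη : η' = η + (1 : ℝ) • e := by ext i; simp [he]
  have he0 : e ≠ 0 := by
    intro h
    rw [eη, h, smul_zero, add_zero] at hq'
    linarith
  have hc : 0 < ∑ i, e i ^ 2 := sum_sq_pos he0
  obtain ⟨s1, s2, h1, h2, e1, e2⟩ := roots_aux (q := qh η) (b := 2 * ∑ i, η i * e i)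
    (c := ∑ i, e i ^ 2) hq hc
  have r1 : qh (η + (-s1) • e) = 0 := by rw [qh_line, e2, e1]; ring
  have r3 : (∑ i, e i ^ 2) * (1 + s1) * (s2 - 1) = 0 := by
    rw [← hq']
    conv_rhs => rw [eη]
    rw [qh_line, e2, e1]; ring
  have hs2 : s2 = 1 := by
    rcases mul_eq_zero.1 r3 with h | h
    · have : 0 < (∑ i, e i ^ 2) * (1 + s1) := by positivity
      linarith
    · linarith
  have g1 := F.nn_affine η e w hw0 (-s1)
  have g2 : F.nn η' w w = F.nn η w w + 1 * F.dn η e w w := by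
    conv_lhs => rw [eη]
    exact F.nn_affine η e w hw0 1
  have n1 := hs.pos r1 hw
  have h4 : ∑ i, (η i - η' i) ^ 2 = ∑ i, e i ^ 2 := by
    refine Finset.sum_congr rfl fun i _ => ?_
    rw [he]; ring
  rw [h4, g2, e1, hs2]
  rw [g1] at n1
  have h5 := mul_pos hc n1
  nlinarith [h5]

end NF

end Vale.Agent.P256.St
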